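import Claimed.Agent.R246.F1.Lift

/-!
# Row 246, F1, B2: approximation ⟹ equality

PROOF of `fil_le_span`.  Let `a ∈ Fil n0`.  By dependent choice (`hstep`) build `r : ℕ → Â`, `c : ℕ → ι → Â` with
`r 0 = a`, `r k ∈ Fil (n0+k)`, `c k j ∈ Fil (n0 + k - κ j)`, `r k - ∑ j, w j * c k j = r (k+1)`.
As `κ j ≤ n0`, `c k j ∈ Fil k`; `exists_sum_Ahat` gives `C j` with `C j - ∑_{k<N} c k j ∈ Fil N`.
Then `a - ∑ j, w j * C j = r N - ∑ j, w j * (C j - ∑_{k<N} c k j) ∈ Fil N` for all `N`, so it is `0` (`Fil_inf`),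
and `a = ∑ j, w j * C j ∈ span (range w)`.

PROOF of `fil_le_span_of_lead`.  Check `hstep` of `fil_le_span`: for `a ∈ Fil n`, `g := coeff n a ∈ R_n` (`coeff_mem_InR`),
`q` from `hlead`, `c j` := a lift of `q j` in `Fil (n - κ j)` (`lift_exists`, `8 ≤ n - κ j`).
`a - ∑ w j * c j ∈ Fil n` (`Fil_mul`, `κ j + (n - κ j) = n`) and its `n`-th coefficient is
`g - ∑ coeff (κ j) (w j) * q j = 0` (`coeff_mul_of_dvd`); `mem_Fil_succ`.
-/

set_option autoImplicit false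

namespace Claimed.Agent.R246.F1

open Polynomial

variable (d : DD)

/-- B2 -/
theorem fil_le_span {ι : Type} [Fintype ι] (w : ι → Ahat d) (κ : ι → ℕ) (n0 : ℕ)
    (hκ : ∀ j, κ j ≤ n0)
    (hstep : ∀ n, n0 ≤ n → ∀ a ∈ Fil d n, ∃ c : ι → Ahat d,
      (∀ j, c j ∈ Fil d (n - κ j)) ∧ a - ∑ j, w j * c j ∈ Fil d (n + 1)) :
    Fil d n0 ≤ Ideal.span (Set.range w) := by
  intro a ha
  have step : ∀ (k : ℕ) (x : {x : Ahat d // x ∈ Fil d (n0 + k)}), ∃ c : ι → Ahat d,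
      (∀ j, c j ∈ Fil d (n0 + k - κ j)) ∧ x.1 - ∑ j, w j * c j ∈ Fil d (n0 + (k + 1)) :=
    fun k x => hstep (n0 + k) (by omega) x.1 x.2
  choose cf h1 h2 using step
  let r : (k : ℕ) → {x : Ahat d // x ∈ Fil d (n0 + k)} := fun k =>
    Nat.rec (motive := fun k => {x : Ahat d // x ∈ Fil d (n0 + k)}) ⟨a, ha⟩
      (fun k x => ⟨x.1 - ∑ j, w j * cf k x j, h2 k x⟩) k
  have r0 : (r 0).1 = a := rfl
  have rs : ∀ k, (r (k + 1)).1 = (r k).1 - ∑ j, w j * cf k (r k) j := fun k => rfl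
  have hc : ∀ j k, cf k (r k) j ∈ Fil d k := fun j k =>
    Fil_anti d (by have := hκ j; omega) (h1 k (r k) j)
  have hS := fun j => exists_sum_Ahat d (fun k => cf k (r k) j) (hc j)
  choose Cc hCc using hS
  have hr : ∀ N, a - ∑ j, w j * ∑ k ∈ Finset.range N, cf k (r k) j = (r N).1 := by
    intro N
    induction N with
    | zero => simp [r0]
    | succ N ih =>
      rw [rs, ← ih]
      simp only [Finset.sum_range_succ, mul_add, Finset.sum_add_distrib]
      ring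
  have hz : a - ∑ j, w j * Cc j = 0 := by
    apply Fil_inf d
    intro N
    have e : a - ∑ j, w j * Cc j
        = (r N).1 - ∑ j, w j * (Cc j - ∑ k ∈ Finset.range N, cf k (r k) j) := by
      rw [← hr N]
      simp only [mul_sub, Finset.sum_sub_distrib]
      ring
    rw [e]
    refine (Fil d N).sub_mem (Fil_anti d (by omega) (r N).2) ?_
    exact (Fil d N).sum_mem fun j _ => (Fil d N).mul_mem_left _ (hCc j N)
  rw [sub_eq_zero.1 hz]
  exact Ideal.sum_mem _ fun j _ => Ideal.mul_mem_right _ _ (Ideal.subset_span ⟨j, rfl⟩)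

/-- B1 + B2 -/
theorem fil_le_span_of_lead {ι : Type} [Fintype ι] (w : ι → Ahat d) (κ : ι → ℕ)
    (hw : ∀ j, w j ∈ Fil d (κ j)) (n0 : ℕ) (hκ : ∀ j, κ j + 8 ≤ n0)
    (hlead : ∀ n, n0 ≤ n → ∀ g, InR d.F n g → ∃ q : ι → ℂ[X],
      (∀ j, InR d.F (n - κ j) (q j)) ∧
        g = ∑ j, PowerSeries.coeff (κ j) ((w j : Ahat d) : PP) * q j) :
    Fil d n0 ≤ Ideal.span (Set.range w) := by
  refine fil_le_span d w κ n0 (fun j => by have := hκ j; omega) ?_
  intro n hn a ha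
  obtain ⟨q, hq1, hq2⟩ := hlead n hn _ (coeff_mem_InR d ha)
  have hl := fun j => lift_exists d (by have := hκ j; omega : 8 ≤ n - κ j) (hq1 j)
  choose c hc1 hc2 using hl
  refine ⟨c, hc1, ?_⟩
  have hkn : ∀ j, κ j + (n - κ j) = n := fun j => by have := hκ j; omega
  apply mem_Fil_succ d
  · refine (Fil d n).sub_mem ha ((Fil d n).sum_mem fun j _ => ?_)
    have := Fil_mul d (hw j) (hc1 j)
    rwa [hkn j] at this
  · have e : ((a - ∑ j, w j * c j : Ahat d) : PP) = (a : PP) - ∑ j, (w j : PP) * (c j : PP) := by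
      push_cast
      rfl
    rw [e, map_sub, map_sum, hq2, sub_eq_zero]
    apply Finset.sum_congr rfl
    intro j _
    have h3 := coeff_mul_of_dvd (mem_Fil.1 (hw j)) (mem_Fil.1 (hc1 j))
    rw [hkn j] at h3
    rw [h3, hc2 j]

end Claimed.Agent.R246.F1
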