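import Mathlib

/-!
# Row 246, module F1 (gluing data ⟹ formal certificate): basic objects

Blueprint: `git fetch -q origin helper350; git show origin/helper350:docs/h350_lz/R246_F1.md`.
Everything happens in `PP = ℂ[x][[V]] = PowerSeries (Polynomial ℂ)`;
`x = PowerSeries.C Polynomial.X`, `V = PowerSeries.X`.
-/

set_option autoImplicit false

namespace Claimed.Agent.R246.F1

open Polynomial

/-- `m(n) = ⌈2n/3⌉` -/
def mm (n : ℕ) : ℕ := (2 * n + 2) / 3

/-- `e(n) = ⌈(2n+2)/3⌉` -/
def ee (n : ℕ) : ℕ := (2 * n + 4) / 3

/-- `ℂ[x][[V]]` -/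
abbrev PP : Type := PowerSeries (Polynomial ℂ)

/-- the element `x` of `PP` -/
noncomputable abbrev xx : PP := PowerSeries.C (Polynomial.X : ℂ[X])

/-- the element `V` of `PP` -/
noncomputable abbrev VV : PP := (PowerSeries.X : PP)

/-- coefficientwise `d/dx` as a function -/
noncomputable def dxFun (f : PP) : PP := PowerSeries.mk fun n => derivative (PowerSeries.coeff n f)

@[simp] theorem coeff_dxFun (f : PP) (n : ℕ) :
    PowerSeries.coeff n (dxFun f) = derivative (PowerSeries.coeff n f) := by
  simp [dxFun]

theorem dxFun_mul (f g : PP) : dxFun (f * g) = f * dxFun g + g * dxFun f := by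
  ext1 n
  rw [mul_comm g (dxFun f)]
  simp only [coeff_dxFun, PowerSeries.coeff_mul, map_add, map_sum, derivative_mul]
  rw [← Finset.sum_add_distrib]
  exact Finset.sum_congr rfl fun p _ => by ring

/-- coefficientwise `d/dx` -/
noncomputable def dx : Derivation ℂ PP PP :=
  Derivation.mk'
    { toFun := dxFun
      map_add' := fun f g => by ext1 n; simp
      map_smul' := fun c f => by
        ext1 n
        simp }
    (fun f g => by simpa [smul_eq_mul] using dxFun_mul f g)

@[simp] theorem coeff_dx (f : PP) (n : ℕ) :
    PowerSeries.coeff n (dx f) = derivative (PowerSeries.coeff n f) := coeff_dxFun f n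

theorem dV_leibniz_aux {R : Type*} [CommRing R] (f g : PowerSeries R) :
    PowerSeries.derivative R (f * g)
      = f * PowerSeries.derivative R g + g * PowerSeries.derivative R f := by
  simp [(PowerSeries.derivative R).leibniz f g]

theorem dV_add_aux {R : Type*} [CommRing R] (f g : PowerSeries R) :
    PowerSeries.derivative R (f + g)
      = PowerSeries.derivative R f + PowerSeries.derivative R g := map_add _ f g

/-- `d/dV` -/
noncomputable def dV : Derivation ℂ PP PP :=
  Derivation.mk'
    { toFun := fun f => PowerSeries.derivative (Polynomial ℂ) f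
      map_add' := fun f g => dV_add_aux f g
      map_smul' := fun c f => by
        ext1 n
        simp [PowerSeries.coeff_derivative] }
    (fun f g => by simp [dV_leibniz_aux f g])

theorem coeff_dV (f : PP) (n : ℕ) :
    PowerSeries.coeff n (dV f) = PowerSeries.coeff (n + 1) f * ((n : ℂ[X]) + 1) :=
  PowerSeries.coeff_derivative f n

/-- the derivation `aa ∂_x + cc ∂_V` -/
noncomputable def mkD (aa cc : PP) : Derivation ℂ PP PP := aa • dx + cc • dV

theorem mkD_apply (aa cc f : PP) : mkD aa cc f = aa * dx f + cc * dV f := rfl

end Claimed.Agent.R246.F1
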