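import Claimed.Agent.R246.F1.Basic

/-!
# Row 246, module F1: the gluing data `DD` (blueprint `R246_F1.md`, section 1) and the ring `Â` (section 2)

Differences with the blueprint (harmless):
* `a0 = F * b0` (so `a0 / F = b0`), `Taff(ν)`: `F^(e(ν)-1) ∣ b0`, `F^m(ν) ∣ 3 c0 + 2 b0 F'`;
* all sequences are indexed by all `ν : ℕ` and vanish for `ν < 3`;
* `φ` is an abstract `ℂ`-algebra endomorphism of `PP` with (p2) (`φ_close`); (p3) follows.
-/

set_option autoImplicit false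

namespace Claimed.Agent.R246.F1

open Polynomial

/-- The gluing data (DD0)-(DD4). -/
structure DD where
  /-- (DD0) -/
  F : ℂ[X]
  /-- (DD1) the gluing map -/
  φ : PP →ₐ[ℂ] PP
  /-- (DD2) `a0 = F * b0` -/
  b0 : Fin 2 → ℕ → ℂ[X]
  c0 : Fin 2 → ℕ → ℂ[X]
  aoo : Fin 2 → ℕ → ℂ[X]
  coo : Fin 2 → ℕ → ℂ[X]
  u0 : ℂ
  F_monic : F.Monic
  F_deg : F.natDegree = 27
  F_sqf : IsCoprime F (derivative F)
  /-- (p2) -/
  φ_close : ∀ (n : ℕ) (a : PP), VV ^ n ∣ a → VV ^ (n + 1) ∣ φ a - a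
  low : ∀ i ν, ν < 3 → b0 i ν = 0 ∧ c0 i ν = 0 ∧ aoo i ν = 0 ∧ coo i ν = 0
  taff1 : ∀ i ν, F ^ (ee ν - 1) ∣ b0 i ν
  taff2 : ∀ i ν, F ^ mm ν ∣ 3 * c0 i ν + 2 * (b0 i ν * derivative F)
  roo1 : ∀ i ν, (aoo i ν).natDegree ≤ 20 * ν + 2
  roo2 : ∀ i ν, (coo i ν).natDegree ≤ 20 * ν + 1
  roo3 : ∀ i ν, (coo i ν).coeff (20 * ν + 1) + 20 * (aoo i ν).coeff (20 * ν + 2) = 0
  /-- (DD3) -/
  glue_x : ∀ i, φ (PowerSeries.mk fun ν => F * b0 i ν)
    = mkD (PowerSeries.mk (aoo i)) (VV * PowerSeries.mk (coo i)) (φ xx)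
  glue_V : ∀ i, φ (VV * PowerSeries.mk (c0 i))
    = mkD (PowerSeries.mk (aoo i)) (VV * PowerSeries.mk (coo i)) (φ VV)
  /-- (DD4) -/
  u0_ne : u0 ≠ 0
  wedge : VV ^ 10 ∣ (PowerSeries.mk fun ν => F * b0 0 ν) * (VV * PowerSeries.mk (c0 1))
    - (PowerSeries.mk fun ν => F * b0 1 ν) * (VV * PowerSeries.mk (c0 0))
    - PowerSeries.C (C u0 * F ^ 6) * VV ^ 9

namespace DD

variable (d : DD)

/-- `aa0_i = ∑ a0_ν V^ν` -/
noncomputable def aa0 (i : Fin 2) : PP := PowerSeries.mk fun ν => d.F * d.b0 i ν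
/-- `cc0_i = ∑ c0_ν V^(ν+1)` -/
noncomputable def cc0 (i : Fin 2) : PP := VV * PowerSeries.mk (d.c0 i)
noncomputable def aaoo (i : Fin 2) : PP := PowerSeries.mk (d.aoo i)
noncomputable def ccoo (i : Fin 2) : PP := VV * PowerSeries.mk (d.coo i)
/-- the derivation `D0_i` of `PP` -/
noncomputable def D0 (i : Fin 2) : Derivation ℂ PP PP := mkD (d.aa0 i) (d.cc0 i)
/-- the derivation `Doo_i` of `PP` -/
noncomputable def Doo (i : Fin 2) : Derivation ℂ PP PP := mkD (d.aaoo i) (d.ccoo i)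

end DD

/-- `R_n = { g : F^m(n) ∣ g, deg g ≤ 20 n }` -/
def InR (F : ℂ[X]) (n : ℕ) (g : ℂ[X]) : Prop := F ^ mm n ∣ g ∧ g.natDegree ≤ 20 * n

theorem mm_add_le (i j : ℕ) : mm (i + j) ≤ mm i + mm j := by
  unfold mm; omega

/-- `O_0 = { ∑ a_n V^n : F^m(n) ∣ a_n }` -/
def O0 (F : ℂ[X]) : Subalgebra ℂ PP where
  carrier := {a | ∀ n, F ^ mm n ∣ PowerSeries.coeff n a}
  mul_mem' := by
    intro a b ha hb n
    rw [PowerSeries.coeff_mul]
    refine Finset.dvd_sum fun p hp => ?_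
    have hp' : p.1 + p.2 = n := Finset.HasAntidiagonal.mem_antidiagonal.mp hp
    refine dvd_trans (pow_dvd_pow F ?_) (pow_add F _ _ ▸ mul_dvd_mul (ha p.1) (hb p.2))
    rw [← hp']; exact mm_add_le _ _
  add_mem' := by
    intro a b ha hb n
    rw [map_add]; exact dvd_add (ha n) (hb n)
  algebraMap_mem' := by
    intro c n
    rcases Nat.eq_zero_or_pos n with rfl | hn
    · simp [mm]
    · have : PowerSeries.coeff n (algebraMap ℂ PP c) = 0 := by
        rw [PowerSeries.algebraMap_apply, PowerSeries.coeff_C, if_neg hn.ne']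
      rw [this]; exact dvd_zero _

/-- `O_∞ = { ∑ a_n V^n : deg a_n ≤ 20 n }` -/
def Ooo : Subalgebra ℂ PP where
  carrier := {a | ∀ n, (PowerSeries.coeff n a).natDegree ≤ 20 * n}
  mul_mem' := by
    intro a b ha hb n
    rw [PowerSeries.coeff_mul]
    refine natDegree_sum_le_of_forall_le _ _ fun p hp => ?_
    have hp' : p.1 + p.2 = n := Finset.HasAntidiagonal.mem_antidiagonal.mp hp
    refine natDegree_mul_le.trans ?_
    have h1 := ha p.1
    have h2 := hb p.2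
    omega
  add_mem' := by
    intro a b ha hb n
    rw [map_add]; exact (natDegree_add_le _ _).trans (max_le (ha n) (hb n))
  algebraMap_mem' := by
    intro c n
    rcases Nat.eq_zero_or_pos n with rfl | hn
    · simp [PowerSeries.algebraMap_apply]
    · have : PowerSeries.coeff n (algebraMap ℂ PP c) = 0 := by
        rw [PowerSeries.algebraMap_apply, PowerSeries.coeff_C, if_neg hn.ne']
      rw [this]; simp

theorem mem_O0 {F : ℂ[X]} {a : PP} : a ∈ O0 F ↔ ∀ n, F ^ mm n ∣ PowerSeries.coeff n a := Iff.rfl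

theorem mem_Ooo {a : PP} : a ∈ Ooo ↔ ∀ n, (PowerSeries.coeff n a).natDegree ≤ 20 * n := Iff.rfl

/-- the ring `Â = { a ∈ O_0 : φ a ∈ O_∞ }` -/
noncomputable def Ahat (d : DD) : Subalgebra ℂ PP := O0 d.F ⊓ Ooo.comap d.φ

theorem mem_Ahat {d : DD} {a : PP} : a ∈ Ahat d ↔ a ∈ O0 d.F ∧ d.φ a ∈ Ooo := Iff.rfl

/-- the filtration `Fil_n = Â ∩ V^n PP`, as an ideal of `Â` -/
noncomputable def Fil (d : DD) (n : ℕ) : Ideal (Ahat d) :=
  Ideal.comap (Ahat d).val.toRingHom (Ideal.span {VV ^ n})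

theorem mem_Fil {d : DD} {n : ℕ} {a : Ahat d} : a ∈ Fil d n ↔ VV ^ n ∣ (a : PP) := by
  simp [Fil, Ideal.mem_comap, Ideal.mem_span_singleton]

end Claimed.Agent.R246.F1
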