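import Claimed.Agent.R246.F1.Data

/-!
# Row 246, F1, A4: the two polynomial lemmas behind "D0 preserves O_0, Doo preserves O_∞"

PROOFS (blueprint `R246_F1.md`, A4).
* `taff_term`.  Write `m = mm n`, `g = F^m h`, `ct = 3c + 2 b F'`.  Then
  `3 * ((F b) g' + n c g) = (3m - 2n) b F^m F' h + 3 b F^(m+1) h' + n ct F^m h`   (ring identity; `3m ≥ 2n`).
  If `n ≡ 0 mod 3` the first term vanishes (`3m = 2n`); otherwise `ee ν - 1 + mm n ≥ mm (n+ν)` (omega after
  `unfold mm ee`).  Second term: `ee ν - 1 + mm n + 1 ≥ mm (n+ν)`.  Third: `mm ν + mm n ≥ mm (n+ν)`.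
  `3` is a unit of `ℂ[X]` (`C 3`), so divisibility of `3 * _` gives the claim.
  (for `m = 0`: `g' = h'`, the formula still holds with `F^0 = 1`; do the computation with
  `derivative (F^m * h) = C m * F^(m-1) * F' * h + F^m * h'` and `F * F^(m-1) = F^m` for `m ≥ 1`; `m = 0` iff `n = 0`.)
* `roo_term`.  Both products have `natDegree ≤ 20(n+ν)+1`; the coefficient of `x^(20(n+ν)+1)` is
  `a_(20ν+2) * (20 n g_(20n)) + n c_(20ν+1) g_(20n) = n g_(20n) (20 a_(20ν+2) + c_(20ν+1)) = 0`
  (`Polynomial.coeff_mul_add_eq_of_natDegree_le`, `coeff_derivative`; case `n = 0`: `g` constant, everything is `0`).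
-/

set_option autoImplicit false

namespace Claimed.Agent.R246.F1

open Polynomial

theorem taff_term_mul_derivative_pow (F : ℂ[X]) (m : ℕ) :
    F * derivative (F ^ m) = (m : ℂ[X]) * F ^ m * derivative F := by
  cases m with
  | zero => simp
  | succ k =>
    rw [derivative_pow_succ]
    simp only [map_add, map_natCast, map_one, Nat.cast_add, Nat.cast_one]
    ring

theorem taff_term_isUnit_three : IsUnit (3 : ℂ[X]) := by
  have h : (3 : ℂ[X]) = C (3 : ℂ) := (map_ofNat C 3).symm
  rw [h]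
  exact Polynomial.isUnit_C.2 (isUnit_iff_ne_zero.2 (by norm_num))

theorem taff_term (F b c g : ℂ[X]) (ν n : ℕ) (hb : F ^ (ee ν - 1) ∣ b)
    (hc : F ^ mm ν ∣ 3 * c + 2 * (b * derivative F)) (hg : F ^ mm n ∣ g) :
    F ^ mm (ν + n) ∣ (F * b) * derivative g + (n : ℂ[X]) * c * g := by
  obtain ⟨h, rfl⟩ := hg
  rw [← taff_term_isUnit_three.dvd_mul_left]
  have hF := taff_term_mul_derivative_pow F (mm n)
  have key : 3 * ((F * b) * derivative (F ^ mm n * h) + (n : ℂ[X]) * c * (F ^ mm n * h)) =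
      (3 * (mm n : ℂ[X]) - 2 * (n : ℂ[X])) * (b * F ^ mm n) * (derivative F * h)
      + 3 * (b * F ^ (mm n + 1)) * derivative h
      + (n : ℂ[X]) * h * ((3 * c + 2 * (b * derivative F)) * F ^ mm n) := by
    rw [derivative_mul]
    linear_combination (3 * b * h) * hF
  rw [key]
  refine dvd_add (dvd_add ?_ ?_) ?_
  · by_cases h3 : 3 * mm n = 2 * n
    · have : (3 * (mm n : ℂ[X]) - 2 * (n : ℂ[X])) = 0 := by
        have h3' : ((3 * mm n : ℕ) : ℂ[X]) = ((2 * n : ℕ) : ℂ[X]) := by rw [h3]
        push_cast at h3'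
        rw [h3', sub_self]
      rw [this]
      simp
    · apply Dvd.dvd.mul_right
      apply Dvd.dvd.mul_left
      refine dvd_trans (pow_dvd_pow F ?_) (pow_add F (ee ν - 1) (mm n) ▸ mul_dvd_mul hb (dvd_refl _))
      unfold mm ee at *
      omega
  · apply Dvd.dvd.mul_right
    apply Dvd.dvd.mul_left
    refine dvd_trans (pow_dvd_pow F ?_) (pow_add F (ee ν - 1) (mm n + 1) ▸ mul_dvd_mul hb (dvd_refl _))
    unfold mm ee
    omega
  · apply Dvd.dvd.mul_left
    refine dvd_trans (pow_dvd_pow F ?_) (pow_add F (mm ν) (mm n) ▸ mul_dvd_mul hc (dvd_refl _))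
    exact mm_add_le _ _

theorem roo_term (a c g : ℂ[X]) (ν n : ℕ) (ha : a.natDegree ≤ 20 * ν + 2)
    (hc : c.natDegree ≤ 20 * ν + 1) (hac : c.coeff (20 * ν + 1) + 20 * a.coeff (20 * ν + 2) = 0)
    (hg : g.natDegree ≤ 20 * n) :
    (a * derivative g + (n : ℂ[X]) * c * g).natDegree ≤ 20 * (ν + n) := by
  rcases Nat.eq_zero_or_pos n with rfl | hn
  · have hg0 : g.natDegree = 0 := by omega
    rw [Polynomial.eq_C_of_natDegree_eq_zero hg0]
    simp
  · have hd : (derivative g).natDegree ≤ 20 * n - 1 :=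
      (Polynomial.natDegree_derivative_le g).trans (by omega)
    have hnc : ((n : ℂ[X]) * c).natDegree ≤ 20 * ν + 1 := by
      rw [← Polynomial.C_eq_natCast]
      exact (Polynomial.natDegree_C_mul_le _ _).trans hc
    rw [Polynomial.natDegree_le_iff_coeff_eq_zero]
    intro N hN
    rcases Nat.lt_or_ge (20 * (ν + n) + 1) N with h1 | h1
    · apply Polynomial.coeff_eq_zero_of_natDegree_lt
      refine lt_of_le_of_lt (Polynomial.natDegree_add_le _ _) ?_
      rw [max_lt_iff]
      constructor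
      · exact lt_of_le_of_lt Polynomial.natDegree_mul_le (by omega)
      · exact lt_of_le_of_lt Polynomial.natDegree_mul_le (by omega)
    · have hNe : N = 20 * (ν + n) + 1 := by omega
      subst hNe
      have e1 : 20 * (ν + n) + 1 = (20 * ν + 2) + (20 * n - 1) := by omega
      have e2 : 20 * (ν + n) + 1 = (20 * ν + 1) + 20 * n := by omega
      rw [Polynomial.coeff_add]
      have c1 : (a * derivative g).coeff (20 * (ν + n) + 1)
          = a.coeff (20 * ν + 2) * (derivative g).coeff (20 * n - 1) := by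
        rw [e1]; exact Polynomial.coeff_mul_add_eq_of_natDegree_le ha hd
      have c2 : ((n : ℂ[X]) * c * g).coeff (20 * (ν + n) + 1)
          = ((n : ℂ[X]) * c).coeff (20 * ν + 1) * g.coeff (20 * n) := by
        rw [e2]; exact Polynomial.coeff_mul_add_eq_of_natDegree_le hnc hg
      have c3 : (derivative g).coeff (20 * n - 1) = g.coeff (20 * n) * (20 * (n : ℂ)) := by
        rw [Polynomial.coeff_derivative]
        have : 20 * n - 1 + 1 = 20 * n := by omega
        rw [this]
        congr 1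
        have h2 : ((20 * n - 1 : ℕ) : ℂ) + 1 = ((20 * n - 1 + 1 : ℕ) : ℂ) := by push_cast; ring
        rw [h2, this]; push_cast; ring
      have c4 : ((n : ℂ[X]) * c).coeff (20 * ν + 1) = (n : ℂ) * c.coeff (20 * ν + 1) := by
        rw [← Polynomial.C_eq_natCast, Polynomial.coeff_C_mul]
      rw [c1, c2, c3, c4]
      have : a.coeff (20 * ν + 2) * (g.coeff (20 * n) * (20 * (n : ℂ)))
          + (n : ℂ) * c.coeff (20 * ν + 1) * g.coeff (20 * n)
          = (n : ℂ) * g.coeff (20 * n) * (c.coeff (20 * ν + 1) + 20 * a.coeff (20 * ν + 2)) := by ring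
      rw [this, hac, mul_zero]

end Claimed.Agent.R246.F1
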