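import Claimed.Agent.R246.F1.Phi
import Claimed.Agent.R246.F1.DerPoly

/-!
# Row 246, F1, A4-A5: the derivations `D_i` of `Â`

PROOFS (blueprint `R246_F1.md`, A4, A5).
* `coeff_mkD`: `mkD_apply`, `PowerSeries.coeff_mul`, `coeff_dx`; `V * dV f = ∑ n f_n V^n`
  (`coeff_dV`, `PowerSeries.coeff_succ_X_mul`, `coeff_zero_X_mul`), `mul_assoc` to write
  `(V * mk c) * dV f = mk c * (V * dV f)`.
* `D0_mem_O0`, `Doo_mem_Ooo`: `coeff_mkD` + `taff_term` / `roo_term` termwise
  (`Finset.dvd_sum`, `natDegree_sum_le_of_forall_le`).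
* `phiDer_ext`: `E 1 = 0`; `E (C p) = 0` for every polynomial `p` (`Polynomial.induction_on`; constants: `ℂ`-linearity);
  `E (V^n) = 0`; hence `E (trunc) = 0` for `∑_{i<n} C (a_i) V^i`; `a = trunc_n a + V^n r`
  and `E (V^n r) = φ(V)^n E r + φ r * 0`, `V ∣ φ V`: so `V^n ∣ E a` for all `n`, hence `E a = 0`.
* `phi_D0`: apply `phiDer_ext` to `E = φ ∘ D0 - Doo ∘ φ` (`d.glue_x`, `d.glue_V`; `D0 x = aa0`, `D0 V = cc0`).
* `D0_dvd`: `coeff_mkD` and `d.low`.
-/

set_option autoImplicit false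

namespace Claimed.Agent.R246.F1

open Polynomial

theorem coeff_mkD (a c : ℕ → ℂ[X]) (f : PP) (N : ℕ) :
    PowerSeries.coeff N (mkD (PowerSeries.mk a) (VV * PowerSeries.mk c) f)
      = ∑ p ∈ Finset.HasAntidiagonal.antidiagonal N, (a p.1 * derivative (PowerSeries.coeff p.2 f)
          + (p.2 : ℂ[X]) * c p.1 * PowerSeries.coeff p.2 f) := by
  have hV : ∀ n, PowerSeries.coeff n (VV * dV f) = (n : ℂ[X]) * PowerSeries.coeff n f := by
    intro n
    cases n with
    | zero => simp [PowerSeries.coeff_zero_X_mul]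
    | succ k =>
      rw [PowerSeries.coeff_succ_X_mul, coeff_dV]
      push_cast
      ring
  rw [mkD_apply, mul_right_comm, mul_comm (VV * dV f), map_add, PowerSeries.coeff_mul,
    PowerSeries.coeff_mul, ← Finset.sum_add_distrib]
  refine Finset.sum_congr rfl fun p _ => ?_
  rw [PowerSeries.coeff_mk, PowerSeries.coeff_mk, coeff_dx, hV]
  ring

variable (d : DD)

theorem D0_mem_O0 (i : Fin 2) {a : PP} (ha : a ∈ O0 d.F) : d.D0 i a ∈ O0 d.F := by
  rw [mem_O0] at ha ⊢
  intro N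
  unfold DD.D0 DD.aa0 DD.cc0
  rw [coeff_mkD]
  refine Finset.dvd_sum fun p hp => ?_
  have hp' : p.1 + p.2 = N := Finset.HasAntidiagonal.mem_antidiagonal.mp hp
  rw [← hp']
  exact taff_term d.F (d.b0 i p.1) (d.c0 i p.1) (PowerSeries.coeff p.2 a) p.1 p.2
    (d.taff1 i p.1) (d.taff2 i p.1) (ha p.2)

theorem Doo_mem_Ooo (i : Fin 2) {a : PP} (ha : a ∈ Ooo) : d.Doo i a ∈ Ooo := by
  rw [mem_Ooo] at ha ⊢
  intro N
  unfold DD.Doo DD.aaoo DD.ccoo
  rw [coeff_mkD]
  refine natDegree_sum_le_of_forall_le _ _ fun p hp => ?_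
  have hp' : p.1 + p.2 = N := Finset.HasAntidiagonal.mem_antidiagonal.mp hp
  rw [← hp']
  exact roo_term (d.aoo i p.1) (d.coo i p.1) (PowerSeries.coeff p.2 a) p.1 p.2
    (d.roo1 i p.1) (d.roo2 i p.1) (d.roo3 i p.1) (ha p.2)

/-- a `φ`-derivation killing `x` and `V` vanishes -/
theorem phiDer_ext (φ : PP →ₐ[ℂ] PP) (hφ : VV ∣ φ VV) (E : PP →ₗ[ℂ] PP)
    (hE : ∀ a b, E (a * b) = φ a * E b + φ b * E a) (hx : E xx = 0) (hV : E VV = 0) (a : PP) :
    E a = 0 := by
  have h1 : E 1 = 0 := by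
    have h := hE 1 1
    simp only [mul_one, map_one, one_mul] at h
    have h2 : E 1 + E 1 = E 1 + 0 := by rw [add_zero]; exact h.symm
    exact add_left_cancel h2
  have hC : ∀ p : ℂ[X], E (PowerSeries.C p) = 0 := by
    intro p
    induction p using Polynomial.induction_on with
    | C c =>
      have e : (PowerSeries.C (Polynomial.C c) : PP) = c • (1 : PP) := by
        ext1 n
        rw [PowerSeries.coeff_C]
        simp only [PowerSeries.coeff_smul, PowerSeries.coeff_one]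
        split_ifs
        · rw [Polynomial.smul_eq_C_mul, mul_one]
        · rw [smul_zero]
      rw [e, map_smul, h1, smul_zero]
    | add p q hp hq => rw [map_add, map_add, hp, hq, add_zero]
    | monomial n c ih =>
      have e : (PowerSeries.C (Polynomial.C c * Polynomial.X ^ (n + 1)) : PP)
          = PowerSeries.C (Polynomial.C c * Polynomial.X ^ n) * xx := by
        rw [← map_mul, pow_succ, mul_assoc]
      rw [e, hE, hx, ih, mul_zero, mul_zero, add_zero]
  have hdvd : ∀ (n : ℕ) (b : PP), VV ^ n ∣ E b := by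
    intro n
    induction n with
    | zero => intro b; rw [pow_zero]; exact one_dvd _
    | succ n ih =>
      intro b
      have e := PowerSeries.eq_X_mul_shift_add_const b
      rw [e, map_add, hC, add_zero, hE, hV, mul_zero, add_zero, pow_succ']
      exact mul_dvd_mul hφ (ih _)
  ext1 m
  rw [map_zero]
  exact PowerSeries.X_pow_dvd_iff.1 (hdvd (m + 1) a) m (Nat.lt_succ_self m)

theorem phi_D0_dx_xx : dx xx = 1 := by
  ext1 n
  rw [coeff_dx, PowerSeries.coeff_C, PowerSeries.coeff_one]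
  split_ifs <;> simp

theorem phi_D0_dx_VV : dx VV = 0 := by
  ext1 n
  rw [coeff_dx, PowerSeries.coeff_X]
  split_ifs <;> simp

theorem phi_D0_dV_xx : dV xx = 0 := by
  ext1 n
  rw [coeff_dV, PowerSeries.coeff_C]
  simp

theorem phi_D0_dV_VV : dV VV = 1 := by
  ext1 n
  rw [coeff_dV, PowerSeries.coeff_X, PowerSeries.coeff_one]
  rcases Nat.eq_zero_or_pos n with rfl | hn
  · simp
  · rw [if_neg (by omega), if_neg (by omega)]; simp

/-- A5 -/
theorem phi_D0 (i : Fin 2) (a : PP) : d.φ (d.D0 i a) = d.Doo i (d.φ a) := by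
  have hφ : VV ∣ d.φ VV := by
    have := phi_dvd d (n := 1) (a := VV) (by simp)
    simpa using this
  have key := phiDer_ext d.φ hφ
    (d.φ.toLinearMap ∘ₗ (d.D0 i).toLinearMap - (d.Doo i).toLinearMap ∘ₗ d.φ.toLinearMap)
    (by
      intro a b
      simp only [LinearMap.sub_apply, LinearMap.comp_apply, AlgHom.toLinearMap_apply,
        Derivation.coeFn_coe, Derivation.leibniz, map_mul, map_add, smul_eq_mul]
      ring)
    (by
      simp only [LinearMap.sub_apply, LinearMap.comp_apply, AlgHom.toLinearMap_apply,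
        Derivation.coeFn_coe]
      have h1 : d.D0 i xx = PowerSeries.mk fun ν => d.F * d.b0 i ν := by
        simp only [DD.D0, mkD_apply, phi_D0_dx_xx, phi_D0_dV_xx, DD.aa0]
        ring
      rw [h1, d.glue_x i]
      simp [DD.Doo, DD.aaoo, DD.ccoo])
    (by
      simp only [LinearMap.sub_apply, LinearMap.comp_apply, AlgHom.toLinearMap_apply,
        Derivation.coeFn_coe]
      have h1 : d.D0 i VV = VV * PowerSeries.mk (d.c0 i) := by
        simp only [DD.D0, mkD_apply, phi_D0_dx_VV, phi_D0_dV_VV, DD.cc0]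
        ring
      rw [h1, d.glue_V i]
      simp [DD.Doo, DD.aaoo, DD.ccoo])
    a
  simp only [LinearMap.sub_apply, LinearMap.comp_apply, AlgHom.toLinearMap_apply,
        Derivation.coeFn_coe] at key
  exact sub_eq_zero.mp key

theorem D0_mem_Ahat (i : Fin 2) {a : PP} (ha : a ∈ Ahat d) : d.D0 i a ∈ Ahat d := by
  rw [mem_Ahat] at ha ⊢
  exact ⟨D0_mem_O0 d i ha.1, by rw [phi_D0]; exact Doo_mem_Ooo d i ha.2⟩

theorem D0_dvd (i : Fin 2) {n : ℕ} {a : PP} (ha : VV ^ n ∣ a) : VV ^ (n + 3) ∣ d.D0 i a := by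
  rw [PowerSeries.X_pow_dvd_iff] at ha ⊢
  intro N hN
  have e : d.D0 i a = mkD (PowerSeries.mk fun ν => d.F * d.b0 i ν)
      (VV * PowerSeries.mk (d.c0 i)) a := rfl
  rw [e, coeff_mkD]
  refine Finset.sum_eq_zero fun p hp => ?_
  have hp' : p.1 + p.2 = N := Finset.HasAntidiagonal.mem_antidiagonal.mp hp
  by_cases h3 : p.1 < 3
  · obtain ⟨h1, h2, -, -⟩ := d.low i p.1 h3
    simp only [h1, h2]
    simp
  · have h := ha p.2 (by omega)
    rw [h]
    simp

/-- the derivation `D_i` of `Â` -/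
noncomputable def Dhat (i : Fin 2) : Derivation ℂ (Ahat d) (Ahat d) :=
  Derivation.mk'
    { toFun := fun a => ⟨d.D0 i a, D0_mem_Ahat d i a.2⟩
      map_add' := fun a b => Subtype.ext (by simp)
      map_smul' := fun c a => Subtype.ext (by simp) }
    (fun a b => Subtype.ext (by simp))

@[simp] theorem coe_Dhat (i : Fin 2) (a : Ahat d) : ((Dhat d i a : Ahat d) : PP) = d.D0 i a := rfl

theorem Dhat_mem_Fil (i : Fin 2) {n : ℕ} {a : Ahat d} (ha : a ∈ Fil d n) :
    Dhat d i a ∈ Fil d (n + 3) := by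
  rw [mem_Fil] at ha ⊢
  exact D0_dvd d i ha

end Claimed.Agent.R246.F1
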