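import Claimed.Agent.R246.F1.Der

/-!
# Row 246, F1, A2/A5: the point `ev` of `Â`   ((FC3) of `R246_T.md`)

PROOFS.
* `InR_zero_of_small`: `g = F^m h`, `h ≠ 0` would give `natDegree g = 27 m + natDegree h ≥ 27 * mm n > 20 n`
  (`Polynomial.natDegree_mul'`/`Monic.natDegree_mul'`, `Monic.natDegree_pow`, `d.F_deg`).
  Used for `n = 1, 2` (and 4, 5, 8).
* `ev_eq_zero_iff`: by `coeff_mem_InR` with `n = 0` the constant coefficient `a_0` has `natDegree ≤ 0`, so
  `a_0 = C (a_0.eval 0)` (`Polynomial.eq_C_of_natDegree_le_zero`); `V^1 ∣ a ↔ a_0 = 0` (`PowerSeries.X_dvd_iff`).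
* `fil1_le_fil3`: `mem_Fil_succ` twice with `coeff_mem_InR` and `InR_zero_of_small`.
* `ev_Dhat`: `Dhat_mem_Fil` with `n = 0`, `Fil_anti`, `ev_eq_zero_iff`.
-/

set_option autoImplicit false

namespace Claimed.Agent.R246.F1

open Polynomial

/-- `a ↦ a_0(0)` -/
noncomputable def ev0 : PP →ₐ[ℂ] ℂ :=
  { ((Polynomial.evalRingHom (0 : ℂ)).comp (PowerSeries.constantCoeff (R := ℂ[X]))) with
    commutes' := fun c => by simp [PowerSeries.algebraMap_apply] }

variable (d : DD)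

/-- the point -/
noncomputable def ev : Ahat d →ₐ[ℂ] ℂ := ev0.comp (Ahat d).val

theorem InR_zero_of_small {n : ℕ} (hn : 20 * n < 27 * mm n) {g : ℂ[X]} (hg : InR d.F n g) :
    g = 0 := by
  obtain ⟨⟨h, rfl⟩, hdeg⟩ := hg
  by_contra hne
  have hh : h ≠ 0 := by
    rintro rfl
    exact hne (mul_zero _)
  have hm : (d.F ^ mm n).Monic := d.F_monic.pow _
  have h1 : (d.F ^ mm n * h).natDegree = (d.F ^ mm n).natDegree + h.natDegree :=
    hm.natDegree_mul' hh
  have h2 : (d.F ^ mm n).natDegree = mm n * 27 := by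
    rw [d.F_monic.natDegree_pow, d.F_deg]
  omega

theorem ev_eq_zero_iff {a : Ahat d} : ev d a = 0 ↔ a ∈ Fil d 1 := by
  have h0 : a ∈ Fil d 0 := by
    rw [mem_Fil]; simp
  have hR := coeff_mem_InR d h0
  have hdeg : (PowerSeries.coeff 0 (a : PP)).natDegree ≤ 0 := by
    simpa using hR.2
  have hC := Polynomial.eq_C_of_natDegree_le_zero hdeg
  have hev : ev d a = (PowerSeries.coeff 0 (a : PP)).eval 0 := by
    simp [ev, ev0]
  rw [mem_Fil, pow_one, PowerSeries.X_dvd_iff, hev, ← PowerSeries.coeff_zero_eq_constantCoeff_apply]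
  constructor
  · intro h
    rw [hC]
    rw [← Polynomial.coeff_zero_eq_eval_zero] at h
    rw [h, map_zero]
  · intro h
    rw [h]; simp

theorem fil1_le_fil3 : Fil d 1 ≤ Fil d 3 := by
  intro a ha
  have h2 : a ∈ Fil d 2 :=
    mem_Fil_succ d ha (InR_zero_of_small d (by decide) (coeff_mem_InR d ha))
  exact mem_Fil_succ d h2 (InR_zero_of_small d (by decide) (coeff_mem_InR d h2))

theorem ev_Dhat (i : Fin 2) (a : Ahat d) : ev d (Dhat d i a) = 0 := by
  have h0 : a ∈ Fil d 0 := by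
    rw [mem_Fil]; simp
  rw [ev_eq_zero_iff]
  exact Fil_anti d (by omega) (Dhat_mem_Fil d i h0)

end Claimed.Agent.R246.F1
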