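import Claimed.Agent.R246.F1.Ext13Phi

/-!
# Row 246, module EXT: `FinData13 ⟹ DD`   (helper663)

Data for the levels `ν ≤ 13` suffice (remark of helper449).  Levels `14, 15`: G1 holds verbatim (`ext13_split14/15`).
Level `16`: the only obstruction is `lam(p) = coeff_323 (p %ₘ F^12)` for each of the two fields; replacing `φ x` by
`φ x + A V^13` changes the `x`-defect of the `i`-th field at order `16` by `-13 A f_i` (`f_i = c0 i 3`) and nothing at lower order, and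
a suitable `A` realises every pair of values of `(lam (A f_0), lam (A f_1))` (`f_0, f_1` linearly independent).
From level `17` on: `exists_tail`.
-/

set_option autoImplicit false

namespace Claimed.Agent.R246.F1

open Polynomial

theorem ext13_two_steps {φ : PP →ₐ[ℂ] PP} (hφ : Close φ) (F : ℂ[X]) (hF : F.Monic)
    (hdeg : F.natDegree = 27) (B Cc A' C' : PP) (hT : TaffP F B Cc) (hR : RooP A' C')
    (hx : VV ^ 14 ∣ Ex φ F B A' C') (hV : VV ^ 15 ∣ EV φ Cc A' C') :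
    ∃ B1 Cc1 A1 C1 : PP, TaffP F B1 Cc1 ∧ RooP A1 C1 ∧
      VV ^ 16 ∣ Ex φ F B1 A1 C1 ∧ VV ^ 17 ∣ EV φ Cc1 A1 C1 ∧
      VV ^ 14 ∣ B1 - B ∧ VV ^ 14 ∣ Cc1 - Cc ∧ VV ^ 14 ∣ A1 - A' ∧ VV ^ 14 ∣ C1 - C' := by
  obtain ⟨b1, c1, a1, d1, r1, r2, r3, r4, r5, r6, r7, r8⟩ :=
    ext13_step hφ F (N := 14) B Cc A' C' hT hR hx hV (ext13_split14 F hF hdeg _ _)
  obtain ⟨b2, c2, a2, d2, s1, s2, s3, s4, s5, s6, s7, s8⟩ :=
    ext13_step hφ F (N := 15) b1 c1 a1 d1 r1 r2 r3 r4 (ext13_split15 F hF hdeg _ _)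
  have comb : ∀ {u v w : PP}, VV ^ 15 ∣ u - v → VV ^ 14 ∣ v - w → VV ^ 14 ∣ u - w := by
    intro u v w h1 h2
    have := dvd_add ((pow_dvd_pow VV (by norm_num : 14 ≤ 15)).trans h1) h2
    rwa [sub_add_sub_cancel] at this
  exact ⟨b2, c2, a2, d2, s1, s2, s3, s4, comb s5 r5, comb s6 r6, comb s7 r7, comb s8 r8⟩

theorem ext13_finish {X' V' : PP} (hX : VV ∣ X' - xx) (hV : VV ^ 2 ∣ V' - VV) (F : ℂ[X])
    (hF : F.Monic) (hdeg : F.natDegree = 27) (A : ℂ[X]) (B Cc A' C' : PP)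
    (hT : TaffP F B Cc) (hR : RooP A' C')
    (hx : VV ^ 16 ∣ Ex (phiOf X' V' hV) F B A' C') (hv : VV ^ 17 ∣ EV (phiOf X' V' hV) Cc A' C')
    (hB : VV ^ 4 ∣ B) (hA : VV ^ 4 ∣ A') (hC : VV ^ 3 ∣ C') (hCc : VV ^ 3 ∣ Cc)
    (hlam : ext13Lam F (13 * A * PowerSeries.coeff 3 C')
      = ext13Lam F (PowerSeries.coeff 16 (Ex (phiOf X' V' hV) F B A' C'))) :
    ∃ B1 Cc1 A1 C1 : PP, TaffP F B1 Cc1 ∧ RooP A1 C1 ∧
      Ex (phiOf (X' + PowerSeries.C A * VV ^ 13) V' hV) F B1 A1 C1 = 0 ∧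
      EV (phiOf (X' + PowerSeries.C A * VV ^ 13) V' hV) Cc1 A1 C1 = 0 ∧
      VV ^ 16 ∣ B1 - B ∧ VV ^ 16 ∣ Cc1 - Cc ∧ VV ^ 16 ∣ A1 - A' ∧ VV ^ 16 ∣ C1 - C' := by
  have hX1 : VV ∣ X' + PowerSeries.C A * VV ^ 13 - xx := by
    have h1 : VV ∣ PowerSeries.C A * VV ^ 13 := Dvd.dvd.mul_left (dvd_pow_self VV (by norm_num)) _
    have := dvd_add hX h1
    convert this using 1
    ring
  set φ1 := phiOf (X' + PowerSeries.C A * VV ^ 13) V' hV with hφ1def
  have hφ1 : Close φ1 := fun n a ha => phiFun_close hX1 hV n a ha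
  have ch := ext13_Ex_change (X' := X') hV F A hB hA hC
  rw [← hφ1def] at ch
  have cv := ext13_EV_change (X' := X') hV A A' C' hCc
  rw [← hφ1def] at cv
  set E0 := Ex (phiOf X' V' hV) F B A' C' with hE0
  set E1 := Ex φ1 F B A' C' with hE1
  set c3 := PowerSeries.coeff 3 C' with hc3
  have hx1 : VV ^ 16 ∣ E1 := by
    have h1 : VV ^ 16 ∣ E1 - E0 + PowerSeries.C (13 * A * c3) * VV ^ 16 :=
      (pow_dvd_pow VV (by norm_num : 16 ≤ 17)).trans ch
    have h2 : VV ^ 16 ∣ PowerSeries.C (13 * A * c3) * VV ^ 16 := dvd_mul_left _ _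
    have := dvd_add (dvd_sub h1 h2) hx
    convert this using 1
    ring
  have hco : PowerSeries.coeff 16 E1 = PowerSeries.coeff 16 E0 - 13 * A * c3 := by
    have := PowerSeries.X_pow_dvd_iff.1 ch 16 (by norm_num)
    rw [map_add, map_sub, PowerSeries.coeff_C_mul_X_pow, if_pos rfl] at this
    linear_combination this
  have hv1 : VV ^ (16 + 1) ∣ EV φ1 Cc A' C' := by
    have := dvd_add cv hv
    rwa [sub_add_cancel] at this
  have hs : SplitAt F 16 (- PowerSeries.coeff 16 E1) (- PowerSeries.coeff (16 + 1) (EV φ1 Cc A' C')) := by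
    refine ext13_split16 F hF hdeg _ _ ?_
    rw [hco, ext13Lam_neg, sub_eq_add_neg, ext13Lam_add, ext13Lam_neg, hlam]
    ring
  obtain ⟨b1, c1, a1, d1, r1, r2, r3, r4, r5, r6, r7, r8⟩ :=
    ext13_step hφ1 F (N := 16) B Cc A' C' hT hR hx1 hv1 hs
  obtain ⟨b2, c2, a2, d2, s1, s2, s3, s4, s5, s6, s7, s8⟩ :=
    exists_tail hφ1 F hF hdeg b1 c1 a1 d1 r1 r2 r3 r4
  have comb : ∀ {u v w : PP}, VV ^ 17 ∣ u - v → VV ^ 16 ∣ v - w → VV ^ 16 ∣ u - w := by
    intro u v w h1 h2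
    have := dvd_add ((pow_dvd_pow VV (by norm_num : 16 ≤ 17)).trans h1) h2
    rwa [sub_add_sub_cancel] at this
  exact ⟨b2, c2, a2, d2, s1, s2, s3, s4, comb s5 r5, comb s6 r6, comb s7 r7, comb s8 r8⟩

theorem ext13_dvd_mk {n : ℕ} {b : ℕ → ℂ[X]} (h : ∀ ν, ν < n → b ν = 0) :
    VV ^ n ∣ PowerSeries.mk b := by
  rw [PowerSeries.X_pow_dvd_iff]
  intro m hm
  rw [PowerSeries.coeff_mk, h m hm]

theorem ext13_dvd_of_sub {n N : ℕ} (hn : n ≤ N) {a b : PP} (h : VV ^ N ∣ a - b) (hb : VV ^ n ∣ b) :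
    VV ^ n ∣ a := by
  have := dvd_add ((pow_dvd_pow VV hn).trans h) hb
  rwa [sub_add_cancel] at this

/-- data for the levels `ν ≤ 13` ⟹ gluing data -/
theorem exists_DD13 (f : FinData13) : Nonempty DD := by
  have hVd : VV ∣ f.V' := VV_dvd_of_sq f.hV
  set φ : PP →ₐ[ℂ] PP := phiOf f.X' f.V' f.hV with hφdef
  have hφ : Close φ := fun n a ha => phiFun_close f.hX f.hV n a ha
  have hT : ∀ i, TaffP f.F (PowerSeries.mk (f.b0 i)) (PowerSeries.mk (f.c0 i)) := by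
    intro i ν
    rw [PowerSeries.coeff_mk, PowerSeries.coeff_mk]
    rcases Nat.lt_or_ge 13 ν with h | h
    · obtain ⟨e1, e2, -, -⟩ := f.high i ν h
      rw [e1, e2]
      simp
    · exact ⟨f.taff1 i ν h, f.taff2 i ν h⟩
  have hR : ∀ i, RooP (PowerSeries.mk (f.aoo i)) (PowerSeries.mk (f.coo i)) := by
    intro i ν
    rw [PowerSeries.coeff_mk, PowerSeries.coeff_mk]
    rcases Nat.lt_or_ge 13 ν with h | h
    · obtain ⟨-, -, e1, e2⟩ := f.high i ν h
      rw [e1, e2]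
      simp
    · exact ⟨f.roo1 i ν h, f.roo2 i ν h, f.roo3 i ν h⟩
  have hx : ∀ i, VV ^ 14 ∣ Ex φ f.F (PowerSeries.mk (f.b0 i)) (PowerSeries.mk (f.aoo i))
      (PowerSeries.mk (f.coo i)) := by
    intro i
    have h1 := phiFun_approx (X' := f.X') hVd (PowerSeries.C f.F * PowerSeries.mk (f.b0 i)) 14
    have h2 := dvd_add h1 (f.glue_x i)
    have e : ∀ n, PowerSeries.coeff n (PowerSeries.C f.F * PowerSeries.mk (f.b0 i))
        = f.F * f.b0 i n := fun n => by rw [PowerSeries.coeff_C_mul, PowerSeries.coeff_mk]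
    simp only [e] at h2
    unfold Ex
    rw [hφdef, phiOf_xx, phiOf_apply]
    convert h2 using 1
    ring
  have hV : ∀ i, VV ^ 15 ∣ EV φ (PowerSeries.mk (f.c0 i)) (PowerSeries.mk (f.aoo i))
      (PowerSeries.mk (f.coo i)) := by
    intro i
    have h1 := phiFun_approx (X' := f.X') hVd (PowerSeries.mk (f.c0 i)) 14
    have h1' : VV ^ 15 ∣ f.V' * (phiFun f.X' f.V' (PowerSeries.mk (f.c0 i))
        - ∑ n ∈ Finset.range 14,
          Polynomial.aeval f.X' (PowerSeries.coeff n (PowerSeries.mk (f.c0 i))) * f.V' ^ n) := by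
      have : VV ^ 15 = VV * VV ^ 14 := by ring
      rw [this]
      exact mul_dvd_mul hVd h1
    have h2 := dvd_add h1' (f.glue_V i)
    simp only [PowerSeries.coeff_mk] at h2
    unfold EV
    rw [map_mul, hφdef, phiOf_VV, phiOf_apply]
    convert h2 using 1
    rw [mul_sub, Finset.mul_sum]
    have : ∀ ν, f.V' * (Polynomial.aeval f.X' (f.c0 i ν) * f.V' ^ ν)
        = Polynomial.aeval f.X' (f.c0 i ν) * f.V' ^ (ν + 1) := fun ν => by ring
    simp only [this]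
    ring
  -- the lowest level
  have d3B : ∀ i, VV ^ 3 ∣ PowerSeries.mk (f.b0 i) := fun i =>
    ext13_dvd_mk fun ν h => (f.low i ν h).1
  have d3Cc : ∀ i, VV ^ 3 ∣ PowerSeries.mk (f.c0 i) := fun i =>
    ext13_dvd_mk fun ν h => (f.low i ν h).2.1
  have d3A : ∀ i, VV ^ 3 ∣ PowerSeries.mk (f.aoo i) := fun i =>
    ext13_dvd_mk fun ν h => (f.low i ν h).2.2.1
  have d3C : ∀ i, VV ^ 3 ∣ PowerSeries.mk (f.coo i) := fun i =>
    ext13_dvd_mk fun ν h => (f.low i ν h).2.2.2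
  have ab3 : ∀ i, f.aoo i 3 = f.F * f.b0 i 3 := by
    intro i
    have h1 := (Ex_lead hφ f.F (d3B i) (d3A i) (d3C i)).2
    rw [PowerSeries.X_pow_dvd_iff.1 (hx i) 3 (by norm_num), PowerSeries.coeff_mk,
      PowerSeries.coeff_mk] at h1
    linear_combination h1
  have b3 : ∀ i, f.b0 i 3 = 0 := by
    intro i
    obtain ⟨w, hw⟩ := f.taff1 i 3 (by norm_num)
    have e3 : ee 3 - 1 = 2 := rfl
    rw [e3] at hw
    by_contra hne
    have hw0 : w ≠ 0 := fun h => hne (by rw [hw, h, mul_zero])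
    have h1 := f.roo1 i 3 (by norm_num)
    have h2 : f.aoo i 3 = f.F ^ 3 * w := by rw [ab3 i, hw]; ring
    have h3 : (f.F ^ 3 * w).natDegree = 81 + w.natDegree := by
      rw [(f.F_monic.pow 3).natDegree_mul' hw0, f.F_monic.natDegree_pow, f.F_deg]
    rw [h2, h3] at h1
    omega
  have a3 : ∀ i, f.aoo i 3 = 0 := fun i => by rw [ab3 i, b3 i, mul_zero]
  have c3 : ∀ i, f.coo i 3 = f.c0 i 3 := by
    intro i
    have h1 := (EV_lead hφ (d3Cc i) (d3A i) (d3C i)).2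
    rw [PowerSeries.X_pow_dvd_iff.1 (hV i) (3 + 1) (by norm_num), PowerSeries.coeff_mk,
      PowerSeries.coeff_mk] at h1
    linear_combination h1
  have d4B : ∀ i, VV ^ 4 ∣ PowerSeries.mk (f.b0 i) := fun i =>
    ext13_dvd_mk fun ν h => by
      rcases Nat.lt_or_ge ν 3 with h1 | h1
      · exact (f.low i ν h1).1
      · have : ν = 3 := by omega
        rw [this]; exact b3 i
  have d4A : ∀ i, VV ^ 4 ∣ PowerSeries.mk (f.aoo i) := fun i =>
    ext13_dvd_mk fun ν h => by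
      rcases Nat.lt_or_ge ν 3 with h1 | h1
      · exact (f.low i ν h1).2.2.1
      · have : ν = 3 := by omega
        rw [this]; exact a3 i
  -- levels 14 and 15
  have key1 := fun i => ext13_two_steps hφ f.F f.F_monic f.F_deg _ _ _ _ (hT i) (hR i) (hx i) (hV i)
  choose B1 Cc1 A1 C1 k1 k2 k3 k4 k5 k6 k7 k8 using key1
  have cC1 : ∀ i, PowerSeries.coeff 3 (C1 i) = f.c0 i 3 := by
    intro i
    rw [exists_tail_coeff (k8 i) (by norm_num), PowerSeries.coeff_mk, c3 i]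
  -- level 16: choice of `A`
  obtain ⟨A, hA0, hA1⟩ := ext13_exists_A f.F f.F_monic f.F_deg (f.c0 0 3) (f.c0 1 3)
    (by rw [← c3 0]; exact (f.roo2 0 3 (by norm_num)).trans (by norm_num))
    (by rw [← c3 1]; exact (f.roo2 1 3 (by norm_num)).trans (by norm_num)) f.lev3_ind
    (ext13Lam f.F (PowerSeries.coeff 16 (Ex φ f.F (B1 0) (A1 0) (C1 0))) / 13)
    (ext13Lam f.F (PowerSeries.coeff 16 (Ex φ f.F (B1 1) (A1 1) (C1 1))) / 13)
  have hlam : ∀ i, ext13Lam f.F (13 * A * PowerSeries.coeff 3 (C1 i))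
      = ext13Lam f.F (PowerSeries.coeff 16 (Ex φ f.F (B1 i) (A1 i) (C1 i))) := by
    have e13 : ∀ g : ℂ[X], 13 * A * g = C (13 : ℂ) * (A * g) := fun g => by
      rw [show (C (13 : ℂ) : ℂ[X]) = 13 from C_ofNat 13]; ring
    rw [Fin.forall_fin_two]
    constructor
    · rw [cC1 0, e13, ext13Lam_C_mul, hA0]; ring
    · rw [cC1 1, e13, ext13Lam_C_mul, hA1]; ring
  have key2 := fun i => ext13_finish f.hX f.hV f.F f.F_monic f.F_deg A (B1 i) (Cc1 i) (A1 i) (C1 i)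
    (k1 i) (k2 i) (k3 i) (k4 i)
    (ext13_dvd_of_sub (by norm_num) (k5 i) (d4B i)) (ext13_dvd_of_sub (by norm_num) (k7 i) (d4A i))
    (ext13_dvd_of_sub (by norm_num) (k8 i) (d3C i)) (ext13_dvd_of_sub (by norm_num) (k6 i) (d3Cc i))
    (hlam i)
  choose B2 Cc2 A2 C2 l1 l2 l3 l4 l5 l6 l7 l8 using key2
  have hX1 : VV ∣ f.X' + PowerSeries.C A * VV ^ 13 - xx := by
    have h1 : VV ∣ PowerSeries.C A * VV ^ 13 := Dvd.dvd.mul_left (dvd_pow_self VV (by norm_num)) _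
    have := dvd_add f.hX h1
    convert this using 1
    ring
  set φ1 := phiOf (f.X' + PowerSeries.C A * VV ^ 13) f.V' f.hV with hφ1def
  have hφ1 : Close φ1 := fun n a ha => phiFun_close hX1 f.hV n a ha
  have comb : ∀ {u v w : PP}, VV ^ 16 ∣ u - v → VV ^ 14 ∣ v - w → VV ^ 14 ∣ u - w := by
    intro u v w h1 h2
    have := dvd_add ((pow_dvd_pow VV (by norm_num : 14 ≤ 16)).trans h1) h2
    rwa [sub_add_sub_cancel] at this
  have m5 := fun i => comb (l5 i) (k5 i)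
  have m6 := fun i => comb (l6 i) (k6 i)
  have m7 := fun i => comb (l7 i) (k7 i)
  have m8 := fun i => comb (l8 i) (k8 i)
  refine ⟨{
    F := f.F
    φ := φ1
    b0 := fun i ν => PowerSeries.coeff ν (B2 i)
    c0 := fun i ν => PowerSeries.coeff ν (Cc2 i)
    aoo := fun i ν => PowerSeries.coeff ν (A2 i)
    coo := fun i ν => PowerSeries.coeff ν (C2 i)
    u0 := f.u0
    F_monic := f.F_monic
    F_deg := f.F_deg
    F_sqf := f.F_sqf
    φ_close := hφ1
    low := ?_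
    taff1 := fun i ν => (l1 i ν).1
    taff2 := fun i ν => (l1 i ν).2
    roo1 := fun i ν => (l2 i ν).1
    roo2 := fun i ν => (l2 i ν).2.1
    roo3 := fun i ν => (l2 i ν).2.2
    glue_x := ?_
    glue_V := ?_
    u0_ne := f.u0_ne
    wedge := ?_ }⟩
  · intro i ν h
    obtain ⟨e1, e2, e3, e4⟩ := f.low i ν h
    refine ⟨?_, ?_, ?_, ?_⟩
    · show PowerSeries.coeff ν (B2 i) = 0
      rw [exists_tail_coeff (m5 i) (by omega), PowerSeries.coeff_mk, e1]
    · show PowerSeries.coeff ν (Cc2 i) = 0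
      rw [exists_tail_coeff (m6 i) (by omega), PowerSeries.coeff_mk, e2]
    · show PowerSeries.coeff ν (A2 i) = 0
      rw [exists_tail_coeff (m7 i) (by omega), PowerSeries.coeff_mk, e3]
    · show PowerSeries.coeff ν (C2 i) = 0
      rw [exists_tail_coeff (m8 i) (by omega), PowerSeries.coeff_mk, e4]
  · intro i
    show φ1 (PowerSeries.mk fun ν => f.F * PowerSeries.coeff ν (B2 i))
      = mkD (PowerSeries.mk fun ν => PowerSeries.coeff ν (A2 i))
        (VV * PowerSeries.mk fun ν => PowerSeries.coeff ν (C2 i)) (φ1 xx)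
    rw [exists_DD_mk_mul, exists_DD_mk_coeff, exists_DD_mk_coeff]
    exact sub_eq_zero.1 (l3 i)
  · intro i
    show φ1 (VV * PowerSeries.mk fun ν => PowerSeries.coeff ν (Cc2 i))
      = mkD (PowerSeries.mk fun ν => PowerSeries.coeff ν (A2 i))
        (VV * PowerSeries.mk fun ν => PowerSeries.coeff ν (C2 i)) (φ1 VV)
    rw [exists_DD_mk_coeff, exists_DD_mk_coeff, exists_DD_mk_coeff]
    exact sub_eq_zero.1 (l4 i)
  · show VV ^ 10 ∣ (PowerSeries.mk fun ν => f.F * PowerSeries.coeff ν (B2 0))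
        * (VV * PowerSeries.mk fun ν => PowerSeries.coeff ν (Cc2 1))
      - (PowerSeries.mk fun ν => f.F * PowerSeries.coeff ν (B2 1))
        * (VV * PowerSeries.mk fun ν => PowerSeries.coeff ν (Cc2 0))
      - PowerSeries.C (C f.u0 * f.F ^ 6) * VV ^ 9
    rw [exists_DD_mk_mul, exists_DD_mk_mul, exists_DD_mk_coeff, exists_DD_mk_coeff]
    have w := f.wedge
    rw [exists_DD_mk_mul', exists_DD_mk_mul'] at w
    have p10 : ∀ {a : PP}, VV ^ 14 ∣ a → VV ^ 10 ∣ a := fun h => (pow_dvd_pow _ (by norm_num)).trans h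
    have t1 := (p10 (m5 0)).mul_left (PowerSeries.C f.F * (VV * Cc2 1))
    have t2 := (p10 (m6 1)).mul_left (PowerSeries.C f.F * PowerSeries.mk (f.b0 0) * VV)
    have t3 := (p10 (m5 1)).mul_left (PowerSeries.C f.F * (VV * Cc2 0))
    have t4 := (p10 (m6 0)).mul_left (PowerSeries.C f.F * PowerSeries.mk (f.b0 1) * VV)
    have := dvd_add (dvd_sub (dvd_add t1 t2) (dvd_add t3 t4)) w
    convert this using 1
    ring

end Claimed.Agent.R246.F1
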