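import Claimed.Agent.R246.F1.FinData

/-!
# Row 246, module EXT: data are needed only for `ν ≤ 13` (remark of helper449)

`FinData13` = `FinData` with `16` replaced by `13` (so `glue_x` is a congruence modulo `V^14`, `glue_V` modulo `V^15`, and only
`A_r, C_r` with `r ≤ 10` matter), plus ONE fact on the lowest level `ν = 3`: the two leading forms `f_i = c0 i 3` are linearly
independent over `ℂ` (`lev3_ind`).  Sufficient criteria (file `Ext13Split.lean`):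
* `ext13_ind_of_natDegree_lt`: `f_0 ≠ 0` and `natDegree f_0 < natDegree f_1` (x-model: 58 < 60; v-model: 59 < 60);
* `ext13_ind_of_coeff`: some `2 × 2` minor of the coefficients is nonzero, `f_0.coeff j * f_1.coeff k - f_0.coeff k * f_1.coeff j ≠ 0`.
(`b0 i 3 = 0`, `aoo i 3 = 0`, `coo i 3 = c0 i 3`, `natDegree (c0 i 3) ≤ 61` are consequences of the other fields.)

Target (file `Ext13.lean`): `exists_DD13 (f : FinData13) : Nonempty DD`.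
-/

set_option autoImplicit false

namespace Claimed.Agent.R246.F1

open Polynomial

/-- The finite system for the levels `ν ≤ 13`. -/
structure FinData13 where
  F : ℂ[X]
  /-- `φ x = x + ∑ A_r V^r` (only `r ≤ 10` matters) -/
  X' : PP
  /-- `φ V = V (1 + ∑ C_r V^r)` (only `r ≤ 10` matters) -/
  V' : PP
  b0 : Fin 2 → ℕ → ℂ[X]
  c0 : Fin 2 → ℕ → ℂ[X]
  aoo : Fin 2 → ℕ → ℂ[X]
  coo : Fin 2 → ℕ → ℂ[X]
  u0 : ℂ
  F_monic : F.Monic
  F_deg : F.natDegree = 27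
  F_sqf : IsCoprime F (derivative F)
  hX : VV ∣ X' - xx
  hV : VV ^ 2 ∣ V' - VV
  low : ∀ i ν, ν < 3 → b0 i ν = 0 ∧ c0 i ν = 0 ∧ aoo i ν = 0 ∧ coo i ν = 0
  high : ∀ i ν, 13 < ν → b0 i ν = 0 ∧ c0 i ν = 0 ∧ aoo i ν = 0 ∧ coo i ν = 0
  /-- the leading forms `f_i = c0 i 3` of the two fields are linearly independent -/
  lev3_ind : ∀ μ ν : ℂ, C μ * c0 0 3 + C ν * c0 1 3 = 0 → μ = 0 ∧ ν = 0
  taff1 : ∀ i ν, ν ≤ 13 → F ^ (ee ν - 1) ∣ b0 i ν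
  taff2 : ∀ i ν, ν ≤ 13 → F ^ mm ν ∣ 3 * c0 i ν + 2 * (b0 i ν * derivative F)
  roo1 : ∀ i ν, ν ≤ 13 → (aoo i ν).natDegree ≤ 20 * ν + 2
  roo2 : ∀ i ν, ν ≤ 13 → (coo i ν).natDegree ≤ 20 * ν + 1
  roo3 : ∀ i ν, ν ≤ 13 → (coo i ν).coeff (20 * ν + 1) + 20 * (aoo i ν).coeff (20 * ν + 2) = 0
  glue_x : ∀ i, VV ^ 14 ∣ (∑ ν ∈ Finset.range 14, Polynomial.aeval X' (F * b0 i ν) * V' ^ ν)
    - mkD (PowerSeries.mk (aoo i)) (VV * PowerSeries.mk (coo i)) X'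
  glue_V : ∀ i, VV ^ 15 ∣ (∑ ν ∈ Finset.range 14, Polynomial.aeval X' (c0 i ν) * V' ^ (ν + 1))
    - mkD (PowerSeries.mk (aoo i)) (VV * PowerSeries.mk (coo i)) V'
  u0_ne : u0 ≠ 0
  wedge : VV ^ 10 ∣ (PowerSeries.mk fun ν => F * b0 0 ν) * (VV * PowerSeries.mk (c0 1))
    - (PowerSeries.mk fun ν => F * b0 1 ν) * (VV * PowerSeries.mk (c0 0))
    - PowerSeries.C (C u0 * F ^ 6) * VV ^ 9

end Claimed.Agent.R246.F1
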