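import Claimed.Agent.R246.F1.Ext13Split

/-!
# Row 246, module EXT, part 2: one step of the tail for a split pair; change of `φ x` by `A V^13`

* `ext13_step`: `tail_step` with the hypothesis `17 ≤ N` replaced by `SplitAt` for the two defects.
* `ext13_phi_sub`: if `V^13 ∣ X'' - X'` and `V^n ∣ a` then `V^(n+13) ∣ φ'' a - φ' a`.
* `ext13_Ex_change`, `ext13_EV_change`: effect on the defects of (DD3) of `X' ↦ X' + A V^13`.
-/

set_option autoImplicit false

namespace Claimed.Agent.R246.F1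

open Polynomial

theorem ext13_step {φ : PP →ₐ[ℂ] PP} (hφ : Close φ) (F : ℂ[X]) {N : ℕ} (B Cc A' C' : PP)
    (hT : TaffP F B Cc) (hR : RooP A' C')
    (hx : VV ^ N ∣ Ex φ F B A' C') (hV : VV ^ (N + 1) ∣ EV φ Cc A' C')
    (hs : SplitAt F N (- PowerSeries.coeff N (Ex φ F B A' C'))
      (- PowerSeries.coeff (N + 1) (EV φ Cc A' C'))) :
    ∃ B1 Cc1 A1 C1 : PP, TaffP F B1 Cc1 ∧ RooP A1 C1 ∧
      VV ^ (N + 1) ∣ Ex φ F B1 A1 C1 ∧ VV ^ (N + 2) ∣ EV φ Cc1 A1 C1 ∧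
      VV ^ N ∣ B1 - B ∧ VV ^ N ∣ Cc1 - Cc ∧ VV ^ N ∣ A1 - A' ∧ VV ^ N ∣ C1 - C' := by
  obtain ⟨β, γ, α, γ', h1, h2, h3, h4, h5, h6, h7⟩ := hs
  have hd : ∀ c : ℂ[X], VV ^ N ∣ PowerSeries.C c * VV ^ N := fun c => dvd_mul_left _ _
  have hc : ∀ c : ℂ[X], PowerSeries.coeff N (PowerSeries.C c * VV ^ N) = c := fun c => by
    rw [PowerSeries.coeff_C_mul_X_pow, if_pos rfl]
  refine ⟨B + PowerSeries.C β * VV ^ N, Cc + PowerSeries.C γ * VV ^ N,
    A' + PowerSeries.C α * VV ^ N, C' + PowerSeries.C γ' * VV ^ N, ?_, ?_, ?_, ?_, ?_, ?_, ?_, ?_⟩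
  · intro ν
    rw [map_add, map_add, PowerSeries.coeff_C_mul_X_pow, PowerSeries.coeff_C_mul_X_pow]
    by_cases e : ν = N
    · subst e
      rw [if_pos rfl, if_pos rfl]
      refine ⟨dvd_add (hT ν).1 h1, ?_⟩
      have := dvd_add (hT ν).2 h2
      convert this using 1
      ring
    · rw [if_neg e, if_neg e, add_zero, add_zero]
      exact hT ν
  · intro ν
    rw [map_add, map_add, PowerSeries.coeff_C_mul_X_pow, PowerSeries.coeff_C_mul_X_pow]
    by_cases e : ν = N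
    · subst e
      rw [if_pos rfl, if_pos rfl]
      refine ⟨(natDegree_add_le _ _).trans (max_le (hR ν).1 h3),
        (natDegree_add_le _ _).trans (max_le (hR ν).2.1 h4), ?_⟩
      rw [coeff_add, coeff_add]
      linear_combination (hR ν).2.2 + h5
    · rw [if_neg e, if_neg e, add_zero, add_zero]
      exact hR ν
  · rw [Ex_add]
    obtain ⟨l1, l2⟩ := Ex_lead hφ F (hd β) (hd α) (hd γ')
    refine tail_step_dvd_succ (dvd_add hx l1) ?_
    rw [map_add, l2, hc, hc, h6]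
    ring
  · rw [EV_add]
    obtain ⟨l1, l2⟩ := EV_lead hφ (hd γ) (hd α) (hd γ')
    refine tail_step_dvd_succ (dvd_add hV l1) ?_
    rw [map_add, l2, hc, hc, h7]
    ring
  · rw [add_sub_cancel_left]; exact hd _
  · rw [add_sub_cancel_left]; exact hd _
  · rw [add_sub_cancel_left]; exact hd _
  · rw [add_sub_cancel_left]; exact hd _

theorem ext13_aeval_sub (X1 X2 : PP) (p : ℂ[X]) :
    X1 - X2 ∣ Polynomial.aeval X1 p - Polynomial.aeval X2 p := by
  rw [← eval_map_algebraMap, ← eval_map_algebraMap]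
  exact sub_dvd_eval_sub X1 X2 _

theorem ext13_phi_sub {X1 X2 V' : PP} (hV : VV ∣ V') {k : ℕ} (hX : VV ^ k ∣ X1 - X2) {n : ℕ}
    {a : PP} (ha : VV ^ n ∣ a) : VV ^ (n + k) ∣ phiFun X1 V' a - phiFun X2 V' a := by
  have h1 := phiFun_approx (X' := X1) hV a (n + k)
  have h2 := phiFun_approx (X' := X2) hV a (n + k)
  have h3 : VV ^ (n + k) ∣ ∑ j ∈ Finset.range (n + k),
      (Polynomial.aeval X1 (PowerSeries.coeff j a) * V' ^ j
        - Polynomial.aeval X2 (PowerSeries.coeff j a) * V' ^ j) := by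
    refine Finset.dvd_sum fun j _ => ?_
    rcases Nat.lt_or_ge j n with hj | hj
    · rw [PowerSeries.X_pow_dvd_iff.1 ha j hj]
      simp
    · rw [← sub_mul, mul_comm]
      refine (pow_dvd_pow VV (by omega : n + k ≤ j + k)).trans ?_
      rw [pow_add]
      exact mul_dvd_mul (pow_dvd_pow_of_dvd hV j) (hX.trans (ext13_aeval_sub X1 X2 _))
  rw [Finset.sum_sub_distrib] at h3
  have := dvd_add (dvd_sub h1 h2) h3
  convert this using 1
  ring

theorem ext13_dV_mono (A : ℂ[X]) :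
    dV (PowerSeries.C A * VV ^ 13) = PowerSeries.C (13 * A) * VV ^ 12 := by
  ext1 n
  rw [coeff_dV, PowerSeries.coeff_C_mul_X_pow, PowerSeries.coeff_C_mul_X_pow]
  by_cases h : n = 12
  · subst h
    rw [if_pos rfl, if_pos rfl]
    push_cast
    ring
  · rw [if_neg h, if_neg (by omega), zero_mul]

theorem ext13_sub_lead {n : ℕ} {a : PP} (h : VV ^ n ∣ a) :
    VV ^ (n + 1) ∣ a - PowerSeries.C (PowerSeries.coeff n a) * VV ^ n := by
  rw [PowerSeries.X_pow_dvd_iff] at h ⊢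
  intro j hj
  rw [map_sub, PowerSeries.coeff_C_mul_X_pow]
  rcases Nat.lt_or_ge j n with h1 | h1
  · rw [h j h1, if_neg (by omega), sub_zero]
  · have : j = n := by omega
    rw [if_pos this, this, sub_self]

variable {X' V' : PP}

/-- effect of `X' ↦ X' + A V^13` on the `x`-defect -/
theorem ext13_Ex_change (hV : VV ^ 2 ∣ V' - VV) (F A : ℂ[X]) {B A' C' : PP}
    (hB : VV ^ 4 ∣ B) (hA : VV ^ 4 ∣ A') (hC : VV ^ 3 ∣ C') :
    VV ^ 17 ∣ Ex (phiOf (X' + PowerSeries.C A * VV ^ 13) V' hV) F B A' C'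
      - Ex (phiOf X' V' hV) F B A' C'
      + PowerSeries.C (13 * A * PowerSeries.coeff 3 C') * VV ^ 16 := by
  have hVd : VV ∣ V' := VV_dvd_of_sq hV
  have h1 : VV ^ (4 + 13) ∣ phiFun (X' + PowerSeries.C A * VV ^ 13) V' (PowerSeries.C F * B)
      - phiFun X' V' (PowerSeries.C F * B) :=
    ext13_phi_sub hVd (by rw [add_sub_cancel_left]; exact dvd_mul_left _ _)
      (Dvd.dvd.mul_left hB _)
  have h2 : VV ^ (4 + 13) ∣ A' * dx (PowerSeries.C A * VV ^ 13) := by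
    rw [pow_add]
    exact mul_dvd_mul hA (Ex_lead_dvd_dx (dvd_mul_left _ _))
  have h3 : VV ^ (3 + 1) ∣ C' - PowerSeries.C (PowerSeries.coeff 3 C') * VV ^ 3 := ext13_sub_lead hC
  have h4 : VV ^ 17 ∣ PowerSeries.C (13 * A) * VV ^ 13
      * (C' - PowerSeries.C (PowerSeries.coeff 3 C') * VV ^ 3) := by
    have : (VV : PP) ^ 17 = VV ^ 13 * VV ^ (3 + 1) := by rw [← pow_add]
    rw [this]
    exact mul_dvd_mul (dvd_mul_left _ _) h3
  have key : Ex (phiOf (X' + PowerSeries.C A * VV ^ 13) V' hV) F B A' C'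
      - Ex (phiOf X' V' hV) F B A' C'
      + PowerSeries.C (13 * A * PowerSeries.coeff 3 C') * VV ^ 16
      = (phiFun (X' + PowerSeries.C A * VV ^ 13) V' (PowerSeries.C F * B)
          - phiFun X' V' (PowerSeries.C F * B))
        - A' * dx (PowerSeries.C A * VV ^ 13)
        - PowerSeries.C (13 * A) * VV ^ 13
          * (C' - PowerSeries.C (PowerSeries.coeff 3 C') * VV ^ 3) := by
    unfold Ex
    rw [phiOf_xx, phiOf_xx, phiOf_apply, phiOf_apply, map_add, mkD_apply, mkD_apply,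
      ext13_dV_mono, map_mul PowerSeries.C (13 * A)]
    ring
  rw [key]
  exact dvd_sub (dvd_sub h1 h2) h4

/-- effect of `X' ↦ X' + A V^13` on the `V`-defect -/
theorem ext13_EV_change (hV : VV ^ 2 ∣ V' - VV) (A : ℂ[X]) {Cc : PP} (A' C' : PP)
    (hC : VV ^ 3 ∣ Cc) :
    VV ^ 17 ∣ EV (phiOf (X' + PowerSeries.C A * VV ^ 13) V' hV) Cc A' C'
      - EV (phiOf X' V' hV) Cc A' C' := by
  have hVd : VV ∣ V' := VV_dvd_of_sq hV
  have h0 : VV ^ 4 ∣ VV * Cc := by
    have : (VV : PP) ^ 4 = VV * VV ^ 3 := by ring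
    rw [this]; exact mul_dvd_mul_left _ hC
  have h1 : VV ^ (4 + 13) ∣ phiFun (X' + PowerSeries.C A * VV ^ 13) V' (VV * Cc)
      - phiFun X' V' (VV * Cc) :=
    ext13_phi_sub hVd (by rw [add_sub_cancel_left]; exact dvd_mul_left _ _) h0
  have key : EV (phiOf (X' + PowerSeries.C A * VV ^ 13) V' hV) Cc A' C'
      - EV (phiOf X' V' hV) Cc A' C'
      = phiFun (X' + PowerSeries.C A * VV ^ 13) V' (VV * Cc) - phiFun X' V' (VV * Cc) := by
    unfold EV
    rw [phiOf_VV, phiOf_VV, phiOf_apply, phiOf_apply]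
    ring
  rw [key]
  exact h1

end Claimed.Agent.R246.F1
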