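import Claimed.Agent.R246.F1.Ext13Defs

/-!
# Row 246, module EXT, part 1: polynomial algebra

* `SplitAt F N p q`: the pair `(p,q)` lies in `Taff(N) + Roo(N)` (conclusion of G1 for one pair).
* `ext13_split`: `SplitAt F N p q` as soon as `27 m(N) ≤ 20 N + 1` and `natDegree (p %ₘ F^e(N)) ≤ 20 N + 2`
  (the relation of `Roo` is repaired by `t (0, F^m x^j)`, `27 m + j = 20 N + 1`).
* `ext13Lam F g = coeff_323 (g %ₘ F^12)`: the only obstruction at `N = 16`; it is linear, and
  `A ↦ (lam (A f_0), lam (A f_1))` is onto `ℂ^2` if `f_0, f_1` are linearly independent of degree `≤ 323`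
  (`deg f_0 < deg f_1`: take `A = α x^(323 - deg f_0) + β x^(323 - deg f_1)`, triangular).
-/

set_option autoImplicit false

namespace Claimed.Agent.R246.F1

open Polynomial

/-- `(p,q) ∈ Taff(N) + Roo(N)` -/
def SplitAt (F : ℂ[X]) (N : ℕ) (p q : ℂ[X]) : Prop :=
  ∃ β γ α γ' : ℂ[X], F ^ (ee N - 1) ∣ β ∧ F ^ mm N ∣ 3 * γ + 2 * (β * derivative F) ∧
      α.natDegree ≤ 20 * N + 2 ∧ γ'.natDegree ≤ 20 * N + 1 ∧
      γ'.coeff (20 * N + 1) + 20 * α.coeff (20 * N + 2) = 0 ∧
      F * β - α = p ∧ γ - γ' = q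

theorem ext13_third (g : ℂ[X]) : C (1 / 3 : ℂ) * (3 * g) = g := by
  have h : (C (1 / 3 : ℂ) : ℂ[X]) * 3 = 1 := by
    have : (3 : ℂ[X]) = C (3 : ℂ) := (C_ofNat 3).symm
    rw [this, ← C_mul]
    norm_num
  rw [← mul_assoc, h, one_mul]

theorem ext13_split (F : ℂ[X]) (hF : F.Monic) (hdeg : F.natDegree = 27) {N j : ℕ}
    (he : 1 ≤ ee N) (hj : 27 * mm N + j = 20 * N + 1) (p q : ℂ[X])
    (hp : (p %ₘ F ^ ee N).natDegree ≤ 20 * N + 2) : SplitAt F N p q := by
  set e := ee N with he_def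
  set m := mm N with hm_def
  set Q := p /ₘ F ^ e with hQ
  set r := p %ₘ F ^ e with hr
  have hpr : r + F ^ e * Q = p := modByMonic_add_div p (F ^ e)
  set β := F ^ (e - 1) * Q with hβ
  have hFβ : F * β = F ^ e * Q := by
    rw [hβ, ← mul_assoc, ← pow_succ', Nat.sub_add_cancel he]
  set T := 3 * q + 2 * (β * derivative F) with hT
  set Q' := T /ₘ F ^ m with hQ'
  set r' := T %ₘ F ^ m with hr'
  have hTr : r' + F ^ m * Q' = T := modByMonic_add_div T (F ^ m)
  have hFm : (F ^ m).Monic := hF.pow m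
  have hFmdeg : (F ^ m).natDegree = 27 * m := by rw [hF.natDegree_pow, hdeg, mul_comm]
  have hr'deg : r'.degree < ((27 * m : ℕ) : WithBot ℕ) := by
    have := degree_modByMonic_lt T hFm
    rwa [degree_eq_natDegree hFm.ne_zero, hFmdeg] at this
  set G := F ^ m * X ^ j with hG
  have hGm : G.Monic := hFm.mul (monic_X_pow j)
  have hGdeg : G.natDegree = 20 * N + 1 := by
    rw [hG, hFm.natDegree_mul (monic_X_pow j), hFmdeg, natDegree_X_pow, hj]
  set t : ℂ := 20 * r.coeff (20 * N + 2) with ht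
  refine ⟨β, C (1 / 3 : ℂ) * (F ^ m * Q' - 2 * (β * derivative F)) + C t * G, -r,
    -(C (1 / 3 : ℂ) * r') + C t * G, Dvd.intro _ rfl, ?_, ?_, ?_, ?_, ?_, ?_⟩
  · have h3 : 3 * (C (1 / 3 : ℂ) * (F ^ m * Q' - 2 * (β * derivative F)) + C t * G)
        + 2 * (β * derivative F) = F ^ m * (Q' + 3 * C t * X ^ j) := by
      have := ext13_third (F ^ m * Q' - 2 * (β * derivative F))
      rw [hG]
      linear_combination this
    rw [h3]
    exact Dvd.intro _ rfl
  · rw [natDegree_neg]; exact hp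
  · refine (natDegree_add_le _ _).trans (max_le ?_ ?_)
    · rw [natDegree_neg]
      refine (natDegree_C_mul_le _ _).trans ?_
      refine natDegree_le_of_degree_le (le_of_lt (lt_of_lt_of_le hr'deg ?_))
      exact_mod_cast (by omega : 27 * m ≤ 20 * N + 1)
    · exact (natDegree_C_mul_le _ _).trans hGdeg.le
  · have c1 : r'.coeff (20 * N + 1) = 0 :=
      coeff_eq_zero_of_degree_lt (lt_of_lt_of_le hr'deg (by exact_mod_cast (by omega : 27 * m ≤ 20 * N + 1)))
    have c2 : G.coeff (20 * N + 1) = 1 := by rw [← hGdeg]; exact hGm.coeff_natDegree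
    rw [coeff_add, coeff_neg, coeff_C_mul, coeff_C_mul, c1, c2, coeff_neg, ht]
    ring
  · rw [hFβ]; linear_combination hpr
  · have := ext13_third q
    have h2 : C (1 / 3 : ℂ) * (F ^ m * Q' - 2 * (β * derivative F)) + C t * G
        - (-(C (1 / 3 : ℂ) * r') + C t * G) = C (1 / 3 : ℂ) * (3 * q) := by
      linear_combination (C (1 / 3 : ℂ)) * hTr
    rw [h2, this]

/-- G1 for `N = 14` -/
theorem ext13_split14 (F : ℂ[X]) (hF : F.Monic) (hdeg : F.natDegree = 27) (p q : ℂ[X]) :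
    SplitAt F 14 p q := by
  have e14 : ee 14 = 10 := rfl
  have m14 : mm 14 = 10 := rfl
  refine ext13_split F hF hdeg (j := 11) (by rw [e14]; norm_num) (by rw [m14]) p q ?_
  rw [e14]
  have hm : (F ^ 10).Monic := hF.pow 10
  have h1 : (F ^ 10).natDegree = 270 := by rw [hF.natDegree_pow, hdeg]
  have hne : F ^ 10 ≠ 1 := fun h => by rw [h, natDegree_one] at h1; omega
  have := natDegree_modByMonic_lt p hm hne
  omega

/-- G1 for `N = 15` -/
theorem ext13_split15 (F : ℂ[X]) (hF : F.Monic) (hdeg : F.natDegree = 27) (p q : ℂ[X]) :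
    SplitAt F 15 p q := by
  have e15 : ee 15 = 11 := rfl
  have m15 : mm 15 = 10 := rfl
  refine ext13_split F hF hdeg (j := 31) (by rw [e15]; norm_num) (by rw [m15]) p q ?_
  rw [e15]
  have hm : (F ^ 11).Monic := hF.pow 11
  have h1 : (F ^ 11).natDegree = 297 := by rw [hF.natDegree_pow, hdeg]
  have hne : F ^ 11 ≠ 1 := fun h => by rw [h, natDegree_one] at h1; omega
  have := natDegree_modByMonic_lt p hm hne
  omega

/-- the obstruction at `N = 16` -/
noncomputable def ext13Lam (F : ℂ[X]) (g : ℂ[X]) : ℂ := (g %ₘ F ^ 12).coeff 323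

theorem ext13Lam_add (F g h : ℂ[X]) : ext13Lam F (g + h) = ext13Lam F g + ext13Lam F h := by
  rw [ext13Lam, add_modByMonic, coeff_add]; rfl

theorem ext13Lam_C_mul (F : ℂ[X]) (c : ℂ) (g : ℂ[X]) : ext13Lam F (C c * g) = c * ext13Lam F g := by
  rw [ext13Lam, ← smul_eq_C_mul, smul_modByMonic, coeff_smul, smul_eq_mul]; rfl

theorem ext13Lam_neg (F g : ℂ[X]) : ext13Lam F (-g) = - ext13Lam F g := by
  have : -g = C (-1 : ℂ) * g := by simp
  rw [this, ext13Lam_C_mul]; ring

theorem ext13Lam_of_lt (F : ℂ[X]) (hF : F.Monic) (hdeg : F.natDegree = 27) {g : ℂ[X]}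
    (hg : g.natDegree < 324) : ext13Lam F g = g.coeff 323 := by
  have hm : (F ^ 12).Monic := hF.pow 12
  have h1 : (F ^ 12).natDegree = 324 := by rw [hF.natDegree_pow, hdeg]
  rw [ext13Lam, (modByMonic_eq_self_iff hm).2]
  rw [degree_eq_natDegree hm.ne_zero, h1]
  exact lt_of_le_of_lt degree_le_natDegree (by exact_mod_cast hg)

/-- G1 for `N = 16`, if the obstruction vanishes -/
theorem ext13_split16 (F : ℂ[X]) (hF : F.Monic) (hdeg : F.natDegree = 27) (p q : ℂ[X])
    (h : ext13Lam F p = 0) : SplitAt F 16 p q := by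
  have e16 : ee 16 = 12 := rfl
  have m16 : mm 16 = 11 := rfl
  refine ext13_split F hF hdeg (j := 24) (by rw [e16]; norm_num) (by rw [m16]) p q ?_
  rw [e16]
  have hm : (F ^ 12).Monic := hF.pow 12
  have h1 : (F ^ 12).natDegree = 324 := by rw [hF.natDegree_pow, hdeg]
  have hne : F ^ 12 ≠ 1 := fun h => by rw [h, natDegree_one] at h1; omega
  have h2 := natDegree_modByMonic_lt p hm hne
  rw [natDegree_le_iff_coeff_eq_zero]
  intro k hk
  rcases Nat.lt_or_ge 323 k with h3 | h3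
  · exact coeff_eq_zero_of_natDegree_lt (by omega)
  · have : k = 323 := by omega
    rw [this]; exact h

/-- the two obstructions at `N = 16` can be prescribed: triangular case -/
theorem ext13_exists_A_lt (F : ℂ[X]) (hF : F.Monic) (hdeg : F.natDegree = 27) (f0 f1 : ℂ[X])
    (n0 : f0 ≠ 0) (hlt : f0.natDegree < f1.natDegree) (hle : f1.natDegree ≤ 323) (t0 t1 : ℂ) :
    ∃ A : ℂ[X], ext13Lam F (A * f0) = t0 ∧ ext13Lam F (A * f1) = t1 := by
  have n1 : f1 ≠ 0 := fun h => by rw [h, natDegree_zero] at hlt; omega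
  set d0 := f0.natDegree with hd0
  set d1 := f1.natDegree with hd1
  have l0 : f0.coeff d0 ≠ 0 := leadingCoeff_ne_zero.2 n0
  have l1 : f1.coeff d1 ≠ 0 := leadingCoeff_ne_zero.2 n1
  have a1 : ext13Lam F (X ^ (323 - d0) * f0) = f0.coeff d0 := by
    rw [ext13Lam_of_lt F hF hdeg (by rw [natDegree_X_pow_mul _ n0, ← hd0]; omega)]
    have := coeff_X_pow_mul f0 (323 - d0) d0
    rwa [show d0 + (323 - d0) = 323 by omega] at this
  have a2 : ext13Lam F (X ^ (323 - d1) * f0) = 0 := by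
    rw [ext13Lam_of_lt F hF hdeg (by rw [natDegree_X_pow_mul _ n0, ← hd0]; omega)]
    exact coeff_eq_zero_of_natDegree_lt (by rw [natDegree_X_pow_mul _ n0, ← hd0]; omega)
  have a3 : ext13Lam F (X ^ (323 - d1) * f1) = f1.coeff d1 := by
    rw [ext13Lam_of_lt F hF hdeg (by rw [natDegree_X_pow_mul _ n1, ← hd1]; omega)]
    have := coeff_X_pow_mul f1 (323 - d1) d1
    rwa [show d1 + (323 - d1) = 323 by omega] at this
  set v := ext13Lam F (X ^ (323 - d0) * f1) with hv
  set α : ℂ := t0 / f0.coeff d0 with hα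
  set β : ℂ := (t1 - α * v) / f1.coeff d1 with hβ
  refine ⟨C α * X ^ (323 - d0) + C β * X ^ (323 - d1), ?_, ?_⟩
  · rw [add_mul, ext13Lam_add, mul_assoc, mul_assoc, ext13Lam_C_mul, ext13Lam_C_mul, a1, a2, hα]
    field_simp
    ring
  · rw [add_mul, ext13Lam_add, mul_assoc, mul_assoc, ext13Lam_C_mul, ext13Lam_C_mul, a3, ← hv, hβ]
    field_simp
    ring

/-- the two obstructions at `N = 16` can be prescribed -/
theorem ext13_exists_A (F : ℂ[X]) (hF : F.Monic) (hdeg : F.natDegree = 27) (f0 f1 : ℂ[X])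
    (h0 : f0.natDegree ≤ 323) (h1 : f1.natDegree ≤ 323)
    (hind : ∀ μ ν : ℂ, C μ * f0 + C ν * f1 = 0 → μ = 0 ∧ ν = 0) (t0 t1 : ℂ) :
    ∃ A : ℂ[X], ext13Lam F (A * f0) = t0 ∧ ext13Lam F (A * f1) = t1 := by
  have n0 : f0 ≠ 0 := fun h => by
    have := (hind 1 0 (by rw [h]; simp)).1
    exact one_ne_zero this
  have n1 : f1 ≠ 0 := fun h => by
    have := (hind 0 1 (by rw [h]; simp)).2
    exact one_ne_zero this
  rcases lt_trichotomy f0.natDegree f1.natDegree with h | h | h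
  · exact ext13_exists_A_lt F hF hdeg f0 f1 n0 h h1 t0 t1
  · set c : ℂ := f1.leadingCoeff / f0.leadingCoeff with hc
    have l0 : f0.leadingCoeff ≠ 0 := leadingCoeff_ne_zero.2 n0
    have l1 : f1.leadingCoeff ≠ 0 := leadingCoeff_ne_zero.2 n1
    have c0 : c ≠ 0 := div_ne_zero l1 l0
    set g := f1 - C c * f0 with hg
    have ng : g ≠ 0 := fun hz => by
      have := (hind (-c) 1 (by rw [← hz, hg]; simp; ring)).2
      exact one_ne_zero this
    have hd : f1.degree = (C c * f0).degree := by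
      rw [degree_C_mul c0, degree_eq_natDegree n0, degree_eq_natDegree n1, h]
    have hl : f1.leadingCoeff = (C c * f0).leadingCoeff := by
      rw [leadingCoeff_mul, leadingCoeff_C, hc]
      field_simp
    have hlt : g.degree < f1.degree := degree_sub_lt_left hd n1 hl
    have hlt' : g.natDegree < f0.natDegree := by
      rw [h]; exact natDegree_lt_natDegree ng hlt
    obtain ⟨A, hA0, hA1⟩ := ext13_exists_A_lt F hF hdeg g f0 ng hlt' h0 (t1 - c * t0) t0
    refine ⟨A, hA1, ?_⟩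
    have e : A * f1 = A * g + C c * (A * f0) := by rw [hg]; ring
    rw [e, ext13Lam_add, ext13Lam_C_mul, hA0, hA1]
    ring
  · obtain ⟨A, hA0, hA1⟩ := ext13_exists_A_lt F hF hdeg f1 f0 n1 h h0 t1 t0
    exact ⟨A, hA1, hA0⟩

/-- criterion for `FinData13.lev3_ind`: a nonzero `2 × 2` minor of the coefficients -/
theorem ext13_ind_of_coeff {f0 f1 : ℂ[X]} (j k : ℕ)
    (h : f0.coeff j * f1.coeff k - f0.coeff k * f1.coeff j ≠ 0) :
    ∀ μ ν : ℂ, C μ * f0 + C ν * f1 = 0 → μ = 0 ∧ ν = 0 := by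
  intro μ ν e
  have ej : μ * f0.coeff j + ν * f1.coeff j = 0 := by
    have := congrArg (fun q => coeff q j) e
    simpa [coeff_add, coeff_C_mul] using this
  have ek : μ * f0.coeff k + ν * f1.coeff k = 0 := by
    have := congrArg (fun q => coeff q k) e
    simpa [coeff_add, coeff_C_mul] using this
  constructor
  · have : μ * (f0.coeff j * f1.coeff k - f0.coeff k * f1.coeff j) = 0 := by
      linear_combination f1.coeff k * ej - f1.coeff j * ek
    exact (mul_eq_zero.1 this).resolve_right h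
  · have : ν * (f0.coeff j * f1.coeff k - f0.coeff k * f1.coeff j) = 0 := by
      linear_combination f0.coeff j * ek - f0.coeff k * ej
    exact (mul_eq_zero.1 this).resolve_right h

/-- criterion for `FinData13.lev3_ind`: different degrees -/
theorem ext13_ind_of_natDegree_lt {f0 f1 : ℂ[X]} (n0 : f0 ≠ 0)
    (hlt : f0.natDegree < f1.natDegree) :
    ∀ μ ν : ℂ, C μ * f0 + C ν * f1 = 0 → μ = 0 ∧ ν = 0 := by
  have n1 : f1 ≠ 0 := fun h => by rw [h, natDegree_zero] at hlt; omega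
  refine ext13_ind_of_coeff f0.natDegree f1.natDegree ?_
  rw [coeff_eq_zero_of_natDegree_lt hlt, zero_mul, sub_zero]
  exact mul_ne_zero (leadingCoeff_ne_zero.2 n0) (leadingCoeff_ne_zero.2 n1)

end Claimed.Agent.R246.F1
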