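import Claimed.Agent.R246.F1.Tail

/-!
# Row 246: THE FINITE STATEMENT (target of F2) and `FinData ⟹ DD`

`FinData` = the finite system of `R246_F1.md`, end of section 6: unknowns `F`, `X' = φ x`, `V' = φ V`, and for `i = 0,1`, `3 ≤ ν ≤ 16` the
polynomials `b0 (a0 = F * b0), c0, aoo, coo`.  All conditions are identities / divisibilities / degree bounds in `ℂ[X]`, or congruences
modulo `V^17`, `V^18`, `V^10` in `PP = ℂ[X][[V]]` between explicit expressions (no `φ`): in `glue_x`, `glue_V` the map `φ` has been expanded,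
`φ(∑ p_ν V^ν) = ∑ p_ν(X') V'^ν`.

PROOF of `exists_DD`.  `φ := phiOf X' V' hV`, `Close φ` by `phiFun_close`.  For each `i` put `B = mk (b0 i)` etc.
`TaffP`, `RooP` are `taff*`, `roo*`.  `Ex φ F B A' C'`: `C F * mk b0 = ∑_{ν<17} C (F b0_ν) V^ν` (because of `high`), `φ` is a ring hom,
`phiOf_C`, `phiOf_VV`, `phiOf_xx`: so `Ex` is exactly the left side of `glue_x`; the same for `EV`.
`exists_tail` (use `Classical.choose` for both `i`, e.g. `choose` after `∀ i`) gives `B1 i` etc.  Define the fields of `DD` by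
`b0 i ν := coeff ν (B1 i)`, ...; `PowerSeries.mk fun ν => F * coeff ν B1 = C F * B1`, `mk (coeff · B1) = B1`.
`low`: `coeff ν B1 = coeff ν B` for `ν < 17`.  `wedge`: the expression changes by a multiple of `V^17`.
-/

set_option autoImplicit false

namespace Claimed.Agent.R246.F1

open Polynomial

/-- The finite system (target of module F2). -/
structure FinData where
  F : ℂ[X]
  /-- `φ x = x + ∑ A_r V^r` -/
  X' : PP
  /-- `φ V = V (1 + ∑ C_r V^r)` -/
  V' : PP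
  b0 : Fin 2 → ℕ → ℂ[X]
  c0 : Fin 2 → ℕ → ℂ[X]
  aoo : Fin 2 → ℕ → ℂ[X]
  coo : Fin 2 → ℕ → ℂ[X]
  u0 : ℂ
  F_monic : F.Monic
  F_deg : F.natDegree = 27
  F_sqf : IsCoprime F (derivative F)
  hX : VV ∣ X' - xx
  hV : VV ^ 2 ∣ V' - VV
  low : ∀ i ν, ν < 3 → b0 i ν = 0 ∧ c0 i ν = 0 ∧ aoo i ν = 0 ∧ coo i ν = 0
  high : ∀ i ν, 16 < ν → b0 i ν = 0 ∧ c0 i ν = 0 ∧ aoo i ν = 0 ∧ coo i ν = 0
  taff1 : ∀ i ν, ν ≤ 16 → F ^ (ee ν - 1) ∣ b0 i ν
  taff2 : ∀ i ν, ν ≤ 16 → F ^ mm ν ∣ 3 * c0 i ν + 2 * (b0 i ν * derivative F)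
  roo1 : ∀ i ν, ν ≤ 16 → (aoo i ν).natDegree ≤ 20 * ν + 2
  roo2 : ∀ i ν, ν ≤ 16 → (coo i ν).natDegree ≤ 20 * ν + 1
  roo3 : ∀ i ν, ν ≤ 16 → (coo i ν).coeff (20 * ν + 1) + 20 * (aoo i ν).coeff (20 * ν + 2) = 0
  glue_x : ∀ i, VV ^ 17 ∣ (∑ ν ∈ Finset.range 17, Polynomial.aeval X' (F * b0 i ν) * V' ^ ν)
    - mkD (PowerSeries.mk (aoo i)) (VV * PowerSeries.mk (coo i)) X'
  glue_V : ∀ i, VV ^ 18 ∣ (∑ ν ∈ Finset.range 17, Polynomial.aeval X' (c0 i ν) * V' ^ (ν + 1))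
    - mkD (PowerSeries.mk (aoo i)) (VV * PowerSeries.mk (coo i)) V'
  u0_ne : u0 ≠ 0
  wedge : VV ^ 10 ∣ (PowerSeries.mk fun ν => F * b0 0 ν) * (VV * PowerSeries.mk (c0 1))
    - (PowerSeries.mk fun ν => F * b0 1 ν) * (VV * PowerSeries.mk (c0 0))
    - PowerSeries.C (C u0 * F ^ 6) * VV ^ 9

theorem exists_DD_mk_coeff (a : PP) : (PowerSeries.mk fun ν => PowerSeries.coeff ν a) = a := by
  ext1 n; rw [PowerSeries.coeff_mk]

theorem exists_DD_mk_mul (F : ℂ[X]) (a : PP) :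
    (PowerSeries.mk fun ν => F * PowerSeries.coeff ν a) = PowerSeries.C F * a := by
  ext1 n; rw [PowerSeries.coeff_mk, PowerSeries.coeff_C_mul]

theorem exists_DD_mk_mul' (F : ℂ[X]) (b : ℕ → ℂ[X]) :
    (PowerSeries.mk fun ν => F * b ν) = PowerSeries.C F * PowerSeries.mk b := by
  ext1 n; rw [PowerSeries.coeff_mk, PowerSeries.coeff_C_mul, PowerSeries.coeff_mk]

/-- finite data ⟹ gluing data -/
theorem exists_DD (f : FinData) : Nonempty DD := by
  have hVd : VV ∣ f.V' := VV_dvd_of_sq f.hV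
  set φ : PP →ₐ[ℂ] PP := phiOf f.X' f.V' f.hV with hφdef
  have hφ : Close φ := fun n a ha => phiFun_close f.hX f.hV n a ha
  have hT : ∀ i, TaffP f.F (PowerSeries.mk (f.b0 i)) (PowerSeries.mk (f.c0 i)) := by
    intro i ν
    rw [PowerSeries.coeff_mk, PowerSeries.coeff_mk]
    rcases Nat.lt_or_ge 16 ν with h | h
    · obtain ⟨e1, e2, -, -⟩ := f.high i ν h
      rw [e1, e2]
      simp
    · exact ⟨f.taff1 i ν h, f.taff2 i ν h⟩
  have hR : ∀ i, RooP (PowerSeries.mk (f.aoo i)) (PowerSeries.mk (f.coo i)) := by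
    intro i ν
    rw [PowerSeries.coeff_mk, PowerSeries.coeff_mk]
    rcases Nat.lt_or_ge 16 ν with h | h
    · obtain ⟨-, -, e1, e2⟩ := f.high i ν h
      rw [e1, e2]
      simp
    · exact ⟨f.roo1 i ν h, f.roo2 i ν h, f.roo3 i ν h⟩
  have hx : ∀ i, VV ^ 17 ∣ Ex φ f.F (PowerSeries.mk (f.b0 i)) (PowerSeries.mk (f.aoo i))
      (PowerSeries.mk (f.coo i)) := by
    intro i
    have h1 := phiFun_approx (X' := f.X') hVd (PowerSeries.C f.F * PowerSeries.mk (f.b0 i)) 17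
    have h2 := dvd_add h1 (f.glue_x i)
    have e : ∀ n, PowerSeries.coeff n (PowerSeries.C f.F * PowerSeries.mk (f.b0 i))
        = f.F * f.b0 i n := fun n => by rw [PowerSeries.coeff_C_mul, PowerSeries.coeff_mk]
    simp only [e] at h2
    unfold Ex
    rw [hφdef, phiOf_xx, phiOf_apply]
    convert h2 using 1
    ring
  have hV : ∀ i, VV ^ 18 ∣ EV φ (PowerSeries.mk (f.c0 i)) (PowerSeries.mk (f.aoo i))
      (PowerSeries.mk (f.coo i)) := by
    intro i
    have h1 := phiFun_approx (X' := f.X') hVd (PowerSeries.mk (f.c0 i)) 17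
    have h1' : VV ^ 18 ∣ f.V' * (phiFun f.X' f.V' (PowerSeries.mk (f.c0 i))
        - ∑ n ∈ Finset.range 17,
          Polynomial.aeval f.X' (PowerSeries.coeff n (PowerSeries.mk (f.c0 i))) * f.V' ^ n) := by
      have : VV ^ 18 = VV * VV ^ 17 := by ring
      rw [this]
      exact mul_dvd_mul hVd h1
    have h2 := dvd_add h1' (f.glue_V i)
    simp only [PowerSeries.coeff_mk] at h2
    unfold EV
    rw [map_mul, hφdef, phiOf_VV, phiOf_apply]
    convert h2 using 1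
    rw [mul_sub, Finset.mul_sum]
    have : ∀ ν, f.V' * (Polynomial.aeval f.X' (f.c0 i ν) * f.V' ^ ν)
        = Polynomial.aeval f.X' (f.c0 i ν) * f.V' ^ (ν + 1) := fun ν => by ring
    simp only [this]
    ring
  have key := fun i => exists_tail hφ f.F f.F_monic f.F_deg _ _ _ _ (hT i) (hR i) (hx i) (hV i)
  choose B1 Cc1 A1 C1 k1 k2 k3 k4 k5 k6 k7 k8 using key
  refine ⟨{
    F := f.F
    φ := φ
    b0 := fun i ν => PowerSeries.coeff ν (B1 i)
    c0 := fun i ν => PowerSeries.coeff ν (Cc1 i)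
    aoo := fun i ν => PowerSeries.coeff ν (A1 i)
    coo := fun i ν => PowerSeries.coeff ν (C1 i)
    u0 := f.u0
    F_monic := f.F_monic
    F_deg := f.F_deg
    F_sqf := f.F_sqf
    φ_close := hφ
    low := ?_
    taff1 := fun i ν => (k1 i ν).1
    taff2 := fun i ν => (k1 i ν).2
    roo1 := fun i ν => (k2 i ν).1
    roo2 := fun i ν => (k2 i ν).2.1
    roo3 := fun i ν => (k2 i ν).2.2
    glue_x := ?_
    glue_V := ?_
    u0_ne := f.u0_ne
    wedge := ?_ }⟩
  · intro i ν h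
    obtain ⟨e1, e2, e3, e4⟩ := f.low i ν h
    refine ⟨?_, ?_, ?_, ?_⟩
    · show PowerSeries.coeff ν (B1 i) = 0
      rw [exists_tail_coeff (k5 i) (by omega), PowerSeries.coeff_mk, e1]
    · show PowerSeries.coeff ν (Cc1 i) = 0
      rw [exists_tail_coeff (k6 i) (by omega), PowerSeries.coeff_mk, e2]
    · show PowerSeries.coeff ν (A1 i) = 0
      rw [exists_tail_coeff (k7 i) (by omega), PowerSeries.coeff_mk, e3]
    · show PowerSeries.coeff ν (C1 i) = 0
      rw [exists_tail_coeff (k8 i) (by omega), PowerSeries.coeff_mk, e4]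
  · intro i
    show φ (PowerSeries.mk fun ν => f.F * PowerSeries.coeff ν (B1 i))
      = mkD (PowerSeries.mk fun ν => PowerSeries.coeff ν (A1 i))
        (VV * PowerSeries.mk fun ν => PowerSeries.coeff ν (C1 i)) (φ xx)
    rw [exists_DD_mk_mul, exists_DD_mk_coeff, exists_DD_mk_coeff]
    exact sub_eq_zero.1 (k3 i)
  · intro i
    show φ (VV * PowerSeries.mk fun ν => PowerSeries.coeff ν (Cc1 i))
      = mkD (PowerSeries.mk fun ν => PowerSeries.coeff ν (A1 i))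
        (VV * PowerSeries.mk fun ν => PowerSeries.coeff ν (C1 i)) (φ VV)
    rw [exists_DD_mk_coeff, exists_DD_mk_coeff, exists_DD_mk_coeff]
    exact sub_eq_zero.1 (k4 i)
  · show VV ^ 10 ∣ (PowerSeries.mk fun ν => f.F * PowerSeries.coeff ν (B1 0))
        * (VV * PowerSeries.mk fun ν => PowerSeries.coeff ν (Cc1 1))
      - (PowerSeries.mk fun ν => f.F * PowerSeries.coeff ν (B1 1))
        * (VV * PowerSeries.mk fun ν => PowerSeries.coeff ν (Cc1 0))
      - PowerSeries.C (C f.u0 * f.F ^ 6) * VV ^ 9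
    rw [exists_DD_mk_mul, exists_DD_mk_mul, exists_DD_mk_coeff, exists_DD_mk_coeff]
    have w := f.wedge
    rw [exists_DD_mk_mul', exists_DD_mk_mul'] at w
    have p10 : ∀ {a : PP}, VV ^ 17 ∣ a → VV ^ 10 ∣ a := fun h => (pow_dvd_pow _ (by norm_num)).trans h
    have t1 := (p10 (k5 0)).mul_left (PowerSeries.C f.F * (VV * Cc1 1))
    have t2 := (p10 (k6 1)).mul_left (PowerSeries.C f.F * PowerSeries.mk (f.b0 0) * VV)
    have t3 := (p10 (k5 1)).mul_left (PowerSeries.C f.F * (VV * Cc1 0))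
    have t4 := (p10 (k6 0)).mul_left (PowerSeries.C f.F * PowerSeries.mk (f.b0 1) * VV)
    have := dvd_add (dvd_sub (dvd_add t1 t2) (dvd_add t3 t4)) w
    convert this using 1
    ring

end Claimed.Agent.R246.F1
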