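import Claimed.Agent.R246.F1.Reg
import Claimed.Agent.R246.FreeRegPair

/-!
# Row 246, module F1, file Free: `A^` is finite and free over `ℂ[[s,t]]` (replaces R246_F1.md C3; C5 = 627's `FreeRegPair`).

1. `A^ / (s,t) A^` is a finite dimensional `ℂ`-vector space: `jet27 : a ↦ (coeff n (φ a))_{n<27}` maps `A^` to the finite dimensional
   space `Π_{n<27} ℂ[x]_{≤ 540}`, its kernel is `Fil_27 ⊆ (s,t) A^` (`dvd_of_phi_dvd`, `Fil27_le`).
   `finite_quot`: `A^/ker jet27 ≃ range jet27` is finite dimensional (`LinearMap.quotKerEquivRange`, `Module.Finite.equiv`), and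
   `A^/stSub` is a quotient of it (`Submodule.factor` / `Submodule.mapQ`, `Module.Finite.of_surjective`).
   `exists_genMod`: `Module.Finite.fg_top`/`Module.finBasis` of the quotient, lift the generators by `Submodule.Quotient.mk_surjective`.
2. generation (complete Nakayama) `nak_seq`: by `hb` choose (`Classical.choose`) `λ : A^ → Fin n → ℂ`, `ρ_1 ρ_2 : A^ → A^` with
   `a = Σ λ_l(a) b_l + s ρ_1(a) + t ρ_2(a)`;   `E 0 i = a`,
   `E (N+1) i = (if 1 ≤ i then ρ_1 (E N (i-1)) else 0) + (if i ≤ N then ρ_2 (E N i) else 0)`, `lam N i = λ (E N i)`.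
   Induction on `N`: expand `E N i` in the last sum, `Finset.sum_range_succ`, `Finset.sum_range_succ'`, `pow_succ`.
3. `gen_of_genMod`: `P l := fun e => lam (e 0 + e 1) (e 0) l` (a function `(Fin 2 →₀ ℕ) → ℂ` IS a `MvPowerSeries`);
   `truncST p (P l) N = Σ_{M<N} Σ_{i≤M} lam M i l • s^i t^(M-i)`; hence by `nak_seq` and `iotaA_trunc`
   `a - Σ_l iota (P l) b_l ∈ Fil (9N) ⊆ Fil N` for all `N`; `Fil_inf`.
-/

set_option autoImplicit false

namespace Claimed.Agent.R246.F1

open Polynomial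

/-- the `ℂ`-subspace `(s,t) A^` of `A^` -/
noncomputable def stSub {d : DD} (p : Par d) : Submodule ℂ (Ahat d) :=
  (Ideal.span (Set.range (stA p))).restrictScalars ℂ

/-- the linear map `a ↦ (coeff n (φ a))_{n<27}` into polynomials of degree `≤ 540` -/
noncomputable def jet27 (d : DD) : Ahat d →ₗ[ℂ] (Fin 27 → Polynomial.degreeLE ℂ (540 : ℕ)) where
  toFun a n := ⟨PowerSeries.coeff (n : ℕ) (d.φ a), by
    rw [Polynomial.mem_degreeLE]
    refine le_trans Polynomial.degree_le_natDegree ?_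
    have h1 := (mem_Ahat.1 a.2).2 (n : ℕ)
    have h2 := n.2
    exact_mod_cast (by omega : (PowerSeries.coeff (n : ℕ) (d.φ a)).natDegree ≤ 540)⟩
  map_add' a b := by
    funext n; ext1; simp
  map_smul' c a := by
    funext n; ext1; simp

theorem jet27_ker_le {d : DD} (p : Par d) : LinearMap.ker (jet27 d) ≤ stSub p := by
  intro a ha
  rw [LinearMap.mem_ker] at ha
  have h27 : VV ^ 27 ∣ d.φ (a : PP) := by
    rw [PowerSeries.X_pow_dvd_iff]
    intro m hm
    have := congrArg Subtype.val (congrFun ha ⟨m, hm⟩)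
    exact this
  have hF : a ∈ Fil d 27 := mem_Fil.2 (dvd_of_phi_dvd d h27)
  exact Fil27_le p hF

theorem Free_finite_degreeLE : Module.Finite ℂ (Polynomial.degreeLE ℂ (540 : ℕ)) := by
  rw [Module.Finite.iff_fg, Polynomial.degreeLE_eq_span_X_pow]
  exact Submodule.fg_span (Finset.finite_toSet _)

theorem finite_quot {d : DD} (p : Par d) : Module.Finite ℂ (Ahat d ⧸ stSub p) := by
  have := Free_finite_degreeLE
  have : Module.Finite ℂ (LinearMap.range (jet27 d)) := inferInstance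
  have : Module.Finite ℂ (Ahat d ⧸ LinearMap.ker (jet27 d)) :=
    Module.Finite.equiv (jet27 d).quotKerEquivRange.symm
  exact Module.Finite.of_surjective (Submodule.factor (jet27_ker_le p))
    (Submodule.factor_surjective (jet27_ker_le p))

/-- finitely many elements generate `A^` modulo `(s,t)` over `ℂ` -/
theorem exists_genMod {d : DD} (p : Par d) : ∃ (n : ℕ) (b : Fin n → Ahat d),
    ∀ a : Ahat d, ∃ (lam : Fin n → ℂ) (a1 a2 : Ahat d), a = ∑ l, lam l • b l + p.s * a1 + p.t * a2 := by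
  have := finite_quot p
  obtain ⟨n, s, hs⟩ := Module.Finite.exists_fin (R := ℂ) (M := Ahat d ⧸ stSub p)
  have hlift : ∀ l, ∃ b : Ahat d, Submodule.Quotient.mk (p := stSub p) b = s l :=
    fun l => Submodule.Quotient.mk_surjective _ (s l)
  choose b hb using hlift
  refine ⟨n, b, fun a => ?_⟩
  have hmem : Submodule.Quotient.mk (p := stSub p) a ∈ Submodule.span ℂ (Set.range s) := by
    rw [hs]; trivial
  obtain ⟨lam, hlam⟩ := (Submodule.mem_span_range_iff_exists_fun ℂ).1 hmem
  have h1 : a - ∑ l, lam l • b l ∈ stSub p := by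
    rw [← Submodule.Quotient.mk_eq_zero, Submodule.Quotient.mk_sub, ← hlam, sub_eq_zero]
    rw [← Submodule.mkQ_apply, map_sum]
    refine Finset.sum_congr rfl fun l _ => ?_
    rw [map_smul, Submodule.mkQ_apply, hb]
  have h2 : a - ∑ l, lam l • b l ∈ Ideal.span (Set.range (stA p)) := h1
  obtain ⟨c, hc⟩ := (Submodule.mem_span_range_iff_exists_fun (Ahat d)).1 h2
  rw [Fin.sum_univ_two] at hc
  refine ⟨lam, c 0, c 1, ?_⟩
  have e0 : stA p 0 = p.s := rfl
  have e1 : stA p 1 = p.t := rfl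
  rw [e0, e1, smul_eq_mul, smul_eq_mul] at hc
  have : a = ∑ l, lam l • b l + (c 0 * p.s + c 1 * p.t) := by
    rw [hc]; ring
  rw [this]; ring

theorem Free_nak_aux {R : Type*} [CommRing R] (s t : R) (β ρ1 ρ2 : R → R)
    (h : ∀ a, a = β a + s * ρ1 a + t * ρ2 a) (a : R) :
    ∃ E : ℕ → ℕ → R, ∀ N, a = ∑ M ∈ Finset.range N, ∑ i ∈ Finset.range (M + 1),
          (s ^ i * t ^ (M - i)) * β (E M i)
        + ∑ i ∈ Finset.range (N + 1), (s ^ i * t ^ (N - i)) * E N i := by
  let E : ℕ → ℕ → R := fun N => Nat.rec (fun _ => a)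
    (fun N EN i => (if 1 ≤ i then ρ1 (EN (i - 1)) else 0) + (if i ≤ N then ρ2 (EN i) else 0)) N
  have hE : ∀ N i, E (N + 1) i
      = (if 1 ≤ i then ρ1 (E N (i - 1)) else 0) + (if i ≤ N then ρ2 (E N i) else 0) :=
    fun _ _ => rfl
  refine ⟨E, fun N => ?_⟩
  induction N with
  | zero =>
    have : E 0 0 = a := rfl
    simp [this]
  | succ N ih =>
    have key : ∑ i ∈ Finset.range (N + 1), (s ^ i * t ^ (N - i)) * E N i
        = ∑ i ∈ Finset.range (N + 1), (s ^ i * t ^ (N - i)) * β (E N i)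
          + ∑ i ∈ Finset.range (N + 1 + 1), (s ^ i * t ^ (N + 1 - i)) * E (N + 1) i := by
      have e1 : ∑ i ∈ Finset.range (N + 1 + 1), (s ^ i * t ^ (N + 1 - i)) * E (N + 1) i
          = ∑ i ∈ Finset.range (N + 1 + 1),
              (s ^ i * t ^ (N + 1 - i)) * (if 1 ≤ i then ρ1 (E N (i - 1)) else 0)
            + ∑ i ∈ Finset.range (N + 1 + 1),
              (s ^ i * t ^ (N + 1 - i)) * (if i ≤ N then ρ2 (E N i) else 0) := by
        rw [← Finset.sum_add_distrib]
        refine Finset.sum_congr rfl fun i _ => ?_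
        rw [hE, mul_add]
      have e2 : ∑ i ∈ Finset.range (N + 1 + 1),
              (s ^ i * t ^ (N + 1 - i)) * (if 1 ≤ i then ρ1 (E N (i - 1)) else 0)
          = ∑ i ∈ Finset.range (N + 1), (s ^ i * t ^ (N - i)) * (s * ρ1 (E N i)) := by
        rw [Finset.sum_range_succ']
        simp only [Nat.le_add_left, if_true, Nat.add_sub_cancel, Nat.add_sub_add_right]
        simp only [nonpos_iff_eq_zero, one_ne_zero, if_false, mul_zero, add_zero]
        refine Finset.sum_congr rfl fun i _ => ?_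
        ring
      have e3 : ∑ i ∈ Finset.range (N + 1 + 1),
              (s ^ i * t ^ (N + 1 - i)) * (if i ≤ N then ρ2 (E N i) else 0)
          = ∑ i ∈ Finset.range (N + 1), (s ^ i * t ^ (N - i)) * (t * ρ2 (E N i)) := by
        rw [Finset.sum_range_succ]
        rw [if_neg (by omega), mul_zero, add_zero]
        refine Finset.sum_congr rfl fun i hi => ?_
        have hi' : i ≤ N := by have := Finset.mem_range.1 hi; omega
        rw [if_pos hi', show N + 1 - i = (N - i) + 1 by omega, pow_succ]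
        ring
      rw [e1, e2, e3, ← Finset.sum_add_distrib, ← Finset.sum_add_distrib]
      refine Finset.sum_congr rfl fun i _ => ?_
      conv_lhs => rw [h (E N i)]
      ring
    rw [Finset.sum_range_succ, add_assoc, ← key]
    exact ih

/-- the complete Nakayama iteration -/
theorem nak_seq {d : DD} {p : Par d} {n : ℕ} {b : Fin n → Ahat d}
    (hb : ∀ a : Ahat d, ∃ (lam : Fin n → ℂ) (a1 a2 : Ahat d),
      a = ∑ l, lam l • b l + p.s * a1 + p.t * a2) (a : Ahat d) :
    ∃ (lam : ℕ → ℕ → Fin n → ℂ) (E : ℕ → ℕ → Ahat d),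
      ∀ N, a = ∑ M ∈ Finset.range N, ∑ i ∈ Finset.range (M + 1),
          (p.s ^ i * p.t ^ (M - i)) * ∑ l, lam M i l • b l
        + ∑ i ∈ Finset.range (N + 1), (p.s ^ i * p.t ^ (N - i)) * E N i := by
  choose lamf r1 r2 h using hb
  obtain ⟨E, hE⟩ := Free_nak_aux p.s p.t (fun a => ∑ l, lamf a l • b l) r1 r2 h a
  exact ⟨fun M i => lamf (E M i), E, hE⟩

theorem Free_pow_mem_Fil {d : DD} {a : Ahat d} {m : ℕ} (ha : a ∈ Fil d m) (k : ℕ) :
    a ^ k ∈ Fil d (m * k) := by
  induction k with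
  | zero => rw [mem_Fil]; simp
  | succ k ih =>
    rw [pow_succ, Nat.mul_succ]
    exact Fil_mul d ih ha

theorem Free_coeff_ex2 {n : ℕ} (lam : ℕ → ℕ → Fin n → ℂ) (l : Fin n) (i j : ℕ) :
    MvPowerSeries.coeff (ex2 i j) ((fun e => lam (e 0 + e 1) (e 0) l : (Fin 2 →₀ ℕ) → ℂ) : P2h)
      = lam (i + j) i l := by
  have h0 : (ex2 i j) 0 = i := by simp [ex2]
  have h1 : (ex2 i j) 1 = j := by simp [ex2]
  show lam ((ex2 i j) 0 + (ex2 i j) 1) ((ex2 i j) 0) l = _
  rw [h0, h1]

/-- generation -/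
theorem gen_of_genMod {d : DD} {p : Par d} {n : ℕ} {b : Fin n → Ahat d}
    (hb : ∀ a : Ahat d, ∃ (lam : Fin n → ℂ) (a1 a2 : Ahat d),
      a = ∑ l, lam l • b l + p.s * a1 + p.t * a2) (a : Ahat d) :
    ∃ P : Fin n → P2h, a = ∑ l, iotaA p (P l) * b l := by
  obtain ⟨lam, E, hN⟩ := nak_seq hb a
  let P : Fin n → P2h := fun l => (fun e => lam (e 0 + e 1) (e 0) l : (Fin 2 →₀ ℕ) → ℂ)
  refine ⟨P, ?_⟩
  rw [← sub_eq_zero]
  apply Fil_inf d
  intro N
  apply Fil_anti d (by omega : N ≤ 9 * N)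
  -- the truncated sum
  have h1 : ∑ l, truncST p (P l) N * b l = ∑ M ∈ Finset.range N, ∑ i ∈ Finset.range (M + 1),
          (p.s ^ i * p.t ^ (M - i)) * ∑ l, lam M i l • b l := by
    simp only [truncST, Finset.sum_mul, Finset.mul_sum]
    rw [Finset.sum_comm]
    refine Finset.sum_congr rfl fun M _ => ?_
    rw [Finset.sum_comm]
    refine Finset.sum_congr rfl fun i hi => ?_
    refine Finset.sum_congr rfl fun l _ => ?_
    have hi' : i ≤ M := Nat.lt_succ_iff.1 (Finset.mem_range.1 hi)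
    have : MvPowerSeries.coeff (ex2 i (M - i)) (P l) = lam M i l := by
      rw [Free_coeff_ex2 lam l i (M - i), Nat.add_sub_cancel' hi']
    rw [this, smul_mul_assoc, mul_smul_comm]
  have h2 : a - ∑ l, truncST p (P l) N * b l ∈ Fil d (9 * N) := by
    rw [h1]
    have := hN N
    have e : a - ∑ M ∈ Finset.range N, ∑ i ∈ Finset.range (M + 1),
          (p.s ^ i * p.t ^ (M - i)) * ∑ l, lam M i l • b l
        = ∑ i ∈ Finset.range (N + 1), (p.s ^ i * p.t ^ (N - i)) * E N i := by
      rw [sub_eq_iff_eq_add, add_comm]; exact this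
    rw [e]
    refine Ideal.sum_mem _ fun i hi => Ideal.mul_mem_right _ _ ?_
    have hi' : i ≤ N := Nat.lt_succ_iff.1 (Finset.mem_range.1 hi)
    have := Fil_mul d (Free_pow_mem_Fil p.s_fil i) (Free_pow_mem_Fil p.t_fil (N - i))
    have e2 : 9 * i + 9 * (N - i) = 9 * N := by omega
    rwa [e2] at this
  have h3 : ∑ l, (iotaA p (P l) - truncST p (P l) N) * b l ∈ Fil d (9 * N) :=
    Ideal.sum_mem _ fun l _ => Ideal.mul_mem_right _ _ (iotaA_trunc p (P l) N)
  have e3 : a - ∑ l, iotaA p (P l) * b l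
      = (a - ∑ l, truncST p (P l) N * b l) - ∑ l, (iotaA p (P l) - truncST p (P l) N) * b l := by
    simp only [sub_mul, Finset.sum_sub_distrib]
    ring
  rw [e3]
  exact Ideal.sub_mem _ h2 h3

end Claimed.Agent.R246.F1

/-! ### hygiene (rule 6, on-demand lemmas): the equation lemmas of the definitions of this file are realised HERE.
Keep this block at the end of the file. -/
theorem Claimed.Agent.R246.F1.Hyg.Free : True := by
  have := @Claimed.Agent.R246.F1.stSub.eq_1
  have := @Claimed.Agent.R246.F1.stSub.eq_def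
  have := @Claimed.Agent.R246.F1.jet27.eq_1
  have := @Claimed.Agent.R246.F1.jet27.eq_def
  trivial
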