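import Claimed.Agent.R246.F1.Par
import Claimed.Agent.R246.FC

/-!
# Row 246, module F1, file Iota: the map `iota : ℂ[[s,t]] → A^` (R246_F1.md, C2).
`PP = PowerSeries ℂ[X] = MvPowerSeries Unit ℂ[X]`, `iotaPP = MvPowerSeries.substAlgHom`.

PROOFS.
* `stv_hasSubst`: `MvPowerSeries.hasSubst_of_constantCoeff_zero`; the constant coefficient of `s`, `t` vanishes because `V^9 ∣ s, t`
  (`mem_Fil`, `PowerSeries.X_pow_dvd_iff` with `m = 0`; `PowerSeries.coeff_zero_eq_constantCoeff`).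
* `iotaPP_X0/1`: `MvPowerSeries.substAlgHom_X`.
* `iotaPP_dvd`: `MvPowerSeries.coeff_subst`: coefficient `e` of `subst` is `∑ᶠ δ, coeff δ f • coeff e (s^(δ 0) t^(δ 1))`; for `e < 9 N`
  every term vanishes: either `δ 0 + δ 1 < N` (`hf`, `ex2_surj`) or `V^(9N) ∣ s^(δ 0) t^(δ 1)`.
  (Alternative: `MvPowerSeries.le_order_subst`.)
* `iotaPP_trunc`: `f - (the polynomial Σ_{M<N} Σ_{i≤M} monomial (ex2 i (M-i)) (coeff ..))` satisfies the hypothesis of `iotaPP_dvd`;
  `MvPowerSeries.substAlgHom_monomial`.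
* `iotaPP_mem`: `Ahat_closed`, `iotaPP_trunc`, `truncST_mem` (`N ≤ 9 N`).
-/

set_option autoImplicit false

namespace Claimed.Agent.R246.F1

open Polynomial

/-- the pair `(s,t)` in `PP` -/
noncomputable def stv {d : DD} (p : Par d) : Fin 2 → MvPowerSeries Unit ℂ[X] := ![(p.s : PP), (p.t : PP)]

theorem Iota_constCoeff_zero {a : PP} (h : VV ^ 9 ∣ a) :
    MvPowerSeries.constantCoeff (a : MvPowerSeries Unit ℂ[X]) = 0 := by
  have h0 : PowerSeries.coeff 0 a = 0 := (PowerSeries.X_pow_dvd_iff.1 h) 0 (by norm_num)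
  rw [PowerSeries.coeff_zero_eq_constantCoeff] at h0
  exact h0

theorem stv_hasSubst {d : DD} (p : Par d) : MvPowerSeries.HasSubst (stv p) := by
  refine MvPowerSeries.hasSubst_of_constantCoeff_zero fun j => ?_
  fin_cases j
  · exact Iota_constCoeff_zero (mem_Fil.1 p.s_fil)
  · exact Iota_constCoeff_zero (mem_Fil.1 p.t_fil)

/-- `f ↦ f(s,t)` -/
noncomputable def iotaPP {d : DD} (p : Par d) : P2h →ₐ[ℂ] PP :=
  MvPowerSeries.substAlgHom (stv_hasSubst p)

theorem iotaPP_X0 {d : DD} (p : Par d) : iotaPP p (MvPowerSeries.X 0) = p.s := by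
  unfold iotaPP
  rw [MvPowerSeries.substAlgHom_X]
  rfl

theorem iotaPP_X1 {d : DD} (p : Par d) : iotaPP p (MvPowerSeries.X 1) = p.t := by
  unfold iotaPP
  rw [MvPowerSeries.substAlgHom_X]
  rfl

/-- the exponent of `s^i t^j` -/
noncomputable def ex2 (i j : ℕ) : Fin 2 →₀ ℕ := Finsupp.single 0 i + Finsupp.single 1 j

/-- every exponent is `ex2 i j` -/
theorem ex2_surj (e : Fin 2 →₀ ℕ) : e = ex2 (e 0) (e 1) := by
  ext j
  fin_cases j <;> simp [ex2]

/-- if all coefficients of total degree `< N` vanish then `V^(9N) ∣ f(s,t)` -/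
theorem iotaPP_dvd {d : DD} (p : Par d) (f : P2h) (N : ℕ)
    (hf : ∀ i j, i + j < N → MvPowerSeries.coeff (ex2 i j) f = 0) : VV ^ (9 * N) ∣ iotaPP p f := by
  rw [PowerSeries.X_pow_dvd_iff]
  intro m hm
  have hs : VV ^ 9 ∣ (p.s : PP) := mem_Fil.1 p.s_fil
  have ht : VV ^ 9 ∣ (p.t : PP) := mem_Fil.1 p.t_fil
  have e1 : PowerSeries.coeff m (iotaPP p f)
      = MvPowerSeries.coeff (Finsupp.single () m) (MvPowerSeries.subst (stv p) f) := by
    rw [iotaPP, MvPowerSeries.substAlgHom_apply]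
    rfl
  rw [e1, MvPowerSeries.coeff_subst (stv_hasSubst p)]
  refine finsum_eq_zero_of_forall_eq_zero fun δ => ?_
  by_cases hδ : δ 0 + δ 1 < N
  · have h0 : MvPowerSeries.coeff δ f = 0 := by
      rw [ex2_surj δ]
      exact hf _ _ hδ
    rw [h0, zero_smul]
  · have hprod : (δ.prod fun s e => (stv p s) ^ e) = (p.s : PP) ^ (δ 0) * (p.t : PP) ^ (δ 1) := by
      rw [Finsupp.prod_fintype _ _ (fun i => pow_zero _), Fin.prod_univ_two]
      rfl
    have hdvd : VV ^ (9 * N) ∣ (p.s : PP) ^ (δ 0) * (p.t : PP) ^ (δ 1) := by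
      have h1 : VV ^ (9 * δ 0) ∣ (p.s : PP) ^ (δ 0) := by
        rw [pow_mul]; exact pow_dvd_pow_of_dvd hs _
      have h2 : VV ^ (9 * δ 1) ∣ (p.t : PP) ^ (δ 1) := by
        rw [pow_mul]; exact pow_dvd_pow_of_dvd ht _
      refine dvd_trans (pow_dvd_pow VV ?_) (pow_add VV _ _ ▸ mul_dvd_mul h1 h2)
      omega
    have h3 : PowerSeries.coeff m ((p.s : PP) ^ (δ 0) * (p.t : PP) ^ (δ 1)) = 0 :=
      (PowerSeries.X_pow_dvd_iff.1 hdvd) m hm
    have h4 : MvPowerSeries.coeff (Finsupp.single () m) (δ.prod fun s e => (stv p s) ^ e) = 0 := by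
      rw [hprod]
      exact h3
    rw [h4, smul_zero]

/-- the truncation of `f` at total degree `N`, evaluated at `(s,t)` -/
noncomputable def truncST {d : DD} (p : Par d) (f : P2h) (N : ℕ) : Ahat d :=
  ∑ M ∈ Finset.range N, ∑ i ∈ Finset.range (M + 1),
    MvPowerSeries.coeff (ex2 i (M - i)) f • (p.s ^ i * p.t ^ (M - i))

theorem Iota_ex2_inj {i j i' j' : ℕ} (h : ex2 i j = ex2 i' j') : i = i' ∧ j = j' := by
  have h0 := DFunLike.congr_fun h 0
  have h1 := DFunLike.congr_fun h 1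
  simp [ex2] at h0 h1
  exact ⟨h0, h1⟩

theorem Iota_monomial {d : DD} (p : Par d) (i j : ℕ) (c : ℂ) :
    iotaPP p (MvPowerSeries.monomial (ex2 i j) c) = c • ((p.s : PP) ^ i * (p.t : PP) ^ j) := by
  have h : (MvPowerSeries.monomial (ex2 i j) c : P2h)
      = c • ((MvPowerSeries.X 0 : P2h) ^ i * (MvPowerSeries.X 1 : P2h) ^ j) := by
    rw [MvPowerSeries.X_pow_eq, MvPowerSeries.X_pow_eq, MvPowerSeries.monomial_mul_monomial,
      ← map_smul, ex2]
    simp
  rw [h, map_smul, map_mul, map_pow, map_pow, iotaPP_X0, iotaPP_X1]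

theorem Iota_coeff_trunc (f : P2h) (N : ℕ) (i j : ℕ) (h : i + j < N) :
    MvPowerSeries.coeff (ex2 i j) (∑ M ∈ Finset.range N, ∑ k ∈ Finset.range (M + 1),
      (MvPowerSeries.monomial (ex2 k (M - k)) (MvPowerSeries.coeff (ex2 k (M - k)) f) : P2h))
      = MvPowerSeries.coeff (ex2 i j) f := by
  rw [map_sum, Finset.sum_eq_single (i + j)]
  · rw [map_sum, Finset.sum_eq_single i]
    · simp
    · intro b _ hb
      rw [MvPowerSeries.coeff_monomial, if_neg]
      intro he
      exact hb (Iota_ex2_inj he).1.symm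
    · intro hi
      exact absurd (Finset.mem_range.mpr (by omega)) hi
  · intro M _ hM
    rw [map_sum]
    refine Finset.sum_eq_zero fun b hb => ?_
    rw [MvPowerSeries.coeff_monomial, if_neg]
    intro he
    have h2 := Iota_ex2_inj he
    have hb' := Finset.mem_range.mp hb
    omega
  · intro hi
    exact absurd (Finset.mem_range.mpr h) hi

theorem iotaPP_trunc {d : DD} (p : Par d) (f : P2h) (N : ℕ) :
    VV ^ (9 * N) ∣ iotaPP p f - (truncST p f N : PP) := by
  have hP : iotaPP p (∑ M ∈ Finset.range N, ∑ k ∈ Finset.range (M + 1),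
      (MvPowerSeries.monomial (ex2 k (M - k)) (MvPowerSeries.coeff (ex2 k (M - k)) f) : P2h))
      = (truncST p f N : PP) := by
    simp only [map_sum, Iota_monomial, truncST]
    push_cast
    rfl
  rw [← hP, ← map_sub]
  refine iotaPP_dvd p _ N fun i j h => ?_
  rw [map_sub, Iota_coeff_trunc f N i j h, sub_self]

theorem iotaPP_mem {d : DD} (p : Par d) (f : P2h) : iotaPP p f ∈ Ahat d := by
  refine Ahat_closed d fun N => ⟨truncST p f N, (truncST p f N).2, ?_⟩
  exact dvd_trans (pow_dvd_pow _ (by omega)) (iotaPP_trunc p f N)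

/-- `iota` with values in `A^` -/
noncomputable def iotaA {d : DD} (p : Par d) : P2h →ₐ[ℂ] Ahat d :=
  (iotaPP p).codRestrict (Ahat d) (iotaPP_mem p)

theorem iotaA_coe {d : DD} (p : Par d) (f : P2h) : ((iotaA p f : Ahat d) : PP) = iotaPP p f := rfl

theorem iotaA_X {d : DD} (p : Par d) (j : Fin 2) : iotaA p (MvPowerSeries.X j) = stA p j := by
  fin_cases j
  · exact Subtype.ext (iotaPP_X0 p)
  · exact Subtype.ext (iotaPP_X1 p)

theorem iotaA_trunc {d : DD} (p : Par d) (f : P2h) (N : ℕ) :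
    iotaA p f - truncST p f N ∈ Fil d (9 * N) := by
  rw [mem_Fil]
  exact iotaPP_trunc p f N

end Claimed.Agent.R246.F1

/-! ### hygiene (rule 6, on-demand lemmas): the equation lemmas of the definitions of this file are realised HERE.
Keep this block at the end of the file. -/
theorem Claimed.Agent.R246.F1.Hyg.Iota : True := by
  have := @Claimed.Agent.R246.F1.stv.eq_1
  have := @Claimed.Agent.R246.F1.stv.eq_def
  have := @Claimed.Agent.R246.F1.iotaPP.eq_1
  have := @Claimed.Agent.R246.F1.iotaPP.eq_def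
  have := @Claimed.Agent.R246.F1.ex2.eq_1
  have := @Claimed.Agent.R246.F1.ex2.eq_def
  have := @Claimed.Agent.R246.F1.truncST.eq_1
  have := @Claimed.Agent.R246.F1.truncST.eq_def
  have := @Claimed.Agent.R246.F1.iotaA.eq_1
  have := @Claimed.Agent.R246.F1.iotaA.eq_def
  trivial
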