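import Claimed.Agent.R246.F1.Sum

/-!
# Row 246, F1, B1: lifting of leading coefficients ("H^1(L^m) = 0 for m ≥ 9" = Euclidean division)

PROOF of `lift_step` (one step).  `h := coeff (m+1) (φ P)`, `q := h /ₘ F^mm(m+1)`, `r := h %ₘ F^mm(m+1)`
(`F^k` is monic), `c := - F^mm(m+1) * q`.  `natDegree r < 27 * mm (m+1) ≤ 20 (m+1) + 1` for `m + 1 ≥ 9`
(`unfold mm; omega`), `Polynomial.natDegree_modByMonic_lt` (or `degree_modByMonic_lt`; if the divisor is `1`... it is not: `mm ≥ 1`).
`coeff (m+1) (φ (P + C c * V^(m+1))) = h + c = r` by `map_add`, `phi_coeff_of_dvd`.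
For `j ≤ m`: `coeff j (φ (C c V^(m+1))) = 0` by `phi_dvd`.

PROOF of `lift_exists`.  Recursion: `P_n = C g * V^n`, `P_(m+1) = P_m + C c_(m+1) V^(m+1)` (`lift_step`, `Classical.choose`
or build the sequence with `Nat.rec` on a subtype carrying the invariant
  `Inv m P :  V^n ∣ P ∧ coeff n P = g ∧ (∀ j, F^mm j ∣ coeff j P) ∧ (∀ j ≤ m, natDegree (coeff j (φ P)) ≤ 20 j)`).
The increments `u k` are divisible by `V^k`; `exists_sum` gives `a` with `V^(N) ∣ a - P_N'`; conclude with
`phi_coeff_congr` (as in `Ahat_closed`; note `P_m` itself need not lie in `Â`, so argue coefficientwise).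
Start: `coeff j (φ (C g V^n)) = 0` for `j < n` and `= g` for `j = n` (`phi_dvd`, `phi_coeff_of_dvd`).
-/

set_option autoImplicit false

namespace Claimed.Agent.R246.F1

open Polynomial

variable (d : DD)

theorem lift_step {m : ℕ} (hm : 8 ≤ m) (P : PP) :
    ∃ c : ℂ[X], d.F ^ mm (m + 1) ∣ c ∧
      (PowerSeries.coeff (m + 1) (d.φ (P + PowerSeries.C c * VV ^ (m + 1)))).natDegree
        ≤ 20 * (m + 1) ∧
      ∀ j ≤ m, PowerSeries.coeff j (d.φ (P + PowerSeries.C c * VV ^ (m + 1)))
        = PowerSeries.coeff j (d.φ P) := by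
  set h : ℂ[X] := PowerSeries.coeff (m + 1) (d.φ P) with hh
  set G : ℂ[X] := d.F ^ mm (m + 1) with hG
  have hGm : G.Monic := d.F_monic.pow _
  have hGd : G.natDegree = 27 * mm (m + 1) := by
    rw [hG, d.F_monic.natDegree_pow, d.F_deg, Nat.mul_comm]
  have hmm1 : 1 ≤ mm (m + 1) := by unfold mm; omega
  have hmm2 : 27 * mm (m + 1) ≤ 20 * (m + 1) + 1 := by unfold mm; omega
  have hG1 : G ≠ 1 := by
    intro e
    rw [e, natDegree_one] at hGd
    omega
  have hdvd : ∀ c : ℂ[X], VV ^ (m + 1) ∣ PowerSeries.C c * VV ^ (m + 1) := fun c =>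
    dvd_mul_left _ _
  refine ⟨-(G * (h /ₘ G)), (dvd_mul_right _ _).neg_right, ?_, ?_⟩
  · have e1 : PowerSeries.coeff (m + 1)
        (d.φ (P + PowerSeries.C (-(G * (h /ₘ G))) * VV ^ (m + 1))) = h %ₘ G := by
      rw [map_add, map_add, phi_coeff_of_dvd d (hdvd _), PowerSeries.coeff_C_mul_X_pow,
        if_pos rfl, ← hh]
      have := modByMonic_add_div h G
      linear_combination -this
    rw [e1]
    have := natDegree_modByMonic_lt h hGm hG1
    omega
  · intro j hj
    have h0 : PowerSeries.coeff j (d.φ (PowerSeries.C (-(G * (h /ₘ G))) * VV ^ (m + 1))) = 0 :=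
      PowerSeries.X_pow_dvd_iff.1 (phi_dvd d (hdvd _)) j (by omega)
    rw [map_add, map_add, h0, add_zero]

/-- B1 -/
theorem lift_exists {n : ℕ} (hn : 8 ≤ n) {g : ℂ[X]} (hg : InR d.F n g) :
    ∃ a : Ahat d, a ∈ Fil d n ∧ PowerSeries.coeff n (a : PP) = g := by
  have step : ∀ (k : ℕ) (P : PP), ∃ c : ℂ[X], d.F ^ mm (n + k + 1) ∣ c ∧
      (PowerSeries.coeff (n + k + 1) (d.φ (P + PowerSeries.C c * VV ^ (n + k + 1)))).natDegree
        ≤ 20 * (n + k + 1) ∧
      ∀ j ≤ n + k, PowerSeries.coeff j (d.φ (P + PowerSeries.C c * VV ^ (n + k + 1)))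
        = PowerSeries.coeff j (d.φ P) := fun k P => lift_step d (by omega) P
  choose c hc1 hc2 hc3 using step
  let Q : ℕ → PP := fun k =>
    Nat.rec (PowerSeries.C g * VV ^ n) (fun k P => P + PowerSeries.C (c k P) * VV ^ (n + k + 1)) k
  have Q0 : Q 0 = PowerSeries.C g * VV ^ n := rfl
  have Qs : ∀ k, Q (k + 1) = Q k + PowerSeries.C (c k (Q k)) * VV ^ (n + k + 1) := fun k => rfl
  have i1 : ∀ k, VV ^ n ∣ Q k := by
    intro k
    induction k with
    | zero => rw [Q0]; exact dvd_mul_left _ _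
    | succ k ih =>
      rw [Qs]
      exact dvd_add ih (Dvd.dvd.mul_left (pow_dvd_pow _ (by omega)) _)
  have i2 : ∀ k, PowerSeries.coeff n (Q k) = g := by
    intro k
    induction k with
    | zero => rw [Q0, PowerSeries.coeff_C_mul_X_pow, if_pos rfl]
    | succ k ih =>
      rw [Qs, map_add, ih, PowerSeries.coeff_C_mul_X_pow, if_neg (by omega), add_zero]
  have i3 : ∀ k j, d.F ^ mm j ∣ PowerSeries.coeff j (Q k) := by
    intro k
    induction k with
    | zero =>
      intro j
      rw [Q0, PowerSeries.coeff_C_mul_X_pow]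
      split_ifs with e
      · rw [e]; exact hg.1
      · exact dvd_zero _
    | succ k ih =>
      intro j
      rw [Qs, map_add, PowerSeries.coeff_C_mul_X_pow]
      refine dvd_add (ih j) ?_
      split_ifs with e
      · rw [e]; exact hc1 k (Q k)
      · exact dvd_zero _
  have i4 : ∀ k j, j ≤ n + k → (PowerSeries.coeff j (d.φ (Q k))).natDegree ≤ 20 * j := by
    intro k
    induction k with
    | zero =>
      intro j hj
      have hd : VV ^ n ∣ PowerSeries.C g * VV ^ n := dvd_mul_left _ _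
      rw [Q0]
      rcases Nat.lt_or_ge j n with h | h
      · rw [PowerSeries.X_pow_dvd_iff.1 (phi_dvd d hd) j h]
        simp
      · have e : j = n := by omega
        rw [e, phi_coeff_of_dvd d hd, PowerSeries.coeff_C_mul_X_pow, if_pos rfl]
        exact hg.2
    | succ k ih =>
      intro j hj
      rw [Qs]
      rcases Nat.lt_or_ge j (n + k + 1) with h | h
      · rw [hc3 k (Q k) j (by omega)]
        exact ih j (by omega)
      · have e : j = n + k + 1 := by omega
        rw [e]
        exact hc2 k (Q k)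
  have i5 : ∀ k l, VV ^ (n + k + 1) ∣ Q (k + l) - Q k := by
    intro k l
    induction l with
    | zero => simp
    | succ l ih =>
      have : Q (k + (l + 1)) - Q k
          = (Q (k + l) - Q k) + PowerSeries.C (c (k + l) (Q (k + l))) * VV ^ (n + (k + l) + 1) := by
        rw [← Nat.add_assoc, Qs]; ring
      rw [this]
      exact dvd_add ih (Dvd.dvd.mul_left (pow_dvd_pow _ (by omega)) _)
  let a : PP := PowerSeries.mk fun j => PowerSeries.coeff j (Q j)
  have ha : ∀ j, PowerSeries.coeff j a = PowerSeries.coeff j (Q j) := fun j =>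
    PowerSeries.coeff_mk _ _
  have i6 : ∀ N, VV ^ (N + 1) ∣ a - Q N := by
    intro N
    rw [PowerSeries.X_pow_dvd_iff]
    intro j hj
    obtain ⟨l, rfl⟩ := Nat.exists_eq_add_of_le (Nat.lt_succ_iff.1 hj)
    have := PowerSeries.X_pow_dvd_iff.1 (i5 j l) j (by omega)
    rw [map_sub] at this ⊢
    rw [ha]
    linear_combination -this
  have hA : a ∈ Ahat d := by
    refine ⟨fun j => ?_, fun j => ?_⟩
    · rw [ha]; exact i3 j j
    · show (PowerSeries.coeff j (d.φ a)).natDegree ≤ 20 * j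
      rw [phi_coeff_congr d (i6 j)]
      exact i4 j j (by omega)
  refine ⟨⟨a, hA⟩, ?_, ?_⟩
  · rw [mem_Fil]
    show VV ^ n ∣ a
    rw [PowerSeries.X_pow_dvd_iff]
    intro j hj
    rw [ha]
    exact PowerSeries.X_pow_dvd_iff.1 (i1 j) j hj
  · show PowerSeries.coeff n a = g
    rw [ha]
    exact i2 n

end Claimed.Agent.R246.F1
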