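import Claimed.Agent.R246.F1.Min

/-!
# Row 246, module F1, file Main: `DD => FormalCert`.
-/

set_option autoImplicit false

namespace Claimed.Agent.R246.F1

open Polynomial

/-- the `ℂ[[s,t]]`-algebra structure of `A^` -/
@[reducible] noncomputable def algA {d : DD} (p : Par d) : Algebra P2h (Ahat d) :=
  (iotaA p).toRingHom.toAlgebra

theorem algA_map {d : DD} (p : Par d) (f : P2h) :
    @algebraMap P2h (Ahat d) _ _ (algA p) f = iotaA p f := rfl

theorem algA_smul {d : DD} (p : Par d) (f : P2h) (a : Ahat d) :
    (algA p).toSMul.smul f a = iotaA p f * a := rfl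

theorem main_tower {d : DD} (p : Par d) :
    @IsScalarTower ℂ P2h (Ahat d) _ (algA p).toSMul _ := by
  let _ := algA p
  refine IsScalarTower.of_algebraMap_eq fun c => ?_
  rw [algA_map]
  exact ((iotaA p).commutes c).symm

theorem main_finite {d : DD} (p : Par d) :
    @Module.Finite P2h (Ahat d) _ _ (algA p).toModule := by
  let _ := algA p
  classical
  obtain ⟨n, b, hb⟩ := exists_genMod p
  refine ⟨⟨Finset.univ.image b, ?_⟩⟩
  rw [eq_top_iff]
  intro a _
  obtain ⟨P, hP⟩ := gen_of_genMod hb a
  rw [hP]
  refine Submodule.sum_mem _ fun l _ => ?_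
  have h1 : iotaA p (P l) * b l = P l • b l := rfl
  rw [h1]
  exact Submodule.smul_mem _ _ (Submodule.subset_span (by simp))

theorem main_free {d : DD} (p : Par d) :
    @Module.Free P2h (Ahat d) _ _ (algA p).toModule := by
  let _ := algA p
  have := main_finite p
  refine free_of_regular_mv2 ℂ ?_ ?_
  · intro x hx
    have h1 : p.s * x = 0 := by
      have := iotaA_X p 0
      simpa [Algebra.smul_def, algA_map, this, stA] using hx
    exact (mul_eq_zero.1 h1).resolve_left (s_ne_zero p)
  · intro x y hxy
    have h1 : p.t * x = p.s * y := by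
      have h0 := iotaA_X p 0
      have h1 := iotaA_X p 1
      simpa [Algebra.smul_def, algA_map, h0, h1, stA] using hxy
    obtain ⟨c, hc⟩ := reg p x y h1
    refine ⟨c, ?_⟩
    have h0 := iotaA_X p 0
    simpa [Algebra.smul_def, algA_map, h0, stA] using hc

/-- the formal certificate -/
noncomputable def mainCert {d : DD} (p : Par d) : @FormalCert (Ahat d) _ _ (algA p) :=
  letI := algA p
  { D := Dhat d
    ev := ev d
    ev_X := fun j => by
      rw [algA_map, iotaA_X, ev_eq_zero_iff]
      exact Fil_anti d (by norm_num) (stA_fil p j)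
    ev_D := ev_Dhat d
    N0 := 6
    minors := fun j => by
      rw [algA_map, iotaA_X]
      refine span_wv_le p (Fil54_le p ?_)
      have h := stA_fil p j
      have h2 : stA p j ^ 6 ∈ Fil d (9 * 6) := by
        rw [mem_Fil] at h ⊢
        rw [pow_mul]
        simpa using pow_dvd_pow_of_dvd h 6
      exact h2
    M0 := 9
    nil := fun a ha => by
      have h := pow_nine p ha
      have h2 : (Set.range fun j : Fin 2 => algebraMap P2h (Ahat d) (MvPowerSeries.X j))
          = Set.range (stA p) := by
        congr 1
        funext j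
        rw [algA_map, iotaA_X]
      rw [h2]
      exact h }

/-- **Module F1**: gluing data give a formal certificate. -/
theorem fc_of_dd (d : DD) : ∃ (_ : Algebra P2h (Ahat d)), IsScalarTower ℂ P2h (Ahat d) ∧
    Module.Free P2h (Ahat d) ∧ Module.Finite P2h (Ahat d) ∧ Nonempty (FormalCert (Ahat d)) := by
  obtain ⟨p⟩ := exists_par d
  exact ⟨algA p, main_tower p, main_free p, main_finite p, ⟨mainCert p⟩⟩

end Claimed.Agent.R246.F1

/-! ### hygiene (rule 6, on-demand lemmas): the equation lemmas of the definitions of this file are realised HERE.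
Keep this block at the end of the file. -/
theorem Claimed.Agent.R246.F1.Hyg.Main : True := by
  have := @Claimed.Agent.R246.F1.algA.eq_1
  have := @Claimed.Agent.R246.F1.algA.eq_def
  have := @Claimed.Agent.R246.F1.mainCert.eq_1
  have := @Claimed.Agent.R246.F1.mainCert.eq_def
  trivial
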