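import Claimed.Agent.R246.F1.Free

/-!
# Row 246, module F1, file Min: the ideal of minors contains `Fil_54` (R246_F1.md section 5, MODIFIED: no generic `h`).

`W(f,g) = w {f,g}`, `w = aa_1 cc_2 - aa_2 cc_1 = u0 F^6 V^9 + ..`, `{f,g} = f_x g_V - f_V g_x`.
Three generators:
* `w_1 = W(r1, t)  = 9 u0 F^18 V^26 + ..`
* `w_2 = W(s, r17) = 9 u0 F^18 x^34 V^26 + ..`
* `w_3 = W(t, bb)  = -3 u0 F^18 F' V^27 + ..`
For `n ≥ 54`, `R_n = F^18 R_(n-26) + F^18 x^34 R_(n-26) + F^18 F' R_(n-27)`: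
* `n ≡ 2 (3)`: `mm n = mm (n-26) + 18`, `d(n) = d(n-26) + 34`, `span_Xk`.
* otherwise `mm (n-26) + 18 = mm n + 1`, `mm (n-27) + 18 = mm n`; `h = F u + F' v` (`span_F_H`), then `span_Xk` for `u`.

PROOFS.
* `Wm_eq`: unfold `Wm`, `DD.D0`, `mkD_apply`; `ring`.
* `wedge_lead`: from `d.wedge` (`d.aa0`, `d.cc0` unfold to the expressions there): `w = C (C u0 F^6) V^9 + V^10 (..)`.
* `brk_lead`: `V^(n+1) ∣ dx f` (coefficientwise, `coeff_dx`), `V^m ∣ dV g` (`coeff_dV`), `coeff_mul_of_dvd`: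
  `coeff (n+1+m) (dx f * dV g) = f̄' * (ḡ (m+1))`, same for the other product.
* `Wm_lead`: `Wm_eq`, `wedge_lead`, `brk_lead`, `coeff_mul_of_dvd` (`9 + (n+m+1) = n+m+10`).
* `w1_lead`, `w2_lead`, `w3_lead`: `Wm_lead` with `(n,m) = (8,8), (8,8), (8,9)`, the leading coefficients of `Par`, `derivative_mul`,
  `derivative_pow`, `derivative_X_pow`; `ring`-type computation
  (`(F^6 P)' (F^6 Q) - (F^6 P)(F^6 Q)' = F^12 (P' Q - P Q')`;  `10 (F^6)' F^7 - 9 F^6 (F^7)' = -3 F^12 F'`).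
* `span_F_H`: `a F + b H = 1`; `v = (g b) %ₘ F`, `q = (g b) /ₘ F`, `u = g a + H q`; `g = F u + H v`; `deg v < 27`;
  `F u = g - H v` has degree `≤ max D 80 = D`, `F` monic, so `deg u + 27 ≤ D` (if `u = 0` trivial).
* `R_splitMin_two`, `R_splitMin_else`: `InR_iff` at the levels `n, n-26, n-27` and the numerology lemmas.
* `R_splitMin`: divide `g1, g2, g3` by the constants (`C (9 u0)⁻¹` ..), `InR_C_mul`.
* `Fil54_le`: `fil_le_span_of_lead` with `κ = wlv` and `R_splitMin` (`Fin.sum_univ_three`).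
-/

set_option autoImplicit false

namespace Claimed.Agent.R246.F1

open Polynomial

/-- the minor `W(f,g) = D_1 f D_2 g - D_1 g D_2 f` in `PP` -/
noncomputable def Wm (d : DD) (f g : PP) : PP := d.D0 0 f * d.D0 1 g - d.D0 0 g * d.D0 1 f

/-- the minor in `A^` -/
noncomputable def WA (d : DD) (f g : Ahat d) : Ahat d :=
  Dhat d 0 f * Dhat d 1 g - Dhat d 0 g * Dhat d 1 f

theorem WA_coe (d : DD) (f g : Ahat d) : ((WA d f g : Ahat d) : PP) = Wm d f g := rfl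

/-- (E1) -/
theorem Wm_eq (d : DD) (f g : PP) :
    Wm d f g = (d.aa0 0 * d.cc0 1 - d.aa0 1 * d.cc0 0) * (dx f * dV g - dV f * dx g) := by
  unfold Wm DD.D0
  rw [mkD_apply, mkD_apply, mkD_apply, mkD_apply]
  ring

theorem wedge_lead (d : DD) : VV ^ 9 ∣ d.aa0 0 * d.cc0 1 - d.aa0 1 * d.cc0 0 ∧
    PowerSeries.coeff 9 (d.aa0 0 * d.cc0 1 - d.aa0 1 * d.cc0 0) = C d.u0 * d.F ^ 6 := by
  have hw : VV ^ 10 ∣ (d.aa0 0 * d.cc0 1 - d.aa0 1 * d.cc0 0)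
      - PowerSeries.C (C d.u0 * d.F ^ 6) * VV ^ 9 := d.wedge
  generalize d.aa0 0 * d.cc0 1 - d.aa0 1 * d.cc0 0 = w at hw ⊢
  constructor
  · obtain ⟨r, hr⟩ := hw
    refine ⟨PowerSeries.C (C d.u0 * d.F ^ 6) + VV * r, ?_⟩
    have : w = PowerSeries.C (C d.u0 * d.F ^ 6) * VV ^ 9 + VV ^ 10 * r := by rw [← hr]; ring
    rw [this]; ring
  · have h9 := PowerSeries.X_pow_dvd_iff.1 hw 9 (by norm_num)
    rw [map_sub, PowerSeries.coeff_C_mul_X_pow, if_pos rfl, sub_eq_zero] at h9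
    exact h9

theorem Min_dvd_dx {f : PP} {k : ℕ} (hf : VV ^ k ∣ f) : VV ^ k ∣ dx f := by
  rw [PowerSeries.X_pow_dvd_iff] at hf ⊢
  intro j hj
  rw [coeff_dx, hf j hj, map_zero]

theorem Min_dvd_dV {f : PP} {k : ℕ} (hf : VV ^ (k + 1) ∣ f) : VV ^ k ∣ dV f := by
  rw [PowerSeries.X_pow_dvd_iff] at hf ⊢
  intro j hj
  rw [coeff_dV, hf (j + 1) (by omega), zero_mul]

theorem brk_lead {f g : PP} {n m : ℕ} (hf : VV ^ (n + 1) ∣ f) (hg : VV ^ (m + 1) ∣ g) :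
    VV ^ (n + m + 1) ∣ dx f * dV g - dV f * dx g ∧
    PowerSeries.coeff (n + m + 1) (dx f * dV g - dV f * dx g) =
      ((m : ℂ[X]) + 1) * derivative (PowerSeries.coeff (n + 1) f) * PowerSeries.coeff (m + 1) g
      - ((n : ℂ[X]) + 1) * PowerSeries.coeff (n + 1) f * derivative (PowerSeries.coeff (m + 1) g) := by
  have h1 : VV ^ (n + 1) ∣ dx f := Min_dvd_dx hf
  have h2 : VV ^ m ∣ dV g := Min_dvd_dV hg
  have h3 : VV ^ n ∣ dV f := Min_dvd_dV hf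
  have h4 : VV ^ (m + 1) ∣ dx g := Min_dvd_dx hg
  have e1 : n + m + 1 = (n + 1) + m := by omega
  have e2 : n + m + 1 = n + (m + 1) := by omega
  constructor
  · apply dvd_sub
    · rw [e1, pow_add]; exact mul_dvd_mul h1 h2
    · rw [e2, pow_add]; exact mul_dvd_mul h3 h4
  · rw [map_sub]
    have c1 := coeff_mul_of_dvd h1 h2
    have c2 := coeff_mul_of_dvd h3 h4
    rw [← e1] at c1
    rw [← e2] at c2
    rw [c1, c2, coeff_dx, coeff_dx, coeff_dV, coeff_dV]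
    ring

/-- (E1), leading term -/
theorem Wm_lead (d : DD) {f g : PP} {n m : ℕ} (hf : VV ^ (n + 1) ∣ f) (hg : VV ^ (m + 1) ∣ g) :
    VV ^ (n + m + 10) ∣ Wm d f g ∧
    PowerSeries.coeff (n + m + 10) (Wm d f g) = C d.u0 * d.F ^ 6 *
      (((m : ℂ[X]) + 1) * derivative (PowerSeries.coeff (n + 1) f) * PowerSeries.coeff (m + 1) g
      - ((n : ℂ[X]) + 1) * PowerSeries.coeff (n + 1) f * derivative (PowerSeries.coeff (m + 1) g)) := by
  obtain ⟨hw1, hw2⟩ := wedge_lead d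
  obtain ⟨hb1, hb2⟩ := brk_lead hf hg
  have he : n + m + 10 = 9 + (n + m + 1) := by omega
  rw [Wm_eq, he]
  refine ⟨?_, ?_⟩
  · rw [pow_add]
    exact mul_dvd_mul hw1 hb1
  · rw [coeff_mul_of_dvd hw1 hb1, hw2, hb2]

theorem w1_lead {d : DD} (p : Par d) : WA d p.r1 p.t ∈ Fil d 26 ∧
    PowerSeries.coeff 26 ((WA d p.r1 p.t : Ahat d) : PP) = C (9 * d.u0) * d.F ^ 18 := by
  have h := Wm_lead d (f := (p.r1 : PP)) (g := (p.t : PP)) (n := 8) (m := 8)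
    (mem_Fil.1 p.r1_fil) (mem_Fil.1 p.t_fil)
  refine ⟨mem_Fil.2 (by rw [WA_coe]; exact h.1), ?_⟩
  rw [WA_coe]
  refine h.2.trans ?_
  rw [p.r1_lead, p.t_lead, derivative_mul, derivative_X]
  generalize derivative (d.F ^ 6) = G
  have hC : (C (9 * d.u0) : ℂ[X]) = 9 * C d.u0 := by
    rw [C_mul]; rfl
  rw [hC]
  push_cast
  ring

theorem w2_lead {d : DD} (p : Par d) : WA d p.s p.r17 ∈ Fil d 26 ∧
    PowerSeries.coeff 26 ((WA d p.s p.r17 : Ahat d) : PP) = C (9 * d.u0) * (d.F ^ 18 * X ^ 34) := by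
  have h := Wm_lead d (f := (p.s : PP)) (g := (p.r17 : PP)) (n := 8) (m := 8)
    (mem_Fil.1 p.s_fil) (mem_Fil.1 p.r17_fil)
  refine ⟨mem_Fil.2 (by rw [WA_coe]; exact h.1), ?_⟩
  rw [WA_coe]
  refine h.2.trans ?_
  rw [p.s_lead, p.r17_lead, derivative_mul, derivative_mul, derivative_X_pow, derivative_X_pow]
  generalize derivative (d.F ^ 6) = G
  have hC : (C (9 * d.u0) : ℂ[X]) = 9 * C d.u0 := by
    rw [C_mul]; rfl
  have h18 : (C ((18 : ℕ) : ℂ) : ℂ[X]) = 18 := (map_natCast (C : ℂ →+* ℂ[X]) 18).trans (by norm_num)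
  have h17 : (C ((17 : ℕ) : ℂ) : ℂ[X]) = 17 := (map_natCast (C : ℂ →+* ℂ[X]) 17).trans (by norm_num)
  rw [hC, h18, h17]
  push_cast
  ring

theorem w3_lead {d : DD} (p : Par d) : WA d p.t p.bb ∈ Fil d 27 ∧
    PowerSeries.coeff 27 ((WA d p.t p.bb : Ahat d) : PP) =
      C (-3 * d.u0) * (d.F ^ 18 * derivative d.F) := by
  have h := Wm_lead d (f := (p.t : PP)) (g := (p.bb : PP)) (n := 8) (m := 9)
    (mem_Fil.1 p.t_fil) (mem_Fil.1 p.bb_fil)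
  refine ⟨mem_Fil.2 (by rw [WA_coe]; exact h.1), ?_⟩
  rw [WA_coe]
  refine h.2.trans ?_
  rw [p.t_lead, p.bb_lead, derivative_pow, derivative_pow]
  generalize derivative d.F = G
  have hC : (C (-3 * d.u0) : ℂ[X]) = -3 * C d.u0 := by
    rw [C_mul, C_neg]; rfl
  have h6 : (C ((6 : ℕ) : ℂ) : ℂ[X]) = 6 := (map_natCast (C : ℂ →+* ℂ[X]) 6).trans (by norm_num)
  have h7 : (C ((7 : ℕ) : ℂ) : ℂ[X]) = 7 := (map_natCast (C : ℂ →+* ℂ[X]) 7).trans (by norm_num)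
  rw [hC, h6, h7]
  push_cast
  ring

/-- `ℂ[x]_{≤ D} = F ℂ[x]_{≤ D-27} + H ℂ[x]_{≤ D-54}` -/
theorem span_F_H {F H : ℂ[X]} (hF : F.Monic) (hdeg : F.natDegree = 27) (hco : IsCoprime F H)
    (hH : H.natDegree ≤ 54) {D : ℕ} (hD : 81 ≤ D) {g : ℂ[X]} (hg : g.natDegree ≤ D) :
    ∃ u v : ℂ[X], u.natDegree + 27 ≤ D ∧ v.natDegree + 54 ≤ D ∧ g = F * u + H * v := by
  obtain ⟨a, b, hab⟩ := hco
  have hF1 : F ≠ 1 := by
    intro h1
    rw [h1, natDegree_one] at hdeg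
    omega
  have hv : ((g * b) %ₘ F).natDegree < 27 := by
    have := natDegree_modByMonic_lt (g * b) hF hF1
    rwa [hdeg] at this
  have hdiv : (g * b) %ₘ F + F * ((g * b) /ₘ F) = g * b := modByMonic_add_div (g * b) F
  have hgeq : g = F * (g * a + H * ((g * b) /ₘ F)) + H * ((g * b) %ₘ F) := by
    linear_combination (-g) * hab - H * hdiv
  refine ⟨g * a + H * ((g * b) /ₘ F), (g * b) %ₘ F, ?_, by omega, hgeq⟩
  generalize g * a + H * ((g * b) /ₘ F) = u at hgeq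
  generalize (g * b) %ₘ F = v at hgeq hv
  by_cases hu : u = 0
  · subst hu
    rw [natDegree_zero]
    omega
  · have h1 : F * u = g - H * v := by rw [hgeq]; ring
    have h2 : (F * u).natDegree = 27 + u.natDegree := by
      rw [hF.natDegree_mul' hu, hdeg]
    have h3 : (g - H * v).natDegree ≤ D := by
      refine (natDegree_sub_le _ _).trans (max_le hg ?_)
      refine natDegree_mul_le.trans ?_
      omega
    rw [h1] at h2
    omega

theorem num_two {n : ℕ} (hn : 54 ≤ n) (h3 : n % 3 = 2) :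
    mm n = mm (n - 26) + 18 ∧ 27 * mm (n - 26) + 33 ≤ 20 * (n - 26) := by
  obtain ⟨j, rfl⟩ : ∃ j, n = 3 * j + 2 := ⟨n / 3, by omega⟩
  unfold mm; omega

theorem num_else {n : ℕ} (hn : 54 ≤ n) (h3 : n % 3 ≠ 2) :
    mm (n - 26) + 18 = mm n + 1 ∧ mm (n - 27) + 18 = mm n ∧ 27 * mm n + 94 ≤ 20 * n := by
  obtain ⟨j, hj⟩ : ∃ j, n = 3 * j ∨ n = 3 * j + 1 := ⟨n / 3, by omega⟩
  rcases hj with rfl | rfl <;> unfold mm <;> omega

/-- leading forms, case `n ≡ 2 (3)` -/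
theorem R_splitMin_two (d : DD) {n : ℕ} (hn : 54 ≤ n) (h3 : n % 3 = 2) {g : ℂ[X]} (hg : InR d.F n g) :
    ∃ g1 g2 : ℂ[X], InR d.F (n - 26) g1 ∧ InR d.F (n - 26) g2 ∧
      g = d.F ^ 18 * g1 + d.F ^ 18 * X ^ 34 * g2 := by
  obtain ⟨hm, hD⟩ := num_two hn h3
  obtain ⟨k, rfl⟩ : ∃ k, n = k + 26 := ⟨n - 26, by omega⟩
  rw [Nat.add_sub_cancel] at hm hD ⊢
  obtain ⟨h, rfl, hh⟩ := (InR_iff d (by omega)).1 hg
  rw [hm] at hh ⊢
  obtain ⟨g1, g2, hg1, hg2, rfl⟩ := span_Xk (k := 34) (D := 20 * k - 27 * mm k) (by omega)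
    (g := h) (by omega)
  refine ⟨d.F ^ mm k * g2, d.F ^ mm k * g1, (InR_iff d (by omega)).2 ⟨g2, rfl, by omega⟩,
    (InR_iff d (by omega)).2 ⟨g1, rfl, by omega⟩, ?_⟩
  rw [pow_add]
  ring

/-- leading forms, other cases -/
theorem R_splitMin_else (d : DD) {n : ℕ} (hn : 54 ≤ n) (h3 : n % 3 ≠ 2) {g : ℂ[X]} (hg : InR d.F n g) :
    ∃ g1 g2 g3 : ℂ[X], InR d.F (n - 26) g1 ∧ InR d.F (n - 26) g2 ∧ InR d.F (n - 27) g3 ∧
      g = d.F ^ 18 * g1 + d.F ^ 18 * X ^ 34 * g2 + d.F ^ 18 * derivative d.F * g3 := by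
  obtain ⟨hm1, hm2, hD⟩ := num_else hn h3
  obtain ⟨h, rfl, hh⟩ := (InR_iff d (by omega)).1 hg
  have hH : (derivative d.F).natDegree ≤ 54 := by
    have := natDegree_derivative_le d.F
    rw [d.F_deg] at this
    omega
  obtain ⟨u, v, hu, hv, rfl⟩ := span_F_H d.F_monic d.F_deg d.F_sqf hH
    (D := 20 * n - 27 * mm n) (by omega) (g := h) (by omega)
  obtain ⟨g1, g2, hg1, hg2, rfl⟩ := span_Xk (k := 34)
    (D := 20 * (n - 26) - 27 * mm (n - 26)) (by omega) (g := u) (by omega)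
  refine ⟨d.F ^ mm (n - 26) * g2, d.F ^ mm (n - 26) * g1, d.F ^ mm (n - 27) * v,
    (InR_iff d (by omega)).2 ⟨g2, rfl, by omega⟩,
    (InR_iff d (by omega)).2 ⟨g1, rfl, by omega⟩,
    (InR_iff d (by omega)).2 ⟨v, rfl, by omega⟩, ?_⟩
  have e1 : d.F ^ mm n * d.F = d.F ^ 18 * d.F ^ mm (n - 26) := by
    rw [← pow_succ, ← pow_add, ← hm1, Nat.add_comm]
  have e2 : d.F ^ mm n = d.F ^ 18 * d.F ^ mm (n - 27) := by
    rw [← pow_add, ← hm2, Nat.add_comm]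
  linear_combination (X ^ 34 * g1 + g2) * e1 + (derivative d.F * v) * e2

theorem InR_zero (F : ℂ[X]) (n : ℕ) : InR F n 0 := ⟨dvd_zero _, by simp⟩

theorem InR_C_mul {F : ℂ[X]} {n : ℕ} {g : ℂ[X]} (c : ℂ) (hg : InR F n g) : InR F n (C c * g) :=
  ⟨Dvd.dvd.mul_left hg.1 _, (natDegree_C_mul_le c g).trans hg.2⟩

theorem R_splitMin (d : DD) {n : ℕ} (hn : 54 ≤ n) {g : ℂ[X]} (hg : InR d.F n g) :
    ∃ g1 g2 g3 : ℂ[X], InR d.F (n - 26) g1 ∧ InR d.F (n - 26) g2 ∧ InR d.F (n - 27) g3 ∧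
      g = C (9 * d.u0) * d.F ^ 18 * g1 + C (9 * d.u0) * (d.F ^ 18 * X ^ 34) * g2 +
        C (-3 * d.u0) * (d.F ^ 18 * derivative d.F) * g3 := by
  have hu : d.u0 ≠ 0 := d.u0_ne
  have h9 : (C (9 * d.u0) : ℂ[X]) * C (9 * d.u0)⁻¹ = 1 := by
    rw [← C_mul, mul_inv_cancel₀ (mul_ne_zero (by norm_num) hu), C_1]
  have h3' : (C (-3 * d.u0) : ℂ[X]) * C (-3 * d.u0)⁻¹ = 1 := by
    rw [← C_mul, mul_inv_cancel₀ (mul_ne_zero (by norm_num) hu), C_1]
  by_cases h3 : n % 3 = 2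
  · obtain ⟨g1, g2, h1, h2, hg'⟩ := R_splitMin_two d hn h3 hg
    refine ⟨C (9 * d.u0)⁻¹ * g1, C (9 * d.u0)⁻¹ * g2, 0, InR_C_mul _ h1, InR_C_mul _ h2,
      InR_zero _ _, ?_⟩
    rw [hg']
    linear_combination (-(d.F ^ 18 * g1) - d.F ^ 18 * X ^ 34 * g2) * h9
  · obtain ⟨g1, g2, g3, h1, h2, h3'', hg'⟩ := R_splitMin_else d hn h3 hg
    refine ⟨C (9 * d.u0)⁻¹ * g1, C (9 * d.u0)⁻¹ * g2, C (-3 * d.u0)⁻¹ * g3, InR_C_mul _ h1,
      InR_C_mul _ h2, InR_C_mul _ h3'', ?_⟩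
    rw [hg']
    linear_combination (-(d.F ^ 18 * g1) - d.F ^ 18 * X ^ 34 * g2) * h9
      - (d.F ^ 18 * derivative d.F * g3) * h3'

/-- the three generators -/
noncomputable def wv {d : DD} (p : Par d) : Fin 3 → Ahat d :=
  ![WA d p.r1 p.t, WA d p.s p.r17, WA d p.t p.bb]

/-- their levels -/
def wlv : Fin 3 → ℕ := ![26, 26, 27]

/-- `Fil_54` lies in the ideal generated by three minors -/
theorem Fil54_le {d : DD} (p : Par d) : Fil d 54 ≤ Ideal.span (Set.range (wv p)) := by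
  refine fil_le_span_of_lead d (wv p) wlv ?_ 54 ?_ ?_
  · intro j
    fin_cases j
    · exact (w1_lead p).1
    · exact (w2_lead p).1
    · exact (w3_lead p).1
  · intro j
    fin_cases j <;> simp [wlv]
  · intro n hn g hg
    obtain ⟨g1, g2, g3, h1, h2, h3, hg'⟩ := R_splitMin d hn hg
    refine ⟨![g1, g2, g3], ?_, ?_⟩
    · intro j
      fin_cases j
      · exact h1
      · exact h2
      · exact h3
    · rw [Fin.sum_univ_three, hg']
      have e1 := (w1_lead p).2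
      have e2 := (w2_lead p).2
      have e3 := (w3_lead p).2
      simp only [wv, wlv, Matrix.cons_val_zero, Matrix.cons_val_one, Matrix.cons_val_two,
        Matrix.head_cons, Matrix.tail_cons]
      rw [e1, e2, e3]

/-- the ideal of all minors -/
theorem span_wv_le {d : DD} (p : Par d) : Ideal.span (Set.range (wv p)) ≤
    Ideal.span {x : Ahat d | ∃ g h : Ahat d, x = Dhat d 0 g * Dhat d 1 h - Dhat d 0 h * Dhat d 1 g} := by
  rw [Ideal.span_le]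
  rintro _ ⟨j, rfl⟩
  refine Ideal.subset_span ?_
  fin_cases j
  · exact ⟨p.r1, p.t, rfl⟩
  · exact ⟨p.s, p.r17, rfl⟩
  · exact ⟨p.t, p.bb, rfl⟩

end Claimed.Agent.R246.F1

/-! ### hygiene (rule 6, on-demand lemmas): the equation lemmas of the definitions of this file are realised HERE.
Keep this block at the end of the file. -/
theorem Claimed.Agent.R246.F1.Hyg.Min : True := by
  have := @Claimed.Agent.R246.F1.Wm.eq_1
  have := @Claimed.Agent.R246.F1.Wm.eq_def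
  have := @Claimed.Agent.R246.F1.WA.eq_1
  have := @Claimed.Agent.R246.F1.WA.eq_def
  have := @Claimed.Agent.R246.F1.wv.eq_1
  have := @Claimed.Agent.R246.F1.wv.eq_def
  have := @Claimed.Agent.R246.F1.wlv.eq_1
  have := @Claimed.Agent.R246.F1.wlv.eq_def
  trivial
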