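import Claimed.Agent.R246.F1.Approx
import Claimed.Agent.R246.F1.Ev

/-!
# Row 246, module F1, file Par: the parameters `s, t` and auxiliary lifts; `Fil_27 ⊆ (s,t)` (R246_F1.md, section 4, C1).

Numerology: `d(n) = 20 n - 27 mm n`; `d(3j)=6j`, `d(3j+1)=6j-7`, `d(3j+2)=6j-14`.

PROOFS.
* `natDegree_F_pow`: `Polynomial.Monic.natDegree_pow`, `d.F_deg`.
* `InR_iff`: (→) `g = F^m h`; if `h = 0` use `hn`; else `natDegree g = 27 m + natDegree h` (`Monic.natDegree_mul'`).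
  (←) `natDegree_mul_le`.
* `exists_par`: five applications of `lift_exists` (`InR_nine`, `InR_ten`).
* `span_Xk`: `g1 = g /ₘ X^k`, `g2 = g %ₘ X^k` (`X^k` monic; `natDegree_modByMonic_lt` for `k ≥ 1`, `natDegree_divByMonic`);
  or `Polynomial.divX` iterated; or 627's `Claimed.Agent.R246.poly_span_of_coprime` with `H₁ = X^k`, `H₂ = 1`.
* `R_split9`: `g = F^(mm n) h`, `mm n = mm (n-9) + 6`, `deg h ≤ D + 18` with `D = 20(n-9) - 27 mm (n-9) ≥ 17`;
  `h = X^18 h1 + h2` (`span_Xk`), `g1 = F^(mm (n-9)) h1`, `g2 = F^(mm (n-9)) h2`.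
* `Fil27_le`: `fil_le_span_of_lead` with `κ = fun _ => 9`, `hlead` from `R_split9` (`Fin.sum_univ_two`, `p.s_lead`, `p.t_lead`).
* `pow_nine`: `ev_eq_zero_iff`, `fil1_le_fil3`, `Fil_mul` (`a^9 ∈ Fil 27`), `Fil27_le`.
-/

set_option autoImplicit false

namespace Claimed.Agent.R246.F1

open Polynomial

theorem mm_add_nine (n : ℕ) : mm (n + 9) = mm n + 6 := by
  unfold mm; omega

theorem natDegree_F_pow (d : DD) (k : ℕ) : (d.F ^ k).natDegree = 27 * k := by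
  rw [d.F_monic.natDegree_pow, d.F_deg, Nat.mul_comm]

theorem F_ne_zero (d : DD) : d.F ≠ 0 := d.F_monic.ne_zero

/-- `R_n = F^(mm n) ℂ[x]_{≤ d(n)}` if `d(n) ≥ 0` -/
theorem InR_iff (d : DD) {n : ℕ} (hn : 27 * mm n ≤ 20 * n) {g : ℂ[X]} :
    InR d.F n g ↔ ∃ h : ℂ[X], g = d.F ^ mm n * h ∧ h.natDegree + 27 * mm n ≤ 20 * n := by
  constructor
  · rintro ⟨⟨h, rfl⟩, hdeg⟩
    refine ⟨h, rfl, ?_⟩
    by_cases h0 : h = 0
    · subst h0; simpa using hn
    · rw [(d.F_monic.pow (mm n)).natDegree_mul' h0, natDegree_F_pow] at hdeg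
      omega
  · rintro ⟨h, rfl, hdeg⟩
    refine ⟨Dvd.intro _ rfl, ?_⟩
    refine (natDegree_mul_le).trans ?_
    rw [natDegree_F_pow]
    omega

/-- chosen lifts: `s, t, r1, r17` of `F^6 x^18, F^6, F^6 x, F^6 x^17` (level 9), `bb` of `F^7` (level 10) -/
structure Par (d : DD) where
  s : Ahat d
  t : Ahat d
  r1 : Ahat d
  r17 : Ahat d
  bb : Ahat d
  s_fil : s ∈ Fil d 9
  t_fil : t ∈ Fil d 9
  r1_fil : r1 ∈ Fil d 9
  r17_fil : r17 ∈ Fil d 9
  bb_fil : bb ∈ Fil d 10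
  s_lead : PowerSeries.coeff 9 (s : PP) = d.F ^ 6 * X ^ 18
  t_lead : PowerSeries.coeff 9 (t : PP) = d.F ^ 6
  r1_lead : PowerSeries.coeff 9 (r1 : PP) = d.F ^ 6 * X
  r17_lead : PowerSeries.coeff 9 (r17 : PP) = d.F ^ 6 * X ^ 17
  bb_lead : PowerSeries.coeff 10 (bb : PP) = d.F ^ 7

/-- `F^6 x^k ∈ R_9` for `k ≤ 18` -/
theorem InR_nine (d : DD) {k : ℕ} (hk : k ≤ 18) : InR d.F 9 (d.F ^ 6 * X ^ k) := by
  have h9 : mm 9 = 6 := by unfold mm; norm_num
  refine ⟨by rw [h9]; exact Dvd.intro _ rfl, ?_⟩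
  refine (natDegree_mul_le).trans ?_
  rw [natDegree_F_pow, natDegree_X_pow]
  omega

theorem InR_ten (d : DD) : InR d.F 10 (d.F ^ 7) := by
  have h10 : mm 10 = 7 := by unfold mm; norm_num
  refine ⟨by rw [h10], ?_⟩
  rw [natDegree_F_pow]
  norm_num

theorem exists_par (d : DD) : Nonempty (Par d) := by
  obtain ⟨s, hs1, hs2⟩ := lift_exists d (n := 9) (by norm_num) (InR_nine d (k := 18) (le_refl _))
  obtain ⟨t, ht1, ht2⟩ := lift_exists d (n := 9) (by norm_num) (InR_nine d (k := 0) (by norm_num))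
  obtain ⟨r1, hr1, hr2⟩ := lift_exists d (n := 9) (by norm_num) (InR_nine d (k := 1) (by norm_num))
  obtain ⟨r17, hq1, hq2⟩ := lift_exists d (n := 9) (by norm_num) (InR_nine d (k := 17) (by norm_num))
  obtain ⟨bb, hb1, hb2⟩ := lift_exists d (n := 10) (by norm_num) (InR_ten d)
  exact ⟨{ s := s, t := t, r1 := r1, r17 := r17, bb := bb,
           s_fil := hs1, t_fil := ht1, r1_fil := hr1, r17_fil := hq1, bb_fil := hb1,
           s_lead := hs2, t_lead := by rw [ht2, pow_zero, mul_one],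
           r1_lead := by rw [hr2, pow_one], r17_lead := hq2, bb_lead := hb2 }⟩

/-- `ℂ[x]_{≤ D+k} = x^k ℂ[x]_{≤ D} + ℂ[x]_{≤ D}` for `k ≤ D+1` -/
theorem span_Xk {k D : ℕ} (h : k ≤ D + 1) {g : ℂ[X]} (hg : g.natDegree ≤ D + k) :
    ∃ g1 g2 : ℂ[X], g1.natDegree ≤ D ∧ g2.natDegree ≤ D ∧ g = X ^ k * g1 + g2 := by
  have hm : (X ^ k : ℂ[X]).Monic := monic_X_pow k
  refine ⟨g /ₘ X ^ k, g %ₘ X ^ k, ?_, ?_, ?_⟩
  · rw [natDegree_divByMonic g hm, natDegree_X_pow]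
    omega
  · rcases Nat.eq_zero_or_pos k with rfl | hk
    · rw [pow_zero, modByMonic_one, natDegree_zero]
      exact Nat.zero_le _
    · have h1 : (g %ₘ X ^ k).natDegree < (X ^ k : ℂ[X]).natDegree := by
        apply natDegree_modByMonic_lt g hm
        intro h1
        have h2 := congrArg natDegree h1
        rw [natDegree_X_pow, natDegree_one] at h2
        omega
      rw [natDegree_X_pow] at h1
      omega
  · have := modByMonic_add_div g (X ^ k)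
    rw [add_comm] at this
    exact this.symm

/-- `d(n) ≥ 17` for `n ≥ 18` -/
theorem dN_ge_17 {n : ℕ} (hn : 18 ≤ n) : 27 * mm n + 17 ≤ 20 * n := by
  unfold mm; omega

/-- (C1) on leading forms -/
theorem R_split9 (d : DD) {n : ℕ} (hn : 27 ≤ n) {g : ℂ[X]} (hg : InR d.F n g) :
    ∃ g1 g2 : ℂ[X], InR d.F (n - 9) g1 ∧ InR d.F (n - 9) g2 ∧
      g = d.F ^ 6 * X ^ 18 * g1 + d.F ^ 6 * g2 := by
  obtain ⟨k, rfl⟩ : ∃ k, n = k + 9 := ⟨n - 9, by omega⟩
  have hk : 18 ≤ k := by omega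
  rw [Nat.add_sub_cancel]
  have h1 := dN_ge_17 (n := k + 9) (by omega)
  have h2 := dN_ge_17 hk
  obtain ⟨h, rfl, hh⟩ := (InR_iff d (by omega)).1 hg
  rw [mm_add_nine] at hh h1 ⊢
  obtain ⟨g1, g2, hg1, hg2, rfl⟩ := span_Xk (k := 18) (D := 20 * k - 27 * mm k) (by omega)
    (g := h) (by omega)
  refine ⟨d.F ^ mm k * g1, d.F ^ mm k * g2, (InR_iff d (by omega)).2 ⟨g1, rfl, by omega⟩,
    (InR_iff d (by omega)).2 ⟨g2, rfl, by omega⟩, ?_⟩
  rw [pow_add]
  ring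

/-- the pair `(s,t)` -/
def stA {d : DD} (p : Par d) : Fin 2 → Ahat d := ![p.s, p.t]

theorem stA_fil {d : DD} (p : Par d) (j : Fin 2) : stA p j ∈ Fil d 9 := by
  fin_cases j
  · exact p.s_fil
  · exact p.t_fil

/-- (C1) `Fil_27 ⊆ (s,t) A^` -/
theorem Fil27_le {d : DD} (p : Par d) : Fil d 27 ≤ Ideal.span (Set.range (stA p)) := by
  refine fil_le_span_of_lead d (stA p) (fun _ => 9) (stA_fil p) 27 (fun _ => by norm_num) ?_
  intro n hn g hg
  obtain ⟨g1, g2, h1, h2, h3⟩ := R_split9 d hn hg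
  refine ⟨![g1, g2], ?_, ?_⟩
  · intro j
    fin_cases j
    · exact h1
    · exact h2
  · rw [Fin.sum_univ_two]
    show g = PowerSeries.coeff 9 ((p.s : Ahat d) : PP) * g1
      + PowerSeries.coeff 9 ((p.t : Ahat d) : PP) * g2
    rw [p.s_lead, p.t_lead]
    exact h3

/-- (FC5) with `M_0 = 9` -/
theorem pow_nine {d : DD} (p : Par d) {a : Ahat d} (hev : ev d a = 0) :
    a ^ 9 ∈ Ideal.span (Set.range (stA p)) := by
  have h1 : a ∈ Fil d 3 := fil1_le_fil3 d ((ev_eq_zero_iff d).1 hev)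
  apply Fil27_le p
  rw [mem_Fil] at h1 ⊢
  have h2 : (VV ^ 3) ^ 9 ∣ (a : PP) ^ 9 := pow_dvd_pow_of_dvd h1 9
  rw [← pow_mul] at h2
  simpa using h2

/-- elements of `(s,t)` -/
theorem mem_span_stA {d : DD} (p : Par d) {a : Ahat d} :
    a ∈ Ideal.span (Set.range (stA p)) ↔ ∃ a1 a2 : Ahat d, a = p.s * a1 + p.t * a2 := by
  have hr : Set.range (stA p) = {p.s, p.t} := by
    unfold stA
    simp [Matrix.range_cons, Set.pair_comm]
  rw [hr, Ideal.mem_span_pair]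
  constructor
  · rintro ⟨a1, a2, h⟩
    exact ⟨a1, a2, by rw [← h]; ring⟩
  · rintro ⟨a1, a2, h⟩
    exact ⟨a1, a2, by rw [h]; ring⟩

end Claimed.Agent.R246.F1

/-! ### hygiene (rule 6, on-demand lemmas): the equation lemmas of the definitions of this file are realised HERE.
Keep this block at the end of the file. -/
theorem Claimed.Agent.R246.F1.Hyg.Par : True := by
  have := @Claimed.Agent.R246.F1.stA.eq_1
  have := @Claimed.Agent.R246.F1.stA.eq_def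
  trivial
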