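import Claimed.Agent.R246.F1.Data

/-!
# Row 246, F1: consequences of (p2) for the gluing map `φ`  (blueprint `R246_F1.md`, (p2),(p3), A2)

PROOFS.
* `phi_dvd`: `φ a = a + (φ a - a)`, both divisible by `V^n` (`d.φ_close n a h`, `pow_succ`).
* `phi_coeff_of_dvd`: `V^(n+1) ∣ φ a - a` so the `n`-th coefficient of the difference vanishes
  (`PowerSeries.X_pow_dvd_iff`).
* `phi_coeff_congr`: apply `phi_dvd` to `a - a'` with `n = m+1`, `map_sub`.
* `dvd_of_phi_dvd`: induction on `n`: if `V^n ∣ a` and `V^(n+1) ∣ φ a` then `coeff n a = coeff n (φ a) = 0`.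
* `Ahat_closed`: for the `n`-th coefficient take `b` with `V^(n+1) ∣ a - b`: `coeff n a = coeff n b`,
  `coeff n (φ a) = coeff n (φ b)`.
* `coeff_mem_InR`: `a ∈ O_0` gives the divisibility, `coeff n a = coeff n (φ a)` and `φ a ∈ O_∞` the degree.
-/

set_option autoImplicit false

namespace Claimed.Agent.R246.F1

open Polynomial

variable (d : DD)

theorem phi_dvd {n : ℕ} {a : PP} (h : VV ^ n ∣ a) : VV ^ n ∣ d.φ a := by
  have h1 : VV ^ n ∣ d.φ a - a := (pow_dvd_pow VV (Nat.le_succ n)).trans (d.φ_close n a h)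
  have h2 := dvd_add h1 h
  rwa [sub_add_cancel] at h2

theorem phi_coeff_of_dvd {n : ℕ} {a : PP} (h : VV ^ n ∣ a) :
    PowerSeries.coeff n (d.φ a) = PowerSeries.coeff n a := by
  have h1 := (PowerSeries.X_pow_dvd_iff.1 (d.φ_close n a h)) n (Nat.lt_succ_self n)
  rw [map_sub, sub_eq_zero] at h1
  exact h1

theorem phi_coeff_congr {m : ℕ} {a a' : PP} (h : VV ^ (m + 1) ∣ a - a') :
    PowerSeries.coeff m (d.φ a) = PowerSeries.coeff m (d.φ a') := by
  have h1 := phi_dvd d h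
  rw [map_sub] at h1
  have h2 := (PowerSeries.X_pow_dvd_iff.1 h1) m (Nat.lt_succ_self m)
  rw [map_sub, sub_eq_zero] at h2
  exact h2

theorem dvd_of_phi_dvd {n : ℕ} {a : PP} (h : VV ^ n ∣ d.φ a) : VV ^ n ∣ a := by
  induction n with
  | zero => simp
  | succ k ih =>
    have hk : VV ^ k ∣ a := ih ((pow_dvd_pow VV (Nat.le_succ k)).trans h)
    have h0 : PowerSeries.coeff k a = 0 := by
      rw [← phi_coeff_of_dvd d hk]
      exact (PowerSeries.X_pow_dvd_iff.1 h) k (Nat.lt_succ_self k)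
    rw [PowerSeries.X_pow_dvd_iff]
    intro m hm
    rcases Nat.lt_succ_iff_lt_or_eq.1 hm with hlt | rfl
    · exact (PowerSeries.X_pow_dvd_iff.1 hk) m hlt
    · exact h0

/-- `Â` is `V`-adically closed in `PP`. -/
theorem Ahat_closed {a : PP} (h : ∀ N : ℕ, ∃ b ∈ Ahat d, VV ^ N ∣ a - b) : a ∈ Ahat d := by
  rw [mem_Ahat, mem_O0, mem_Ooo]
  refine ⟨fun n => ?_, fun n => ?_⟩
  · obtain ⟨b, hb, hdvd⟩ := h (n + 1)
    have h0 : PowerSeries.coeff n (a - b) = 0 :=
      PowerSeries.X_pow_dvd_iff.mp hdvd n (Nat.lt_succ_self n)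
    have h1 : PowerSeries.coeff n a = PowerSeries.coeff n b := by
      rw [map_sub] at h0; exact sub_eq_zero.mp h0
    rw [h1]
    exact (mem_O0.mp (mem_Ahat.mp hb).1) n
  · obtain ⟨b, hb, hdvd⟩ := h (n + 1)
    rw [phi_coeff_congr d hdvd]
    exact (mem_Ooo.mp (mem_Ahat.mp hb).2) n

/-- A2: the leading coefficient of an element of `Fil_n` lies in `R_n`. -/
theorem coeff_mem_InR {n : ℕ} {a : Ahat d} (h : a ∈ Fil d n) :
    InR d.F n (PowerSeries.coeff n (a : PP)) := by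
  rw [mem_Fil] at h
  have ha := mem_Ahat.mp a.2
  refine ⟨mem_O0.mp ha.1 n, ?_⟩
  rw [← phi_coeff_of_dvd d h]
  exact mem_Ooo.mp ha.2 n

theorem Fil_anti {m n : ℕ} (h : m ≤ n) : Fil d n ≤ Fil d m := by
  intro a ha
  rw [mem_Fil] at ha ⊢
  exact (pow_dvd_pow _ h).trans ha

theorem Fil_mul {m n : ℕ} {a b : Ahat d} (ha : a ∈ Fil d m) (hb : b ∈ Fil d n) :
    a * b ∈ Fil d (m + n) := by
  rw [mem_Fil] at ha hb ⊢
  rw [pow_add]
  exact mul_dvd_mul ha hb

/-- separatedness -/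
theorem Fil_inf {a : Ahat d} (h : ∀ N, a ∈ Fil d N) : a = 0 := by
  apply Subtype.ext
  rw [ZeroMemClass.coe_zero]
  ext1 n
  have h1 := mem_Fil.mp (h (n + 1))
  rw [map_zero]
  exact PowerSeries.X_pow_dvd_iff.mp h1 n (Nat.lt_succ_self n)

/-- next step of the filtration -/
theorem mem_Fil_succ {n : ℕ} {a : Ahat d} (h : a ∈ Fil d n)
    (h0 : PowerSeries.coeff n (a : PP) = 0) : a ∈ Fil d (n + 1) := by
  rw [mem_Fil] at h ⊢
  rw [PowerSeries.X_pow_dvd_iff] at h ⊢
  intro m hm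
  rcases Nat.lt_succ_iff_lt_or_eq.mp hm with hm' | rfl
  · exact h m hm'
  · exact h0

/-- leading coefficient of a product -/
theorem coeff_mul_of_dvd {m n : ℕ} {a b : PP} (ha : VV ^ m ∣ a) (hb : VV ^ n ∣ b) :
    PowerSeries.coeff (m + n) (a * b) = PowerSeries.coeff m a * PowerSeries.coeff n b := by
  rw [PowerSeries.X_pow_dvd_iff] at ha hb
  rw [PowerSeries.coeff_mul]
  rw [Finset.sum_eq_single (m, n)]
  · intro p hp hne
    have hp' : p.1 + p.2 = m + n := Finset.HasAntidiagonal.mem_antidiagonal.mp hp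
    by_cases h1 : p.1 < m
    · rw [ha p.1 h1, zero_mul]
    · by_cases h2 : p.2 < n
      · rw [hb p.2 h2, mul_zero]
      · exfalso
        apply hne
        ext <;> simp <;> omega
  · intro hp
    exact absurd (Finset.HasAntidiagonal.mem_antidiagonal.mpr (rfl : (m, n).1 + (m, n).2 = m + n)) hp

end Claimed.Agent.R246.F1
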