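import Claimed.Agent.R246.F1.Data

/-!
# Row 246, F1, (DD1): construction of the gluing map `φ` from `φ x = X'`, `φ V = V'`

`φ(∑ a_n V^n) = ∑ a_n(X') V'^n`, for `X' ≡ x mod V`, `V' ≡ V mod V^2`.  Coefficientwise definition `phiFun`.

PROOFS.  Put `T n a := aeval X' (coeff n a) * V'^n`.  As `V ∣ V'`, `V^n ∣ T n a`, so `coeff m (T n a) = 0` for `n > m`
(`phiFun_term_dvd`).  Hence for EVERY `M ≥ m+1`: `coeff m (phiFun a) = ∑ n ∈ range M, coeff m (T n a)` (`coeff_phiFun_of_le`).
* `phiFun_add`, `phiFun_smul`: termwise.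
* `phiFun_mul`: `coeff m (φ a * φ b) = ∑_{p+q=m} (∑_{i<m+1} coeff p (T i a)) (∑_{j<m+1} coeff q (T j b))
   = ∑_{i,j<m+1} coeff m (T i a * T j b)`, and `T i a * T j b = aeval X' (a_i b_j) V'^(i+j)` has `coeff m = 0` if `i+j > m`;
  on the other side `coeff n (a b) = ∑_{i+j=n} a_i b_j`.  Reindex (`Finset.sum_sigma'`, `Finset.Nat.sum_antidiagonal...`).
  Alternative: prove `V^(m+1) ∣ phiFun a - ∑ n ∈ range (m+1), T n a` (`phiFun_approx`), use truncations
  `a = trunc + V^(m+1) r` and the polynomial case.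
* `phiFun_C`: only `n = 0` contributes.  `phiFun_VV`: only `n = 1`.
* `phiFun_close`: if `V^n ∣ a` then `a_k = 0` for `k < n`; `coeff m` of both sides vanish for `m < n`; for `m = n` only
  the term `k = n`: `coeff n (aeval X' a_n * V'^n) = constantCoeff (aeval X' a_n) * 1 = a_n`
  (`aeval_congr_C`: `V ∣ aeval X' p - C p`, by `Polynomial.induction_on` or `sub_dvd_eval_sub`-type lemma
  `Polynomial.aeval` at `X'` and at `xx`, and `aeval xx p = C p`).
-/

set_option autoImplicit false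

namespace Claimed.Agent.R246.F1

open Polynomial

/-- `φ(∑ a_n V^n) = ∑ a_n(X') V'^n`, coefficientwise -/
noncomputable def phiFun (X' V' : PP) (a : PP) : PP :=
  PowerSeries.mk fun m => ∑ n ∈ Finset.range (m + 1),
    PowerSeries.coeff m (Polynomial.aeval X' (PowerSeries.coeff n a) * V' ^ n)

variable {X' V' : PP}

theorem phiFun_term_dvd (hV : VV ∣ V') (p : ℂ[X]) (n : ℕ) :
    VV ^ n ∣ Polynomial.aeval X' p * V' ^ n :=
  Dvd.dvd.mul_left (pow_dvd_pow_of_dvd hV n) _

theorem coeff_phiFun_of_le (hV : VV ∣ V') (a : PP) {m M : ℕ} (h : m + 1 ≤ M) :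
    PowerSeries.coeff m (phiFun X' V' a) = ∑ n ∈ Finset.range M,
      PowerSeries.coeff m (Polynomial.aeval X' (PowerSeries.coeff n a) * V' ^ n) := by
  rw [phiFun, PowerSeries.coeff_mk]
  refine Finset.sum_subset (Finset.range_subset_range.mpr h) fun n _ hn => ?_
  have hn' : m < n := by
    rw [Finset.mem_range] at hn
    omega
  exact PowerSeries.X_pow_dvd_iff.mp (phiFun_term_dvd hV (PowerSeries.coeff n a) n) m hn'

theorem phiFun_approx (hV : VV ∣ V') (a : PP) (M : ℕ) :
    VV ^ M ∣ phiFun X' V' a - ∑ n ∈ Finset.range M,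
      Polynomial.aeval X' (PowerSeries.coeff n a) * V' ^ n := by
  refine PowerSeries.X_pow_dvd_iff.mpr fun m hm => ?_
  rw [map_sub, coeff_phiFun_of_le hV a (Nat.succ_le_of_lt hm), map_sum, sub_self]

theorem phiFun_add (a b : PP) : phiFun X' V' (a + b) = phiFun X' V' a + phiFun X' V' b := by
  ext1 m
  rw [map_add]
  simp only [phiFun, PowerSeries.coeff_mk, map_add, add_mul, Finset.sum_add_distrib]

theorem phiFun_mul_sum (a : PP) (M : ℕ) :
    ∑ n ∈ Finset.range M, Polynomial.aeval X' (PowerSeries.coeff n a) * V' ^ n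
      = (PowerSeries.trunc M a).eval₂
          ((Polynomial.aeval X' : ℂ[X] →ₐ[ℂ] PP) : ℂ[X] →+* PP) V' := by
  have h : PowerSeries.trunc M a
      = ∑ n ∈ Finset.range M, Polynomial.monomial n (PowerSeries.coeff n a) := by
    ext1 k
    rw [PowerSeries.coeff_trunc, Polynomial.finsetSum_coeff]
    simp only [Polynomial.coeff_monomial]
    rw [Finset.sum_ite_eq']
    simp only [Finset.mem_range]
  rw [h, Polynomial.eval₂_finsetSum]
  refine Finset.sum_congr rfl fun n _ => ?_
  rw [Polynomial.eval₂_monomial]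
  rfl

theorem phiFun_mul_trunc (hV : VV ∣ V') (a b : PP) (M : ℕ) :
    VV ^ M ∣ (PowerSeries.trunc M a * PowerSeries.trunc M b).eval₂
          ((Polynomial.aeval X' : ℂ[X] →ₐ[ℂ] PP) : ℂ[X] →+* PP) V'
        - (PowerSeries.trunc M (a * b)).eval₂
          ((Polynomial.aeval X' : ℂ[X] →ₐ[ℂ] PP) : ℂ[X] →+* PP) V' := by
  have h1 : (Polynomial.X : Polynomial ℂ[X]) ^ M ∣
      PowerSeries.trunc M a * PowerSeries.trunc M b - PowerSeries.trunc M (a * b) := by
    rw [Polynomial.X_pow_dvd_iff]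
    intro k hk
    rw [← PowerSeries.trunc_trunc_mul_trunc, Polynomial.coeff_sub, PowerSeries.coeff_trunc,
      if_pos hk, ← Polynomial.coe_mul, Polynomial.coeff_coe, sub_self]
  obtain ⟨Q, hQ⟩ := h1
  rw [← Polynomial.eval₂_sub, hQ, Polynomial.eval₂_mul, Polynomial.eval₂_pow, Polynomial.eval₂_X]
  exact Dvd.dvd.mul_right (pow_dvd_pow_of_dvd hV M) _

theorem phiFun_mul (hV : VV ∣ V') (a b : PP) :
    phiFun X' V' (a * b) = phiFun X' V' a * phiFun X' V' b := by
  apply PowerSeries.ext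
  intro m
  have h1 := phiFun_approx (X' := X') hV (a * b) (m + 1)
  have h2 := phiFun_approx (X' := X') hV a (m + 1)
  have h3 := phiFun_approx (X' := X') hV b (m + 1)
  have h4 := phiFun_mul_trunc (X' := X') hV a b (m + 1)
  rw [phiFun_mul_sum] at h1 h2 h3
  rw [Polynomial.eval₂_mul] at h4
  have key : VV ^ (m + 1) ∣ phiFun X' V' (a * b) - phiFun X' V' a * phiFun X' V' b := by
    have e := dvd_sub (dvd_sub (dvd_sub h1 (Dvd.dvd.mul_right h2 (phiFun X' V' b)))
      (Dvd.dvd.mul_left h3 ((PowerSeries.trunc (m + 1) a).eval₂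
          ((Polynomial.aeval X' : ℂ[X] →ₐ[ℂ] PP) : ℂ[X] →+* PP) V'))) h4
    convert e using 1
    ring
  have h5 := (PowerSeries.X_pow_dvd_iff.1 key) m (Nat.lt_succ_self m)
  rw [map_sub, sub_eq_zero] at h5
  exact h5

theorem phiFun_C (p : ℂ[X]) : phiFun X' V' (PowerSeries.C p) = Polynomial.aeval X' p := by
  ext1 m
  rw [phiFun, PowerSeries.coeff_mk, Finset.sum_eq_single 0]
  · simp
  · intro n _ hn
    rw [PowerSeries.coeff_C, if_neg hn]
    simp
  · intro h
    exact absurd (Finset.mem_range.mpr (Nat.succ_pos m)) h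

theorem phiFun_VV (hV : VV ∣ V') : phiFun X' V' VV = V' := by
  ext1 m
  rw [coeff_phiFun_of_le hV VV (M := m + 2) (by omega), Finset.sum_eq_single 1]
  · simp
  · intro n _ hn
    rw [PowerSeries.coeff_X, if_neg hn]
    simp
  · intro h
    exact absurd (Finset.mem_range.mpr (by omega)) h

theorem aeval_congr_C (hX : VV ∣ X' - xx) (p : ℂ[X]) :
    VV ∣ Polynomial.aeval X' p - PowerSeries.C p := by
  induction p using Polynomial.induction_on with
  | C c =>
    have h : Polynomial.aeval X' (C c) - PowerSeries.C (C c : ℂ[X]) = 0 := by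
      rw [Polynomial.aeval_C, PowerSeries.algebraMap_apply, sub_eq_zero]
      rfl
    rw [h]
    exact dvd_zero _
  | add p q hp hq =>
    have h : Polynomial.aeval X' (p + q) - PowerSeries.C (p + q)
        = (Polynomial.aeval X' p - PowerSeries.C p) + (Polynomial.aeval X' q - PowerSeries.C q) := by
      rw [map_add, map_add]; ring
    rw [h]
    exact dvd_add hp hq
  | monomial n c ih =>
    have h : Polynomial.aeval X' (C c * X ^ (n + 1)) - PowerSeries.C (C c * X ^ (n + 1) : ℂ[X])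
        = (Polynomial.aeval X' (C c * X ^ n) - PowerSeries.C (C c * X ^ n : ℂ[X])) * X'
          + PowerSeries.C (C c * X ^ n : ℂ[X]) * (X' - xx) := by
      have e1 : (C c * X ^ (n + 1) : ℂ[X]) = (C c * X ^ n) * X := by ring
      rw [e1, map_mul (Polynomial.aeval X'), Polynomial.aeval_X, map_mul PowerSeries.C]
      ring
    rw [h]
    exact dvd_add (Dvd.dvd.mul_right ih _) (Dvd.dvd.mul_left hX _)

theorem phiFun_close_pow (hV : VV ^ 2 ∣ V' - VV) (n : ℕ) : VV ^ (n + 1) ∣ V' ^ n - VV ^ n := by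
  obtain ⟨r, hr⟩ := hV
  have h1 : V' = VV * (1 + VV * r) := by
    have : V' = VV + VV ^ 2 * r := by rw [← hr]; ring
    rw [this]; ring
  have h2 : (1 + VV * r) - 1 ∣ (1 + VV * r) ^ n - 1 ^ n := sub_dvd_pow_sub_pow _ _ n
  have h3 : VV ∣ (1 + VV * r) ^ n - 1 := by
    have h4 : VV ∣ (1 + VV * r) - 1 := ⟨r, by ring⟩
    have := h4.trans h2
    rwa [one_pow] at this
  have h5 : V' ^ n - VV ^ n = VV ^ n * ((1 + VV * r) ^ n - 1) := by
    rw [h1, mul_pow]; ring
  rw [h5, pow_succ]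
  exact mul_dvd_mul_left _ h3

theorem phiFun_close_term (hX : VV ∣ X' - xx) (hV : VV ^ 2 ∣ V' - VV) (n : ℕ) (p : ℂ[X]) :
    VV ^ (n + 1) ∣ Polynomial.aeval X' p * V' ^ n - PowerSeries.C p * VV ^ n := by
  have hV1 : VV ∣ V' := by
    have h1 : VV ∣ V' - VV := (dvd_pow_self VV two_ne_zero).trans hV
    simpa using dvd_add h1 (dvd_refl VV)
  have h : Polynomial.aeval X' p * V' ^ n - PowerSeries.C p * VV ^ n
      = V' ^ n * (Polynomial.aeval X' p - PowerSeries.C p)
        + PowerSeries.C p * (V' ^ n - VV ^ n) := by ring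
  rw [h]
  refine dvd_add ?_ (Dvd.dvd.mul_left (phiFun_close_pow hV n) _)
  rw [pow_succ]
  exact mul_dvd_mul (pow_dvd_pow_of_dvd hV1 n) (aeval_congr_C hX p)

theorem phiFun_close (hX : VV ∣ X' - xx) (hV : VV ^ 2 ∣ V' - VV) (n : ℕ) (a : PP)
    (ha : VV ^ n ∣ a) : VV ^ (n + 1) ∣ phiFun X' V' a - a := by
  have ha' : ∀ k < n, PowerSeries.coeff k a = 0 := PowerSeries.X_pow_dvd_iff.1 ha
  rw [PowerSeries.X_pow_dvd_iff]
  intro m hm
  rw [map_sub, phiFun, PowerSeries.coeff_mk]
  have hterm : ∀ k ∈ Finset.range (m + 1), k ≠ n →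
      PowerSeries.coeff m (Polynomial.aeval X' (PowerSeries.coeff k a) * V' ^ k) = 0 := by
    intro k hk hkn
    have hk' : k < n := by
      have := Finset.mem_range.1 hk
      omega
    rw [ha' k hk']
    simp
  by_cases hmn : m < n
  · rw [Finset.sum_eq_zero (fun k hk => hterm k hk (by have := Finset.mem_range.1 hk; omega)),
      ha' m hmn, sub_zero]
  · have hmn' : m = n := by omega
    subst hmn'
    rw [Finset.sum_eq_single m (fun k hk hkn => hterm k hk hkn)
      (fun h => absurd (Finset.mem_range.2 (Nat.lt_succ_self m)) h)]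
    have hB := PowerSeries.X_pow_dvd_iff.1 (phiFun_close_term hX hV m (PowerSeries.coeff m a)) m
      (Nat.lt_succ_self m)
    rw [map_sub, PowerSeries.coeff_C_mul_X_pow, if_pos rfl] at hB
    exact hB

theorem VV_dvd_of_sq (hV : VV ^ 2 ∣ V' - VV) : VV ∣ V' := by
  have h1 : VV ∣ V' - VV := (dvd_pow_self VV two_ne_zero).trans hV
  simpa using dvd_add h1 (dvd_refl VV)

/-- the gluing map with `φ x = X'`, `φ V = V'` -/
noncomputable def phiOf (X' V' : PP) (hV : VV ^ 2 ∣ V' - VV) : PP →ₐ[ℂ] PP :=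
  { toFun := phiFun X' V'
    map_one' := by
      have := phiFun_C (X' := X') (V' := V') 1
      simpa using this
    map_mul' := phiFun_mul (VV_dvd_of_sq hV)
    map_zero' := by
      have := phiFun_C (X' := X') (V' := V') 0
      simpa using this
    map_add' := phiFun_add
    commutes' := fun c => by
      have := phiFun_C (X' := X') (V' := V') (C c)
      simpa [PowerSeries.algebraMap_apply] using this }

theorem phiOf_apply (hV : VV ^ 2 ∣ V' - VV) (a : PP) : phiOf X' V' hV a = phiFun X' V' a := rfl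

theorem phiOf_C (hV : VV ^ 2 ∣ V' - VV) (p : ℂ[X]) :
    phiOf X' V' hV (PowerSeries.C p) = Polynomial.aeval X' p := phiFun_C p

theorem phiOf_xx (hV : VV ^ 2 ∣ V' - VV) : phiOf X' V' hV xx = X' := by
  rw [phiOf_C]; simp

theorem phiOf_VV (hV : VV ^ 2 ∣ V' - VV) : phiOf X' V' hV VV = V' :=
  phiFun_VV (VV_dvd_of_sq hV)

end Claimed.Agent.R246.F1
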