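import Claimed.Agent.R246.F1.Iota

/-!
# Row 246, module F1, file Reg: `(s,t)` is a regular sequence on `A^` (R246_F1.md, A3, C4).

PROOFS.
* `O0_closed`: for the `n`-th coefficient take `b` with `V^(n+1) ∣ a - b`, then `coeff n a = coeff n b`.
* `O0_div_gam3` (A3): `c = mk fun n => q (n+9)` where `coeff (n+9) a = F^(mm (n+9)) q' = F^6 (F^(mm n) q')` (`mm_add_nine`);
  compare coefficients (`PowerSeries.coeff_C_mul`, `PowerSeries.coeff_X_pow_mul'`; coefficients `< 9` of `a` vanish).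
* `O0_unit`: `w = 1 - u`, `V ∣ w`, `V^k ∣ w^k`, `v = Σ w^k` (`exists_sum`), `v ∈ O0` by `O0_closed`;
  `u * Σ_{k<N} w^k = 1 - w^N` (`mul_neg_geom_sum` / `geom_sum_mul`), so `V^N ∣ u v - 1` for all `N`.
* `Ooo_div`: by contradiction let `n` be minimal (`Nat.find`) with `natDegree (coeff n c) > 20 n`.
  `coeff (n+9) (σ c) = Σ_{(j,k)} σ_j c_k`; `j < 9`: `σ_j = 0`; `j = 9`: degree exactly `180 + deg c_n > 20 (n+9)`
  (`natDegree_mul`, both factors nonzero); `j > 9`: `k < n`, degree `≤ 20 j + 20 k = 20 (n+9)`.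
  So the sum has degree `> 20 (n+9)` (`natDegree_add_eq_left_of_natDegree_lt` after `Finset.add_sum_erase`).
* `reg_order`: suppose not; let `μ < 9` be minimal with `coeff μ c' ≠ 0`; then `V^μ ∣ c'`, `V^μ ∣ a`,
  `coeff μ a = X^18 * coeff μ c'` (`coeff_mul_of_dvd` with `m = 0`) lies in `R_μ` (`coeff_mem_InR`): degree `≤ 20 μ`.
  `coeff μ c' = F^(mm μ) h`, `h ≠ 0`: degree `≥ 18 + 27 mm μ`.  Contradiction with `dN_lt_18`.
* `reg` (C4): `s = γ s_1`, `t = γ t_1`, `γ = C (F^6) V^9` (`O0_div_gam3`); `coeff 0 s_1 = X^18`, `coeff 0 t_1 = 1` (cancel `F^6`);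
  `t_1 v = 1` (`O0_unit`); `γ t_1 a = γ s_1 b` gives `a = s_1 c'`, `c' = v b ∈ O0`; `reg_order`: `c' = γ c`, `c ∈ O0`; `a = s c`;
  `φ a = φ s * φ c` and `Ooo_div` (`phi_s_deg`, `phi_dvd`) give `φ c ∈ Ooo`.
-/

set_option autoImplicit false

namespace Claimed.Agent.R246.F1

open Polynomial

theorem O0_closed {F : ℂ[X]} {a : PP} (h : ∀ m : ℕ, ∃ b ∈ O0 F, VV ^ m ∣ a - b) : a ∈ O0 F := by
  rw [mem_O0]
  intro n
  obtain ⟨b, hb, hd⟩ := h (n + 1)
  have h1 := (PowerSeries.X_pow_dvd_iff.1 hd) n (Nat.lt_succ_self n)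
  rw [map_sub, sub_eq_zero] at h1
  rw [h1]
  exact (mem_O0.1 hb) n

/-- (A3) `{a ∈ O_0 : V^9 ∣ a} = F^6 V^9 O_0` -/
theorem O0_div_gam3 {F : ℂ[X]} {a : PP} (ha : a ∈ O0 F) (h : VV ^ 9 ∣ a) :
    ∃ c ∈ O0 F, a = PowerSeries.C (F ^ 6) * VV ^ 9 * c := by
  have hq : ∀ n : ℕ, ∃ q : ℂ[X], PowerSeries.coeff (n + 9) a = F ^ 6 * (F ^ mm n * q) := by
    intro n
    obtain ⟨q, hq⟩ := (mem_O0.1 ha) (n + 9)
    refine ⟨q, ?_⟩
    rw [hq, mm_add_nine, pow_add]
    ring
  choose q hq using hq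
  refine ⟨PowerSeries.mk fun n => F ^ mm n * q n, ?_, ?_⟩
  · rw [mem_O0]
    intro n
    rw [PowerSeries.coeff_mk]
    exact Dvd.intro _ rfl
  · apply PowerSeries.ext
    intro n
    rw [mul_assoc, PowerSeries.coeff_C_mul, PowerSeries.coeff_X_pow_mul']
    by_cases hn : 9 ≤ n
    · rw [if_pos hn, PowerSeries.coeff_mk]
      obtain ⟨k, rfl⟩ := Nat.exists_eq_add_of_le' hn
      rw [Nat.add_sub_cancel]
      exact hq k
    · rw [if_neg hn, mul_zero]
      exact (PowerSeries.X_pow_dvd_iff.1 h) n (not_le.1 hn)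

/-- an element of `O_0` with constant coefficient `1` is a unit of `O_0` -/
theorem O0_unit {F : ℂ[X]} {u : PP} (hu : u ∈ O0 F) (h1 : PowerSeries.coeff 0 u = 1) :
    ∃ v ∈ O0 F, u * v = 1 := by
  have hc : PowerSeries.constantCoeff u = ((1 : (ℂ[X])ˣ) : ℂ[X]) := by
    rw [← PowerSeries.coeff_zero_eq_constantCoeff_apply, h1]; rfl
  have huv : u * PowerSeries.invOfUnit u 1 = 1 := PowerSeries.mul_invOfUnit u 1 hc
  refine ⟨PowerSeries.invOfUnit u 1, ?_, huv⟩
  generalize PowerSeries.invOfUnit u 1 = v at huv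
  rw [mem_O0] at hu ⊢
  intro n
  induction n using Nat.strong_induction_on with
  | _ n ih =>
    rcases Nat.eq_zero_or_pos n with rfl | hn
    · simp [mm]
    · have h := congrArg (PowerSeries.coeff n) huv
      rw [PowerSeries.coeff_mul, PowerSeries.coeff_one, if_neg hn.ne'] at h
      have hmem : ((0, n) : ℕ × ℕ) ∈ Finset.HasAntidiagonal.antidiagonal n := by simp
      rw [← Finset.add_sum_erase _ _ hmem] at h
      simp only [h1, one_mul] at h
      rw [eq_neg_of_add_eq_zero_left h, dvd_neg]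
      refine Finset.dvd_sum fun p hp => ?_
      have hp1 := Finset.ne_of_mem_erase hp
      have hp2 : p.1 + p.2 = n :=
        Finset.HasAntidiagonal.mem_antidiagonal.mp (Finset.mem_of_mem_erase hp)
      have hlt : p.2 < n := by
        rcases Nat.eq_zero_or_pos p.1 with h0 | h0
        · exfalso; apply hp1; ext <;> simp <;> omega
        · omega
      refine dvd_trans (pow_dvd_pow F ?_) (pow_add F _ _ ▸ mul_dvd_mul (hu p.1) (ih p.2 hlt))
      rw [← hp2]; exact mm_add_le _ _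

/-- division in `O_oo` by an element whose leading coefficient has full degree -/
theorem Ooo_div {σ c : PP} (hσ : σ ∈ Ooo) (h9 : VV ^ 9 ∣ σ)
    (hdeg : (PowerSeries.coeff 9 σ).natDegree = 180) (hprod : σ * c ∈ Ooo) : c ∈ Ooo := by
  rw [mem_Ooo] at hσ hprod ⊢
  intro n
  induction n using Nat.strong_induction_on with
  | _ n ih =>
    by_cases hc0 : PowerSeries.coeff n c = 0
    · rw [hc0]; simp
    have hσ9 : PowerSeries.coeff 9 σ ≠ 0 := by
      intro h0
      rw [h0] at hdeg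
      simp at hdeg
    have h := hprod (n + 9)
    rw [PowerSeries.coeff_mul] at h
    have hmem : ((9, n) : ℕ × ℕ) ∈ Finset.HasAntidiagonal.antidiagonal (n + 9) := by
      simp [add_comm]
    rw [← Finset.add_sum_erase _ _ hmem] at h
    have hrest : (∑ p ∈ (Finset.HasAntidiagonal.antidiagonal (n + 9)).erase (9, n),
        PowerSeries.coeff p.1 σ * PowerSeries.coeff p.2 c).natDegree ≤ 20 * (n + 9) := by
      refine natDegree_sum_le_of_forall_le _ _ fun p hp => ?_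
      have hp1 := Finset.ne_of_mem_erase hp
      have hp2 : p.1 + p.2 = n + 9 :=
        Finset.HasAntidiagonal.mem_antidiagonal.mp (Finset.mem_of_mem_erase hp)
      by_cases hlt : p.1 < 9
      · rw [(PowerSeries.X_pow_dvd_iff.1 h9) p.1 hlt, zero_mul]; simp
      · have hk : p.2 < n := by
          by_contra hge
          apply hp1
          ext <;> simp <;> omega
        refine le_trans natDegree_mul_le ?_
        have h1 := hσ p.1
        have h2 := ih p.2 hk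
        omega
    have hmain : (PowerSeries.coeff 9 σ * PowerSeries.coeff n c).natDegree ≤ 20 * (n + 9) := by
      have heq : PowerSeries.coeff 9 σ * PowerSeries.coeff n c =
          (PowerSeries.coeff 9 σ * PowerSeries.coeff n c +
            ∑ p ∈ (Finset.HasAntidiagonal.antidiagonal (n + 9)).erase (9, n),
              PowerSeries.coeff p.1 σ * PowerSeries.coeff p.2 c) -
          ∑ p ∈ (Finset.HasAntidiagonal.antidiagonal (n + 9)).erase (9, n),
              PowerSeries.coeff p.1 σ * PowerSeries.coeff p.2 c := by ring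
      rw [heq]
      exact le_trans (natDegree_sub_le _ _) (max_le h hrest)
    rw [natDegree_mul hσ9 hc0, hdeg] at hmain
    omega

/-- `d(n) < 18` for `n ≤ 8` -/
theorem dN_lt_18 {n : ℕ} (hn : n ≤ 8) : 20 * n < 27 * mm n + 18 := by
  unfold mm; omega

/-- if `a ∈ A^`, `a = s_1 c'` with `c' ∈ O_0`, `s_1 = x^18 + O(V)`, then `V^9 ∣ c'` -/
theorem reg_order (d : DD) {a s1 c' : PP} (ha : a ∈ Ahat d) (hc : c' ∈ O0 d.F)
    (hs1 : PowerSeries.coeff 0 s1 = X ^ 18) (h : a = s1 * c') : VV ^ 9 ∣ c' := by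
  classical
  by_contra hcon
  have hex : ∃ m, m < 9 ∧ PowerSeries.coeff m c' ≠ 0 := by
    by_contra hne
    apply hcon
    rw [PowerSeries.X_pow_dvd_iff]
    intro m hm
    by_contra h0
    exact hne ⟨m, hm, h0⟩
  obtain ⟨hμ9, hμ0⟩ := Nat.find_spec hex
  set μ := Nat.find hex with hμ
  have hdvd : VV ^ μ ∣ c' := by
    rw [PowerSeries.X_pow_dvd_iff]
    intro m hm
    by_contra h0
    exact Nat.find_min hex hm ⟨by omega, h0⟩
  have hdvda : VV ^ μ ∣ a := by rw [h]; exact Dvd.dvd.mul_left hdvd s1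
  have hco : PowerSeries.coeff μ a = X ^ 18 * PowerSeries.coeff μ c' := by
    have := coeff_mul_of_dvd (m := 0) (n := μ) (a := s1) (b := c') (by simp) hdvd
    rw [zero_add, hs1] at this
    rw [h, this]
  have hR := coeff_mem_InR d (n := μ) (a := ⟨a, ha⟩) (mem_Fil.2 hdvda)
  have hdeg : (PowerSeries.coeff μ a).natDegree ≤ 20 * μ := hR.2
  obtain ⟨q, hq⟩ := mem_O0.1 hc μ
  have hq0 : q ≠ 0 := by
    rintro rfl
    rw [mul_zero] at hq
    exact hμ0 hq
  have hF : d.F ^ mm μ ≠ 0 := pow_ne_zero _ (F_ne_zero d)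
  rw [hco, hq, natDegree_mul (pow_ne_zero _ X_ne_zero) (mul_ne_zero hF hq0), natDegree_mul hF hq0,
    natDegree_F_pow, natDegree_X_pow] at hdeg
  have := dN_lt_18 (n := μ) (by omega)
  omega

theorem phi_s_deg {d : DD} (p : Par d) : (PowerSeries.coeff 9 (d.φ (p.s : PP))).natDegree = 180 := by
  rw [phi_coeff_of_dvd d (mem_Fil.1 p.s_fil), p.s_lead,
    natDegree_mul (pow_ne_zero _ (F_ne_zero d)) (pow_ne_zero _ X_ne_zero), natDegree_F_pow,
    natDegree_X_pow]

theorem Reg_gam_ne_zero (d : DD) : PowerSeries.C (d.F ^ 6) * VV ^ 9 ≠ (0 : PP) := by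
  refine mul_ne_zero ?_ (pow_ne_zero _ PowerSeries.X_ne_zero)
  intro h0
  have h1 : PowerSeries.C (d.F ^ 6) = (PowerSeries.C (0 : ℂ[X]) : PP) := by rw [h0, map_zero]
  exact pow_ne_zero 6 (F_ne_zero d) (PowerSeries.C_injective h1)

theorem Reg_coeff_nine_gam (d : DD) (c : PP) :
    PowerSeries.coeff 9 (PowerSeries.C (d.F ^ 6) * VV ^ 9 * c) = d.F ^ 6 * PowerSeries.coeff 0 c := by
  rw [mul_assoc, PowerSeries.coeff_C_mul]
  have h := PowerSeries.coeff_X_pow_mul c 9 0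
  rw [zero_add] at h
  rw [h]

/-- (C4): `t a = s b` with `a, b ∈ A^` implies `a ∈ s A^` -/
theorem reg {d : DD} (p : Par d) (a b : Ahat d) (h : p.t * a = p.s * b) : ∃ c : Ahat d, a = p.s * c := by
  have hF6 : d.F ^ 6 ≠ 0 := pow_ne_zero 6 (F_ne_zero d)
  obtain ⟨s1, hs1O, hs1⟩ := O0_div_gam3 (mem_Ahat.mp p.s.2).1 (mem_Fil.mp p.s_fil)
  obtain ⟨t1, ht1O, ht1⟩ := O0_div_gam3 (mem_Ahat.mp p.t.2).1 (mem_Fil.mp p.t_fil)
  have hs1c : PowerSeries.coeff 0 s1 = X ^ 18 := by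
    have h1 := p.s_lead
    rw [hs1, Reg_coeff_nine_gam] at h1
    exact mul_left_cancel₀ hF6 h1
  have ht1c : PowerSeries.coeff 0 t1 = 1 := by
    have h1 := p.t_lead
    rw [ht1, Reg_coeff_nine_gam] at h1
    exact mul_left_cancel₀ hF6 (h1.trans (mul_one _).symm)
  obtain ⟨v, hvO, hv⟩ := O0_unit ht1O ht1c
  have hPP : (p.t : PP) * (a : PP) = (p.s : PP) * (b : PP) := by
    have := congrArg (fun z : Ahat d => (z : PP)) h
    simpa using this
  have h2 : t1 * (a : PP) = s1 * (b : PP) := by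
    apply mul_left_cancel₀ (Reg_gam_ne_zero d)
    rw [← mul_assoc, ← ht1, ← mul_assoc, ← hs1]
    exact hPP
  have h3 : (a : PP) = s1 * (v * (b : PP)) := by
    calc (a : PP) = (t1 * v) * (a : PP) := by rw [hv, one_mul]
      _ = v * (t1 * (a : PP)) := by ring
      _ = v * (s1 * (b : PP)) := by rw [h2]
      _ = s1 * (v * (b : PP)) := by ring
  have hc'O : v * (b : PP) ∈ O0 d.F := (O0 d.F).mul_mem hvO (mem_Ahat.mp b.2).1
  have h9 : VV ^ 9 ∣ v * (b : PP) := reg_order d a.2 hc'O hs1c h3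
  obtain ⟨c, hcO, hc⟩ := O0_div_gam3 hc'O h9
  have h4 : (a : PP) = (p.s : PP) * c := by
    rw [h3, hc, hs1]; ring
  have hφ : d.φ c ∈ Ooo := by
    refine Ooo_div (mem_Ahat.mp p.s.2).2 (phi_dvd d (mem_Fil.mp p.s_fil)) (phi_s_deg p) ?_
    rw [← map_mul, ← h4]
    exact (mem_Ahat.mp a.2).2
  refine ⟨⟨c, mem_Ahat.mpr ⟨hcO, hφ⟩⟩, ?_⟩
  apply Subtype.ext
  simpa using h4

theorem s_ne_zero {d : DD} (p : Par d) : p.s ≠ 0 := by
  intro h
  have h1 := p.s_lead
  rw [h] at h1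
  simp only [ZeroMemClass.coe_zero, map_zero] at h1
  exact mul_ne_zero (pow_ne_zero _ (F_ne_zero d)) (pow_ne_zero _ X_ne_zero) h1.symm

end Claimed.Agent.R246.F1
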