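import Claimed.Agent.R246.F1.Phi

/-!
# Row 246, F1: `V`-adically convergent sums in `PP` and in `Â`

PROOFS.
* `exists_sum`: `S := PowerSeries.mk fun m => coeff m (∑ k ∈ range (m+1), u k)`.  For `m < N`:
  `coeff m (∑ k<N) = coeff m (∑ k<m+1)` because `V^k ∣ u k` kills `coeff m (u k)` for `k > m`
  (`PowerSeries.X_pow_dvd_iff`, `Finset.sum_subset` or `Finset.sum_range_add_sum...`).
* `exists_sum_Ahat`: `exists_sum` for the coercions, membership by `Ahat_closed` (`b = ∑ k<N u k`).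
-/

set_option autoImplicit false

namespace Claimed.Agent.R246.F1

open Polynomial

theorem exists_sum (u : ℕ → PP) (hu : ∀ k, VV ^ k ∣ u k) :
    ∃ S : PP, ∀ N, VV ^ N ∣ S - ∑ k ∈ Finset.range N, u k := by
  refine ⟨PowerSeries.mk fun m => PowerSeries.coeff m (∑ k ∈ Finset.range (m + 1), u k), fun N => ?_⟩
  rw [PowerSeries.X_pow_dvd_iff]
  intro m hm
  rw [map_sub, PowerSeries.coeff_mk, sub_eq_zero, map_sum, map_sum]
  refine Finset.sum_subset (fun k hk => ?_) (fun k _ hk => ?_)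
  · rw [Finset.mem_range] at hk ⊢
    omega
  · rw [Finset.mem_range, not_lt] at hk
    exact (PowerSeries.X_pow_dvd_iff.1 (hu k)) m (by omega)

theorem exists_sum_Ahat (d : DD) (u : ℕ → Ahat d) (hu : ∀ k, u k ∈ Fil d k) :
    ∃ S : Ahat d, ∀ N, S - ∑ k ∈ Finset.range N, u k ∈ Fil d N := by
  obtain ⟨S, hS⟩ := exists_sum (fun k => (u k : PP)) (fun k => mem_Fil.mp (hu k))
  have hcoe : ∀ N, ((∑ k ∈ Finset.range N, u k : Ahat d) : PP) = ∑ k ∈ Finset.range N, (u k : PP) :=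
    fun N => by push_cast; rfl
  have hmem : S ∈ Ahat d :=
    Ahat_closed d fun N => ⟨_, (∑ k ∈ Finset.range N, u k : Ahat d).2, by rw [hcoe]; exact hS N⟩
  refine ⟨⟨S, hmem⟩, fun N => ?_⟩
  rw [mem_Fil]
  have : ((⟨S, hmem⟩ - ∑ k ∈ Finset.range N, u k : Ahat d) : PP)
      = S - ∑ k ∈ Finset.range N, (u k : PP) := by
    rw [← hcoe]; rfl
  rw [this]
  exact hS N

end Claimed.Agent.R246.F1
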