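import Claimed.Agent.R246.F1.TailDefs

/-!
# Row 246, F1, section 6: the tail lemma (G2): a solution of (DD2),(DD3) modulo `V^17` extends to all orders

PROOFS.
* `tail_step`.  `p := - coeff N (Ex ..)`, `q := - coeff (N+1) (EV ..)`; `β γ α γ'` from `g1_split`; add the monomials
  `C β V^N`, `C γ V^N`, `C α V^N`, `C γ' V^N`.  `TaffP`, `RooP` are preserved: only the `N`-th coefficients change, by elements
  satisfying the same (additive) conditions (`dvd_add`, `natDegree_add_le`, `coeff_add`; `PowerSeries.coeff_C_mul_X_pow`).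
  `Ex_add` + `Ex_lead` for the monomials: the new `Ex` is divisible by `V^N` and its `N`-th coefficient is
  `coeff N Ex + (F β - α) = 0`; so `V^(N+1)` divides it (`PowerSeries.X_pow_dvd_iff`).  Same for `EV` with `EV_add`, `EV_lead`.
* `exists_tail`.  Iterate `tail_step` (`Nat.rec` on a subtype, or `exists_seq`-style dependent choice): quadruples `Q_k`, `k ≥ 0`, good at
  level `17 + k`, `Q_(k+1) - Q_k ∈ V^(17+k)`.  Limits by `exists_sum` applied to the increments (shifted: `u 0 = Q_0`, `u (k+1) = Q_(k+1) - Q_k`,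
  `V^k ∣ u k` is enough).  The limit `Q` satisfies `V^(17+k) ∣ Q - Q_k` for all `k` (componentwise).  `TaffP`, `RooP` are coefficientwise conditions:
  `coeff ν Q = coeff ν Q_k` for `k ≥ ν`.  `Ex Q = Ex Q_k + Ex (Q - Q_k)` (`Ex_add`), both divisible by `V^(17+k)` (`Ex_lead`): so `Ex Q = 0`
  (divisible by all powers of `V`; `PowerSeries.ext` + `X_pow_dvd_iff`).  Same for `EV`.
-/

set_option autoImplicit false

namespace Claimed.Agent.R246.F1

open Polynomial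

theorem tail_step_dvd_succ {n : ℕ} {a : PP} (h : VV ^ n ∣ a) (h0 : PowerSeries.coeff n a = 0) :
    VV ^ (n + 1) ∣ a := by
  rw [PowerSeries.X_pow_dvd_iff] at h ⊢
  intro j hj
  rcases Nat.lt_or_ge j n with h1 | h1
  · exact h j h1
  · have : j = n := by omega
    rw [this]; exact h0

theorem tail_step {φ : PP →ₐ[ℂ] PP} (hφ : Close φ) (F : ℂ[X]) (hF : F.Monic)
    (hdeg : F.natDegree = 27) {N : ℕ} (hN : 17 ≤ N) (B Cc A' C' : PP)
    (hT : TaffP F B Cc) (hR : RooP A' C')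
    (hx : VV ^ N ∣ Ex φ F B A' C') (hV : VV ^ (N + 1) ∣ EV φ Cc A' C') :
    ∃ B1 Cc1 A1 C1 : PP, TaffP F B1 Cc1 ∧ RooP A1 C1 ∧
      VV ^ (N + 1) ∣ Ex φ F B1 A1 C1 ∧ VV ^ (N + 2) ∣ EV φ Cc1 A1 C1 ∧
      VV ^ N ∣ B1 - B ∧ VV ^ N ∣ Cc1 - Cc ∧ VV ^ N ∣ A1 - A' ∧ VV ^ N ∣ C1 - C' := by
  obtain ⟨β, γ, α, γ', h1, h2, h3, h4, h5, h6, h7⟩ := g1_split F hF hdeg hN
    (- PowerSeries.coeff N (Ex φ F B A' C')) (- PowerSeries.coeff (N + 1) (EV φ Cc A' C'))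
  have hd : ∀ c : ℂ[X], VV ^ N ∣ PowerSeries.C c * VV ^ N := fun c => dvd_mul_left _ _
  have hc : ∀ c : ℂ[X], PowerSeries.coeff N (PowerSeries.C c * VV ^ N) = c := fun c => by
    rw [PowerSeries.coeff_C_mul_X_pow, if_pos rfl]
  refine ⟨B + PowerSeries.C β * VV ^ N, Cc + PowerSeries.C γ * VV ^ N,
    A' + PowerSeries.C α * VV ^ N, C' + PowerSeries.C γ' * VV ^ N, ?_, ?_, ?_, ?_, ?_, ?_, ?_, ?_⟩
  · intro ν
    rw [map_add, map_add, PowerSeries.coeff_C_mul_X_pow, PowerSeries.coeff_C_mul_X_pow]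
    by_cases e : ν = N
    · subst e
      rw [if_pos rfl, if_pos rfl]
      refine ⟨dvd_add (hT ν).1 h1, ?_⟩
      have := dvd_add (hT ν).2 h2
      convert this using 1
      ring
    · rw [if_neg e, if_neg e, add_zero, add_zero]
      exact hT ν
  · intro ν
    rw [map_add, map_add, PowerSeries.coeff_C_mul_X_pow, PowerSeries.coeff_C_mul_X_pow]
    by_cases e : ν = N
    · subst e
      rw [if_pos rfl, if_pos rfl]
      refine ⟨(natDegree_add_le _ _).trans (max_le (hR ν).1 h3),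
        (natDegree_add_le _ _).trans (max_le (hR ν).2.1 h4), ?_⟩
      rw [coeff_add, coeff_add]
      linear_combination (hR ν).2.2 + h5
    · rw [if_neg e, if_neg e, add_zero, add_zero]
      exact hR ν
  · rw [Ex_add]
    obtain ⟨l1, l2⟩ := Ex_lead hφ F (hd β) (hd α) (hd γ')
    refine tail_step_dvd_succ (dvd_add hx l1) ?_
    rw [map_add, l2, hc, hc, h6]
    ring
  · rw [EV_add]
    obtain ⟨l1, l2⟩ := EV_lead hφ (hd γ) (hd α) (hd γ')
    refine tail_step_dvd_succ (dvd_add hV l1) ?_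
    rw [map_add, l2, hc, hc, h7]
    ring
  · rw [add_sub_cancel_left]; exact hd _
  · rw [add_sub_cancel_left]; exact hd _
  · rw [add_sub_cancel_left]; exact hd _
  · rw [add_sub_cancel_left]; exact hd _

theorem exists_tail_limit (q : ℕ → PP) (h : ∀ k, VV ^ (17 + k) ∣ q (k + 1) - q k) :
    ∃ L : PP, ∀ k, VV ^ (17 + k) ∣ L - q k := by
  have h1 : ∀ k l, VV ^ (17 + k) ∣ q (k + l) - q k := by
    intro k l
    induction l with
    | zero => simp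
    | succ l ih =>
      have : q (k + (l + 1)) - q k = (q (k + l) - q k) + (q (k + l + 1) - q (k + l)) := by
        rw [← Nat.add_assoc]; ring
      rw [this]
      exact dvd_add ih ((pow_dvd_pow _ (by omega)).trans (h (k + l)))
  refine ⟨PowerSeries.mk fun j => PowerSeries.coeff j (q j), fun k => ?_⟩
  rw [PowerSeries.X_pow_dvd_iff]
  intro j hj
  rw [map_sub, PowerSeries.coeff_mk]
  rcases Nat.le_total j k with hjk | hjk
  · obtain ⟨l, rfl⟩ := Nat.exists_eq_add_of_le hjk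
    have := PowerSeries.X_pow_dvd_iff.1 (h1 j l) j (by omega)
    rw [map_sub] at this
    linear_combination -this
  · obtain ⟨l, rfl⟩ := Nat.exists_eq_add_of_le hjk
    have := PowerSeries.X_pow_dvd_iff.1 (h1 k l) (k + l) hj
    rw [map_sub] at this
    exact this

theorem exists_tail_coeff {L a : PP} {n j : ℕ} (h : VV ^ n ∣ L - a) (hj : j < n) :
    PowerSeries.coeff j L = PowerSeries.coeff j a := by
  have := PowerSeries.X_pow_dvd_iff.1 h j hj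
  rw [map_sub] at this
  exact sub_eq_zero.1 this

/-- G2 -/
theorem exists_tail {φ : PP →ₐ[ℂ] PP} (hφ : Close φ) (F : ℂ[X]) (hF : F.Monic)
    (hdeg : F.natDegree = 27) (B Cc A' C' : PP)
    (hT : TaffP F B Cc) (hR : RooP A' C')
    (hx : VV ^ 17 ∣ Ex φ F B A' C') (hV : VV ^ 18 ∣ EV φ Cc A' C') :
    ∃ B1 Cc1 A1 C1 : PP, TaffP F B1 Cc1 ∧ RooP A1 C1 ∧
      Ex φ F B1 A1 C1 = 0 ∧ EV φ Cc1 A1 C1 = 0 ∧
      VV ^ 17 ∣ B1 - B ∧ VV ^ 17 ∣ Cc1 - Cc ∧ VV ^ 17 ∣ A1 - A' ∧ VV ^ 17 ∣ C1 - C' := by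
  let Inv : ℕ → PP × PP × PP × PP → Prop := fun N Q =>
    TaffP F Q.1 Q.2.1 ∧ RooP Q.2.2.1 Q.2.2.2 ∧ VV ^ N ∣ Ex φ F Q.1 Q.2.2.1 Q.2.2.2 ∧
      VV ^ (N + 1) ∣ EV φ Q.2.1 Q.2.2.1 Q.2.2.2
  have step : ∀ (k : ℕ) (Q : {Q // Inv (17 + k) Q}), ∃ Q' : {Q // Inv (17 + (k + 1)) Q},
      VV ^ (17 + k) ∣ Q'.1.1 - Q.1.1 ∧ VV ^ (17 + k) ∣ Q'.1.2.1 - Q.1.2.1 ∧
      VV ^ (17 + k) ∣ Q'.1.2.2.1 - Q.1.2.2.1 ∧ VV ^ (17 + k) ∣ Q'.1.2.2.2 - Q.1.2.2.2 := by
    rintro k ⟨⟨b, c, a, c'⟩, t1, t2, t3, t4⟩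
    obtain ⟨b1, c1, a1, c1', r1, r2, r3, r4, r5, r6, r7, r8⟩ :=
      tail_step hφ F hF hdeg (by omega : 17 ≤ 17 + k) b c a c' t1 t2 t3 t4
    exact ⟨⟨(b1, c1, a1, c1'), r1, r2, r3, r4⟩, r5, r6, r7, r8⟩
  choose nxt hn1 hn2 hn3 hn4 using step
  let s : (k : ℕ) → {Q // Inv (17 + k) Q} := fun k =>
    Nat.rec (motive := fun k => {Q // Inv (17 + k) Q}) ⟨(B, Cc, A', C'), hT, hR, hx, hV⟩
      (fun k Q => nxt k Q) k
  have s0 : (s 0).1 = (B, Cc, A', C') := rfl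
  have ss : ∀ k, s (k + 1) = nxt k (s k) := fun k => rfl
  obtain ⟨B1, hB1⟩ := exists_tail_limit (fun k => (s k).1.1) (fun k => by
    show VV ^ (17 + k) ∣ (s (k + 1)).1.1 - (s k).1.1
    rw [ss]; exact hn1 k (s k))
  obtain ⟨Cc1, hCc1⟩ := exists_tail_limit (fun k => (s k).1.2.1) (fun k => by
    show VV ^ (17 + k) ∣ (s (k + 1)).1.2.1 - (s k).1.2.1
    rw [ss]; exact hn2 k (s k))
  obtain ⟨A1, hA1⟩ := exists_tail_limit (fun k => (s k).1.2.2.1) (fun k => by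
    show VV ^ (17 + k) ∣ (s (k + 1)).1.2.2.1 - (s k).1.2.2.1
    rw [ss]; exact hn3 k (s k))
  obtain ⟨C1, hC1⟩ := exists_tail_limit (fun k => (s k).1.2.2.2) (fun k => by
    show VV ^ (17 + k) ∣ (s (k + 1)).1.2.2.2 - (s k).1.2.2.2
    rw [ss]; exact hn4 k (s k))
  refine ⟨B1, Cc1, A1, C1, ?_, ?_, ?_, ?_, ?_, ?_, ?_, ?_⟩
  · intro ν
    rw [exists_tail_coeff (hB1 ν) (by omega : ν < 17 + ν),
      exists_tail_coeff (hCc1 ν) (by omega : ν < 17 + ν)]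
    exact (s ν).2.1 ν
  · intro ν
    rw [exists_tail_coeff (hA1 ν) (by omega : ν < 17 + ν),
      exists_tail_coeff (hC1 ν) (by omega : ν < 17 + ν)]
    exact (s ν).2.2.1 ν
  · ext1 j
    have e : Ex φ F B1 A1 C1 = Ex φ F (s j).1.1 (s j).1.2.2.1 (s j).1.2.2.2
        + Ex φ F (B1 - (s j).1.1) (A1 - (s j).1.2.2.1) (C1 - (s j).1.2.2.2) := by
      rw [← Ex_add]; congr 1 <;> ring
    have d1 : VV ^ (17 + j) ∣ Ex φ F B1 A1 C1 := by
      rw [e]
      exact dvd_add (s j).2.2.2.1 (Ex_lead hφ F (hB1 j) (hA1 j) (hC1 j)).1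
    rw [PowerSeries.X_pow_dvd_iff.1 d1 j (by omega), map_zero]
  · ext1 j
    have e : EV φ Cc1 A1 C1 = EV φ (s j).1.2.1 (s j).1.2.2.1 (s j).1.2.2.2
        + EV φ (Cc1 - (s j).1.2.1) (A1 - (s j).1.2.2.1) (C1 - (s j).1.2.2.2) := by
      rw [← EV_add]; congr 1 <;> ring
    have d1 : VV ^ (17 + j + 1) ∣ EV φ Cc1 A1 C1 := by
      rw [e]
      exact dvd_add (s j).2.2.2.2 (EV_lead hφ (hCc1 j) (hA1 j) (hC1 j)).1
    rw [PowerSeries.X_pow_dvd_iff.1 d1 j (by omega), map_zero]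
  · exact hB1 0
  · exact hCc1 0
  · exact hA1 0
  · exact hC1 0

end Claimed.Agent.R246.F1
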