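import Claimed.Agent.R246.F1.PhiDef
import Claimed.Agent.R246.F1.Sum

/-!
# Row 246, F1, section 6 (tail lemma G1-G2): definitions and the local lemmas

For ONE index `i` the unknowns are four series `B = ∑ b0_ν V^ν`, `Cc = ∑ c0_ν V^ν`, `A' = ∑ aoo_ν V^ν`, `C' = ∑ coo_ν V^ν`.
Defects of (DD3):  `Ex = φ(F B) - (A' ∂_x + V C' ∂_V)(φ x)`,  `EV = φ(V Cc) - (A' ∂_x + V C' ∂_V)(φ V)`.
They are additive in `(B,Cc,A',C')`.

PROOFS.
* `g1_split` (G1).  `e = ee N`, `m = mm N`; for `N ≥ 17`: `27 e ≤ 20 N + 2`, `27 m ≤ 20 N + 1`, `e ≥ 1` (`unfold ee mm; omega`).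
  `Q := p /ₘ F^e`, `r := p %ₘ F^e`; `β := F^(e-1) Q`, `α := -r`: `F β - α = F^e Q + r = p`, `natDegree r < 27 e`.
  `T := 3 q + 2 β F'`, `Q' := T /ₘ F^m`, `r' := T %ₘ F^m`; `γ := C (1/3) (F^m Q' - 2 β F')`, `γ' := - C (1/3) r'`:
  `3 γ + 2 β F' = F^m Q'`, `γ - γ' = C(1/3)(T - 2βF') = q`, `natDegree r' < 27 m`.
  The two coefficients in the last clause are `0` (`coeff_eq_zero_of_natDegree_lt`).
* `Ex_lead`.  `φ(C F * B)`: `phi`-closeness gives divisibility by `V^N` and `coeff N = F * B_N`.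
  `φ x = x + V y` (from `hφ 0`), so `dx (φ x) = 1 + V dx y`; `A' * dx(φ x) ≡ A' mod V^(N+1)`; `V * C' * dV(..) ∈ V^(N+1)`.
* `EV_lead`.  `φ V = V + V^2 y` (from `hφ 1`): `dx (φ V) = V^2 dx y`, `dV (φ V) = 1 + V(2 y + V dV y)`.
-/

set_option autoImplicit false

namespace Claimed.Agent.R246.F1

open Polynomial

/-- (p2) -/
def Close (φ : PP →ₐ[ℂ] PP) : Prop := ∀ (n : ℕ) (a : PP), VV ^ n ∣ a → VV ^ (n + 1) ∣ φ a - a

/-- `x`-component of the defect of (DD3) -/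
noncomputable def Ex (φ : PP →ₐ[ℂ] PP) (F : ℂ[X]) (B A' C' : PP) : PP :=
  φ (PowerSeries.C F * B) - mkD A' (VV * C') (φ xx)

/-- `V`-component of the defect of (DD3) -/
noncomputable def EV (φ : PP →ₐ[ℂ] PP) (Cc A' C' : PP) : PP :=
  φ (VV * Cc) - mkD A' (VV * C') (φ VV)

/-- `Taff(ν)` for all `ν` -/
def TaffP (F : ℂ[X]) (B Cc : PP) : Prop :=
  ∀ ν, F ^ (ee ν - 1) ∣ PowerSeries.coeff ν B ∧
    F ^ mm ν ∣ 3 * PowerSeries.coeff ν Cc + 2 * (PowerSeries.coeff ν B * derivative F)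

/-- `Roo(ν)` for all `ν` -/
def RooP (A' C' : PP) : Prop :=
  ∀ ν, (PowerSeries.coeff ν A').natDegree ≤ 20 * ν + 2 ∧
    (PowerSeries.coeff ν C').natDegree ≤ 20 * ν + 1 ∧
    (PowerSeries.coeff ν C').coeff (20 * ν + 1) + 20 * (PowerSeries.coeff ν A').coeff (20 * ν + 2) = 0

theorem Ex_add (φ : PP →ₐ[ℂ] PP) (F : ℂ[X]) (B A' C' B1 A1 C1 : PP) :
    Ex φ F (B + B1) (A' + A1) (C' + C1) = Ex φ F B A' C' + Ex φ F B1 A1 C1 := by
  simp only [Ex, mkD_apply, mul_add, map_add, add_mul]; ring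

theorem EV_add (φ : PP →ₐ[ℂ] PP) (Cc A' C' Cc1 A1 C1 : PP) :
    EV φ (Cc + Cc1) (A' + A1) (C' + C1) = EV φ Cc A' C' + EV φ Cc1 A1 C1 := by
  simp only [EV, mkD_apply, mul_add, map_add, add_mul]; ring

/-- G1: `ℂ[x]^2 = Taff(N) + Roo(N)` for `N ≥ 17` -/
theorem g1_split (F : ℂ[X]) (hF : F.Monic) (hdeg : F.natDegree = 27) {N : ℕ} (hN : 17 ≤ N)
    (p q : ℂ[X]) :
    ∃ β γ α γ' : ℂ[X], F ^ (ee N - 1) ∣ β ∧ F ^ mm N ∣ 3 * γ + 2 * (β * derivative F) ∧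
      α.natDegree ≤ 20 * N + 2 ∧ γ'.natDegree ≤ 20 * N + 1 ∧
      γ'.coeff (20 * N + 1) + 20 * α.coeff (20 * N + 2) = 0 ∧
      F * β - α = p ∧ γ - γ' = q := by
  have he1 : 1 ≤ ee N := by unfold ee; omega
  have hm1 : 1 ≤ mm N := by unfold mm; omega
  have he : 27 * ee N ≤ 20 * N + 2 := by unfold ee; omega
  have hm : 27 * mm N ≤ 20 * N + 1 := by unfold mm; omega
  have hFe : (F ^ ee N).Monic := hF.pow _
  have hFm : (F ^ mm N).Monic := hF.pow _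
  have hde : (F ^ ee N).natDegree = 27 * ee N := by rw [hF.natDegree_pow, hdeg]; ring
  have hdm : (F ^ mm N).natDegree = 27 * mm N := by rw [hF.natDegree_pow, hdeg]; ring
  have hne : F ^ ee N ≠ 1 := by
    intro h; rw [h, natDegree_one] at hde; omega
  have hnm : F ^ mm N ≠ 1 := by
    intro h; rw [h, natDegree_one] at hdm; omega
  set Q := p /ₘ (F ^ ee N) with hQ
  set r := p %ₘ (F ^ ee N) with hr
  have hpr : r + F ^ ee N * Q = p := modByMonic_add_div p (F ^ ee N)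
  have hrd : r.natDegree < 27 * ee N := hde ▸ natDegree_modByMonic_lt p hFe hne
  set β := F ^ (ee N - 1) * Q with hβ
  set T := 3 * q + 2 * (β * derivative F) with hT
  set Q' := T /ₘ (F ^ mm N) with hQ'
  set r' := T %ₘ (F ^ mm N) with hr'
  have hTr : r' + F ^ mm N * Q' = T := modByMonic_add_div T (F ^ mm N)
  have hrd' : r'.natDegree < 27 * mm N := hdm ▸ natDegree_modByMonic_lt T hFm hnm
  have h3 : (C (1/3 : ℂ) : ℂ[X]) * 3 = 1 := by
    have : (3 : ℂ[X]) = C 3 := (map_ofNat C 3).symm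
    rw [this, ← C_mul]; norm_num
  have hγd : (-(C (1/3 : ℂ) * r')).natDegree < 27 * mm N := by
    rw [natDegree_neg]
    exact lt_of_le_of_lt (natDegree_C_mul_le _ _) hrd'
  have hαd : (-r).natDegree < 27 * ee N := by rw [natDegree_neg]; exact hrd
  refine ⟨β, C (1/3 : ℂ) * (F ^ mm N * Q' - 2 * (β * derivative F)), -r, -(C (1/3 : ℂ) * r'),
    Dvd.intro _ rfl, ?_, by omega, by omega, ?_, ?_, ?_⟩
  · refine ⟨Q', ?_⟩
    calc 3 * (C (1/3 : ℂ) * (F ^ mm N * Q' - 2 * (β * derivative F))) + 2 * (β * derivative F)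
        = (C (1/3 : ℂ) * 3) * (F ^ mm N * Q' - 2 * (β * derivative F))
            + 2 * (β * derivative F) := by ring
      _ = F ^ mm N * Q' := by rw [h3]; ring
  · rw [coeff_eq_zero_of_natDegree_lt (by omega), coeff_eq_zero_of_natDegree_lt (by omega)]
    simp
  · have : F * β = F ^ ee N * Q := by
      rw [hβ, ← mul_assoc, ← pow_succ']
      congr 2; omega
    rw [this, sub_neg_eq_add, add_comm]; exact hpr
  · calc C (1/3 : ℂ) * (F ^ mm N * Q' - 2 * (β * derivative F)) - -(C (1/3 : ℂ) * r')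
        = C (1/3 : ℂ) * ((r' + F ^ mm N * Q') - 2 * (β * derivative F)) := by ring
      _ = C (1/3 : ℂ) * (T - 2 * (β * derivative F)) := by rw [hTr]
      _ = (C (1/3 : ℂ) * 3) * q := by rw [hT]; ring
      _ = q := by rw [h3, one_mul]

/-- `dx` keeps divisibility by powers of `V` -/
theorem Ex_lead_dvd_dx {k : ℕ} {a : PP} (h : VV ^ k ∣ a) : VV ^ k ∣ dx a := by
  rw [PowerSeries.X_pow_dvd_iff] at h ⊢
  intro m hm
  rw [coeff_dx, h m hm, derivative_zero]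

/-- `dV` loses one power of `V` -/
theorem Ex_lead_dvd_dV {k : ℕ} {a : PP} (h : VV ^ (k + 1) ∣ a) : VV ^ k ∣ dV a := by
  rw [PowerSeries.X_pow_dvd_iff] at h ⊢
  intro m hm
  rw [coeff_dV, h (m + 1) (by omega), zero_mul]

theorem Ex_lead_dx_xx : dx xx = 1 := by
  ext1 n
  rw [coeff_dx, PowerSeries.coeff_C, PowerSeries.coeff_one]
  split_ifs <;> simp

theorem Ex_lead_dx_VV : dx VV = 0 := by
  ext1 n
  rw [coeff_dx, PowerSeries.coeff_X]
  split_ifs <;> simp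

theorem Ex_lead_dV_VV : dV VV = 1 := by
  ext1 n
  rw [coeff_dV, PowerSeries.coeff_X, PowerSeries.coeff_one]
  by_cases h : n = 0
  · subst h; simp
  · simp [h]

/-- congruent modulo `V^(N+1)`: same divisibility by `V^N`, same coefficient `N` -/
theorem Ex_lead_aux {N : ℕ} {a b : PP} (h : VV ^ (N + 1) ∣ a - b) (hb : VV ^ N ∣ b) :
    VV ^ N ∣ a ∧ PowerSeries.coeff N a = PowerSeries.coeff N b := by
  constructor
  · have h1 : VV ^ N ∣ a - b := Dvd.dvd.trans (pow_dvd_pow _ (Nat.le_succ N)) h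
    have := dvd_add h1 hb
    rwa [sub_add_cancel] at this
  · rw [PowerSeries.X_pow_dvd_iff] at h
    have := h N (Nat.lt_succ_self N)
    rw [map_sub, sub_eq_zero] at this
    exact this

theorem Ex_lead {φ : PP →ₐ[ℂ] PP} (hφ : Close φ) (F : ℂ[X]) {N : ℕ} {B A' C' : PP}
    (hB : VV ^ N ∣ B) (hA : VV ^ N ∣ A') (hC : VV ^ N ∣ C') :
    VV ^ N ∣ Ex φ F B A' C' ∧ PowerSeries.coeff N (Ex φ F B A' C')
      = F * PowerSeries.coeff N B - PowerSeries.coeff N A' := by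
  have hFB : VV ^ N ∣ PowerSeries.C F * B := Dvd.dvd.mul_left hB _
  have h1 : VV ^ (N + 1) ∣ φ (PowerSeries.C F * B) - PowerSeries.C F * B := hφ N _ hFB
  have hx : VV ^ 1 ∣ φ xx - xx := hφ 0 xx (by simp)
  have hdx : VV ^ 1 ∣ dx (φ xx - xx) := Ex_lead_dvd_dx hx
  have h2 : VV ^ (N + 1) ∣ A' * dx (φ xx - xx) := by
    rw [pow_succ]; exact mul_dvd_mul hA (by simpa using hdx)
  have h3 : VV ^ (N + 1) ∣ VV * C' * dV (φ xx) := by
    rw [pow_succ, mul_comm (VV ^ N) VV]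
    exact Dvd.dvd.mul_right (mul_dvd_mul_left _ hC) _
  have key : Ex φ F B A' C' - (PowerSeries.C F * B - A')
      = (φ (PowerSeries.C F * B) - PowerSeries.C F * B) - A' * dx (φ xx - xx)
        - VV * C' * dV (φ xx) := by
    rw [Ex, mkD_apply, map_sub, Ex_lead_dx_xx]
    ring
  have hdiv : VV ^ (N + 1) ∣ Ex φ F B A' C' - (PowerSeries.C F * B - A') := by
    rw [key]; exact dvd_sub (dvd_sub h1 h2) h3
  obtain ⟨g1, g2⟩ := Ex_lead_aux hdiv (dvd_sub hFB hA)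
  refine ⟨g1, ?_⟩
  rw [g2, map_sub, PowerSeries.coeff_C_mul]

theorem EV_lead {φ : PP →ₐ[ℂ] PP} (hφ : Close φ) {N : ℕ} {Cc A' C' : PP}
    (hB : VV ^ N ∣ Cc) (hA : VV ^ N ∣ A') (hC : VV ^ N ∣ C') :
    VV ^ (N + 1) ∣ EV φ Cc A' C' ∧ PowerSeries.coeff (N + 1) (EV φ Cc A' C')
      = PowerSeries.coeff N Cc - PowerSeries.coeff N C' := by
  have hVC : VV ^ (N + 1) ∣ VV * Cc := by
    rw [pow_succ, mul_comm (VV ^ N) VV]; exact mul_dvd_mul_left _ hB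
  have hVC' : VV ^ (N + 1) ∣ VV * C' := by
    rw [pow_succ, mul_comm (VV ^ N) VV]; exact mul_dvd_mul_left _ hC
  have h1 : VV ^ (N + 1 + 1) ∣ φ (VV * Cc) - VV * Cc := hφ (N + 1) _ hVC
  have hV : VV ^ 2 ∣ φ VV - VV := hφ 1 VV (by simp)
  have hdx : VV ^ 2 ∣ dx (φ VV - VV) := Ex_lead_dvd_dx hV
  have hdV : VV ^ 1 ∣ dV (φ VV - VV) := Ex_lead_dvd_dV hV
  have h2 : VV ^ (N + 1 + 1) ∣ A' * dx (φ VV - VV) := by
    rw [show N + 1 + 1 = N + 2 from rfl, pow_add]; exact mul_dvd_mul hA hdx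
  have h3 : VV ^ (N + 1 + 1) ∣ VV * C' * dV (φ VV - VV) := by
    rw [pow_succ (VV) (N + 1)]; exact mul_dvd_mul hVC' (by simpa using hdV)
  have key : EV φ Cc A' C' - (VV * Cc - VV * C')
      = (φ (VV * Cc) - VV * Cc) - A' * dx (φ VV - VV) - VV * C' * dV (φ VV - VV) := by
    rw [EV, mkD_apply, map_sub, map_sub, Ex_lead_dx_VV, Ex_lead_dV_VV]
    ring
  have hdiv : VV ^ (N + 1 + 1) ∣ EV φ Cc A' C' - (VV * Cc - VV * C') := by
    rw [key]; exact dvd_sub (dvd_sub h1 h2) h3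
  obtain ⟨g1, g2⟩ := Ex_lead_aux hdiv (dvd_sub hVC hVC')
  refine ⟨g1, ?_⟩
  rw [g2, map_sub, PowerSeries.coeff_succ_X_mul, PowerSeries.coeff_succ_X_mul]

end Claimed.Agent.R246.F1
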